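import Vale.Agent.P156.H653.Proj

/-!
# A Gaussian mixture with linear score is Gaussian

If the score of `X + √t N` is `x ↦ T x`, then `charFun μ ξ = exp ((⟪w, ξ⟫ + t |ξ|²)/2)` for every
`w` with `T† w = ξ`; and `T†` is injective.
-/

open MeasureTheory Real Module Filter
open scoped RealInnerProductSpace ENNReal Topology

set_option linter.unusedSectionVars false

noncomputable section

namespace Vale.Agent.P156.H653

variable {V : Type*} [NormedAddCommGroup V] [InnerProductSpace ℝ V] [FiniteDimensional ℝ V]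
  [MeasurableSpace V] [BorelSpace V]

variable {μ : Measure V} [IsProbabilityMeasure μ]

lemma integral_cexp_pd (h2 : Integrable (fun y => ‖y‖ ^ 2) μ) {t : ℝ} (ht : 0 < t) (ξ : V) :
    ∫ x, Complex.exp (⟪x, ξ⟫ * Complex.I) * (pd μ t x : ℂ) =
      charFun μ ξ * Complex.exp (-((t * ‖ξ‖ ^ 2 / 2 : ℝ) : ℂ)) := by
  have hc := continuous_gk (V := V) t
  have hcont : Continuous (fun p : V × V =>
      Complex.exp (⟪p.1, ξ⟫ * Complex.I) * (gk t (p.1 - p.2) : ℂ)) := by fun_prop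
  have hint := mix_dom (μ := μ) (C := 1)
    (f := fun x y => Complex.exp (⟪x, ξ⟫ * Complex.I) * (gk t (x - y) : ℂ)) h2 ht
    hcont.aestronglyMeasurable (fun x y => by
      rw [norm_mul, Complex.norm_exp_ofReal_mul_I, one_mul, one_mul, Complex.norm_real,
        Real.norm_eq_abs, abs_of_pos (gk_pos t _)]
      have g := (gk_pos t (x - y)).le
      have e1 : 1 * gk t (x - y) ≤ ((1 + ‖x‖ ^ 2) * (1 + ‖x - y‖ ^ 2)) * gk t (x - y) := by
        apply mul_le_mul_of_nonneg_right _ g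
        nlinarith [sq_nonneg ‖x‖, sq_nonneg ‖x - y‖, mul_nonneg (sq_nonneg ‖x‖)
          (sq_nonneg ‖x - y‖)]
      linarith)
  have h3 := mix_fubini (μ := μ)
    (f := fun x y => Complex.exp (⟪x, ξ⟫ * Complex.I) * (gk t (x - y) : ℂ)) hint
  have e1 : ∀ x : V, ∫ y, Complex.exp (⟪x, ξ⟫ * Complex.I) * (gk t (x - y) : ℂ) ∂μ =
      Complex.exp (⟪x, ξ⟫ * Complex.I) * (pd μ t x : ℂ) := by
    intro x
    rw [integral_const_mul]
    congr 1
    unfold pd
    exact integral_ofReal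
  simp_rw [e1] at h3
  rw [h3]
  have e2 : ∀ y : V, ∫ z : V, Complex.exp (⟪y + z, ξ⟫ * Complex.I) * (gk t (y + z - y) : ℂ) =
      Complex.exp (⟪y, ξ⟫ * Complex.I) * charFun (gM V t) ξ := by
    intro y
    rw [charFun_apply, integral_gM, ← integral_const_mul]
    congr 1
    funext z
    rw [inner_add_left, Complex.ofReal_add, add_mul, Complex.exp_add, add_sub_cancel_left,
      Complex.real_smul]
    ring
  simp_rw [e2]
  rw [integral_mul_const, charFun_gM ht]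
  rfl

/-- Integration by parts for `pd`. -/
lemma hasLineDerivAt_pd_ofReal {t : ℝ} (ht : 0 < t) (w x : V) :
    HasLineDerivAt ℝ (fun x => (pd μ t x : ℂ)) (⟪gd μ t x, w⟫ : ℂ) x w := by
  have h := hasLineDerivAt_pd (μ := μ) ht w x
  unfold HasLineDerivAt at h ⊢
  exact h.ofReal_comp

lemma norm_gd_le {t : ℝ} (h2 : Integrable (fun y => ‖y‖ ^ 2) μ) (ht : 0 < t) :
    ∃ C, 0 < C ∧ ∀ x : V, ‖gd μ t x‖ ≤ C * (1 + ‖x‖ ^ 2) * pd μ t x := by
  obtain ⟨C, hC, h⟩ := exists_grad_bound (μ := μ) h2 ht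
  refine ⟨2 * C, by positivity, fun x => (h x).trans ?_⟩
  have hp := (pd_pos (μ := μ) ht x).le
  have : 1 + ‖x‖ ≤ 2 * (1 + ‖x‖ ^ 2) := by nlinarith [sq_nonneg (‖x‖ - 1)]
  calc C * (1 + ‖x‖) * pd μ t x ≤ C * (2 * (1 + ‖x‖ ^ 2)) * pd μ t x := by gcongr
    _ = _ := by ring

lemma integrable_inner_gd (h2 : Integrable (fun y => ‖y‖ ^ 2) μ) {t : ℝ} (ht : 0 < t) (w : V) :
    Integrable (fun x => ⟪gd μ t x, w⟫) := by
  obtain ⟨C, hC, h⟩ := norm_gd_le (μ := μ) h2 ht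
  refine integrable_of_le_pd (μ := μ) h2 (κ := t) (C := ‖w‖ * C) ht
    ((continuous_gd ht).inner continuous_const).measurable fun x => ?_
  refine (abs_real_inner_le_norm _ _).trans ?_
  calc ‖gd μ t x‖ * ‖w‖ ≤ (C * (1 + ‖x‖ ^ 2) * pd μ t x) * ‖w‖ := by gcongr; exact h x
    _ = _ := by ring

/-- `∫ e^{i r ⟨x,ξ⟩} ∂_w p = - i r ⟨w,ξ⟩ ∫ e^{i r⟨x,ξ⟩} p`. -/
lemma ibp_cexp (h2 : Integrable (fun y => ‖y‖ ^ 2) μ) {t : ℝ} (ht : 0 < t) (r : ℝ) (ξ w : V) :
    ∫ x, Complex.exp ((r * ⟪x, ξ⟫ : ℝ) * Complex.I) * (⟪gd μ t x, w⟫ : ℂ) =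
      -((r * ⟪w, ξ⟫ : ℝ) * Complex.I) *
        ∫ x, Complex.exp ((r * ⟪x, ξ⟫ : ℝ) * Complex.I) * (pd μ t x : ℂ) := by
  have hcp := continuous_pd (μ := μ) ht
  have hcg := continuous_gd (μ := μ) ht
  have ip := integrable_pd (μ := μ) h2 ht
  have ig := integrable_inner_gd (μ := μ) h2 ht w
  have ce : Continuous fun x : V => Complex.exp ((r * ⟪x, ξ⟫ : ℝ) * Complex.I) := by fun_prop
  have hd : ∀ x : V, HasLineDerivAt ℝ (fun x => Complex.exp ((r * ⟪x, ξ⟫ : ℝ) * Complex.I))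
      (((r * ⟪w, ξ⟫ : ℝ) * Complex.I) * Complex.exp ((r * ⟪x, ξ⟫ : ℝ) * Complex.I)) x w := by
    intro x
    unfold HasLineDerivAt
    have e : ∀ u : ℝ, (r * ⟪x + u • w, ξ⟫ : ℝ) = r * ⟪x, ξ⟫ + u * (r * ⟪w, ξ⟫) := by
      intro u
      rw [inner_add_left, real_inner_smul_left]; ring
    have h1 : HasDerivAt (fun u : ℝ => (r * ⟪x + u • w, ξ⟫ : ℝ)) (r * ⟪w, ξ⟫) 0 := by
      simp_rw [e]
      simpa using ((hasDerivAt_id (0 : ℝ)).mul_const (r * ⟪w, ξ⟫)).const_add (r * ⟪x, ξ⟫)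
    have h2 := ((h1.ofReal_comp).mul_const Complex.I).cexp
    refine HasDerivAt.congr_deriv h2 ?_
    simp only [zero_smul, add_zero]
    ring
  have hn : ∀ x : V, ‖Complex.exp ((r * ⟪x, ξ⟫ : ℝ) * Complex.I)‖ = 1 := fun x =>
    Complex.norm_exp_ofReal_mul_I _
  have i1 : Integrable (fun x => Complex.exp ((r * ⟪x, ξ⟫ : ℝ) * Complex.I) *
      (pd μ t x : ℂ)) := by
    refine Integrable.mono' ip (by fun_prop : Continuous fun x =>
      Complex.exp ((r * ⟪x, ξ⟫ : ℝ) * Complex.I) * (pd μ t x : ℂ)).aestronglyMeasurable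
      (Eventually.of_forall fun x => ?_)
    rw [norm_mul, hn, one_mul, Complex.norm_real, Real.norm_eq_abs, abs_of_pos (pd_pos ht x)]
  have i2 : Integrable (fun x => (((r * ⟪w, ξ⟫ : ℝ) * Complex.I) *
      Complex.exp ((r * ⟪x, ξ⟫ : ℝ) * Complex.I)) * (pd μ t x : ℂ)) := by
    simp_rw [mul_assoc (((r * ⟪w, ξ⟫ : ℝ) : ℂ) * Complex.I)]
    exact i1.const_mul _
  have i3 : Integrable (fun x => Complex.exp ((r * ⟪x, ξ⟫ : ℝ) * Complex.I) *
      (⟪gd μ t x, w⟫ : ℂ)) := by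
    refine Integrable.mono' ig.norm (by fun_prop : Continuous fun x =>
      Complex.exp ((r * ⟪x, ξ⟫ : ℝ) * Complex.I) * (⟪gd μ t x, w⟫ : ℂ)).aestronglyMeasurable
      (Eventually.of_forall fun x => ?_)
    rw [norm_mul, hn, one_mul, Complex.norm_real]
  have key := integral_bilinear_hasLineDerivAt_right_eq_neg_left_of_integrable
    (μ := (volume : Measure V)) (f := fun x => Complex.exp ((r * ⟪x, ξ⟫ : ℝ) * Complex.I))
    (f' := fun x => ((r * ⟪w, ξ⟫ : ℝ) * Complex.I) *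
      Complex.exp ((r * ⟪x, ξ⟫ : ℝ) * Complex.I))
    (g := fun x => (pd μ t x : ℂ)) (g' := fun x => (⟪gd μ t x, w⟫ : ℂ)) (v := w)
    (B := ContinuousLinearMap.mul ℝ ℂ) i2 i3 i1 (fun x _ => hd x)
    (fun x _ => hasLineDerivAt_pd_ofReal ht w x)
  simp only [ContinuousLinearMap.mul_apply'] at key
  rw [key]
  simp_rw [mul_assoc (((r * ⟪w, ξ⟫ : ℝ) : ℂ) * Complex.I)]
  rw [integral_const_mul]
  ring

/-- A linear score determines the characteristic function. -/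
theorem charFun_of_linear_score (h2 : Integrable (fun y => ‖y‖ ^ 2) μ) {t : ℝ} (ht : 0 < t)
    (T : V →L[ℝ] V) (hT : ∀ x, sc μ t x = T x) {w ξ : V} (hw : T.adjoint w = ξ) :
    charFun μ ξ = Complex.exp ((((⟪w, ξ⟫ + t * ‖ξ‖ ^ 2) / 2 : ℝ) : ℂ)) := by
  have hcp := continuous_pd (μ := μ) ht
  have ip := integrable_pd (μ := μ) h2 ht
  have hgd : ∀ x, ⟪gd μ t x, w⟫ = ⟪x, ξ⟫ * pd μ t x := by
    intro x
    rw [← pd_smul_sc ht, hT, real_inner_smul_left, ← ContinuousLinearMap.adjoint_inner_right, hw,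
      mul_comm]
  set F : ℝ → ℂ := fun r => ∫ x, Complex.exp ((r * ⟪x, ξ⟫ : ℝ) * Complex.I) * (pd μ t x : ℂ)
    with hF
  have hn : ∀ (r : ℝ) (x : V), ‖Complex.exp ((r * ⟪x, ξ⟫ : ℝ) * Complex.I)‖ = 1 := fun r x =>
    Complex.norm_exp_ofReal_mul_I _
  have i1 : ∀ r : ℝ, Integrable (fun x => Complex.exp ((r * ⟪x, ξ⟫ : ℝ) * Complex.I) *
      (pd μ t x : ℂ)) := by
    intro r
    refine Integrable.mono' ip (by fun_prop : Continuous fun x =>
      Complex.exp ((r * ⟪x, ξ⟫ : ℝ) * Complex.I) * (pd μ t x : ℂ)).aestronglyMeasurable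
      (Eventually.of_forall fun x => ?_)
    rw [norm_mul, hn, one_mul, Complex.norm_real, Real.norm_eq_abs, abs_of_pos (pd_pos ht x)]
  have hder : ∀ r : ℝ, HasDerivAt F ((r * ⟪w, ξ⟫ : ℝ) * F r) r := by
    intro r
    have h := hasDerivAt_integral_of_dominated_loc_of_deriv_le (μ := (volume : Measure V))
      (𝕜 := ℝ) (F := fun (r : ℝ) x => Complex.exp ((r * ⟪x, ξ⟫ : ℝ) * Complex.I) *
        (pd μ t x : ℂ))
      (F' := fun (r : ℝ) x => (⟪x, ξ⟫ * Complex.I) *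
        (Complex.exp ((r * ⟪x, ξ⟫ : ℝ) * Complex.I) * (pd μ t x : ℂ)))
      (x₀ := r) (s := Set.univ) (bound := fun x => |⟪gd μ t x, w⟫|) univ_mem
      (Eventually.of_forall fun r => (i1 r).aestronglyMeasurable) (i1 r)
      ((by fun_prop : Continuous fun x => (⟪x, ξ⟫ * Complex.I) *
        (Complex.exp ((r * ⟪x, ξ⟫ : ℝ) * Complex.I) * (pd μ t x : ℂ))).aestronglyMeasurable)
      (Eventually.of_forall fun x r _ => by
        rw [norm_mul, norm_mul, norm_mul, hn, Complex.norm_I, mul_one, one_mul, Complex.norm_real,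
          Complex.norm_real, Real.norm_eq_abs, Real.norm_eq_abs, hgd, abs_mul])
      (integrable_inner_gd h2 ht w).abs
      (Eventually.of_forall fun x r _ => by
        have h1 : HasDerivAt (fun r : ℝ => (r * ⟪x, ξ⟫ : ℝ)) ⟪x, ξ⟫ r := by
          simpa using (hasDerivAt_id r).mul_const ⟪x, ξ⟫
        have h3 := (((h1.ofReal_comp).mul_const Complex.I).cexp).mul_const (pd μ t x : ℂ)
        refine HasDerivAt.congr_deriv h3 ?_
        ring)
    refine HasDerivAt.congr_deriv h.2 ?_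
    have e1 : ∀ x : V, (⟪x, ξ⟫ * Complex.I) *
        (Complex.exp ((r * ⟪x, ξ⟫ : ℝ) * Complex.I) * (pd μ t x : ℂ)) =
        Complex.I * (Complex.exp ((r * ⟪x, ξ⟫ : ℝ) * Complex.I) * (⟪gd μ t x, w⟫ : ℂ)) := by
      intro x
      rw [hgd]
      push_cast
      ring
    simp_rw [e1]
    rw [integral_const_mul, ibp_cexp h2 ht]
    have : Complex.I * (-((r * ⟪w, ξ⟫ : ℝ) * Complex.I) * F r) = (r * ⟪w, ξ⟫ : ℝ) * F r := by
      linear_combination (-(((r * ⟪w, ξ⟫ : ℝ) : ℂ) * F r)) * Complex.I_mul_I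
    exact this
  -- solve the ODE
  set a : ℝ := ⟪w, ξ⟫ with ha
  have hder2 : ∀ r : ℝ, HasDerivAt (fun r : ℝ => F r * Complex.exp (-((r ^ 2 * a / 2 : ℝ) : ℂ)))
      0 r := by
    intro r
    have h1 : HasDerivAt (fun r : ℝ => r ^ 2 * a / 2) (r * a) r := by
      have := ((hasDerivAt_pow 2 r).mul_const a).div_const 2
      refine HasDerivAt.congr_deriv this ?_
      push_cast
      ring
    have h3 := (hder r).mul ((h1.ofReal_comp).neg.cexp)
    refine HasDerivAt.congr_deriv h3 ?_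
    push_cast
    ring
  have hconst := is_const_of_deriv_eq_zero (fun r => (hder2 r).differentiableAt)
    (fun r => (hder2 r).deriv) 1 0
  have hF0 : F 0 = 1 := by
    rw [hF]
    simp only [zero_mul, Complex.ofReal_zero, Complex.exp_zero, one_mul]
    rw [integral_complex_ofReal, integral_pd h2 ht, Complex.ofReal_one]
  have hF1 : F 1 = charFun μ ξ * Complex.exp (-((t * ‖ξ‖ ^ 2 / 2 : ℝ) : ℂ)) := by
    rw [← integral_cexp_pd h2 ht, hF]
    simp only [one_mul]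
  simp only [hF0, hF1] at hconst
  have e3 : charFun μ ξ * Complex.exp (-((t * ‖ξ‖ ^ 2 / 2 : ℝ) : ℂ)) *
      Complex.exp (-(((1 : ℝ) ^ 2 * a / 2 : ℝ) : ℂ)) = 1 := by
    rw [hconst]
    simp
  rw [mul_assoc, ← Complex.exp_add] at e3
  have e4 : Complex.exp ((((a + t * ‖ξ‖ ^ 2) / 2 : ℝ) : ℂ)) *
      Complex.exp (-((t * ‖ξ‖ ^ 2 / 2 : ℝ) : ℂ) + -(((1 : ℝ) ^ 2 * a / 2 : ℝ) : ℂ)) = 1 := by
    rw [← Complex.exp_add, Complex.exp_eq_one_iff]
    refine ⟨0, ?_⟩
    push_cast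
    ring
  have e5 : Complex.exp (-((t * ‖ξ‖ ^ 2 / 2 : ℝ) : ℂ) + -(((1 : ℝ) ^ 2 * a / 2 : ℝ) : ℂ)) ≠ 0 :=
    Complex.exp_ne_zero _
  exact mul_right_cancel₀ e5 (e3.trans e4.symm)

/-- The adjoint of a linear score is injective. -/
theorem adjoint_score_injective (h2 : Integrable (fun y => ‖y‖ ^ 2) μ) {t : ℝ} (ht : 0 < t)
    (T : V →L[ℝ] V) (hT : ∀ x, sc μ t x = T x) {w : V} (hw : T.adjoint w = 0) : w = 0 := by
  have h1 := fun r : ℝ => ibp_cexp (μ := μ) h2 ht r w w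
  have hgd : ∀ x, ⟪gd μ t x, w⟫ = 0 := by
    intro x
    rw [← pd_smul_sc ht, hT, real_inner_smul_left, ← ContinuousLinearMap.adjoint_inner_right, hw,
      inner_zero_right, mul_zero]
  simp only [hgd, Complex.ofReal_zero, mul_zero, integral_zero] at h1
  by_contra hne
  have hw0 : ⟪w, w⟫ ≠ 0 := by
    rw [real_inner_self_eq_norm_sq]; positivity
  set F : ℝ → ℂ := fun r => ∫ x, Complex.exp ((r * ⟪x, w⟫ : ℝ) * Complex.I) * (pd μ t x : ℂ)
    with hF
  have h3 : ∀ r : ℝ, r ≠ 0 → F r = 0 := by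
    intro r hr
    have := (h1 r).symm
    rcases mul_eq_zero.1 this with h | h
    · exfalso
      have : ((r * ⟪w, w⟫ : ℝ) : ℂ) * Complex.I ≠ 0 := by
        apply mul_ne_zero _ Complex.I_ne_zero
        exact_mod_cast mul_ne_zero hr hw0
      exact this (neg_eq_zero.1 h)
    · exact h
  -- but `F (r)` is the characteristic function along the ray, continuous with value 1 at 0
  have h4 : ∀ r : ℝ, F r = charFun μ (r • w) *
      Complex.exp (-((t * ‖r • w‖ ^ 2 / 2 : ℝ) : ℂ)) := by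
    intro r
    rw [← integral_cexp_pd h2 ht, hF]
    simp only [real_inner_smul_right]
  have h5 : Continuous F := by
    have ip := integrable_pd (μ := μ) h2 ht
    refine continuous_of_dominated (bound := fun x => pd μ t x) ?_ ?_ ip ?_
    · intro r
      have hcp := continuous_pd (μ := μ) ht
      exact (by fun_prop : Continuous fun x => Complex.exp ((r * ⟪x, w⟫ : ℝ) * Complex.I) *
        (pd μ t x : ℂ)).aestronglyMeasurable
    · intro r
      refine Eventually.of_forall fun x => ?_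
      rw [norm_mul, Complex.norm_exp_ofReal_mul_I, one_mul, Complex.norm_real, Real.norm_eq_abs,
        abs_of_pos (pd_pos ht x)]
    · exact Eventually.of_forall fun x => by fun_prop
  have h6 : F = fun _ => 0 := by
    have hd : Dense {r : ℝ | r ≠ 0} := dense_compl_singleton 0
    refine h5.ext_on hd continuous_const fun r hr => h3 r hr
  have h7 : F 0 = 1 := by
    rw [hF]
    simp only [zero_mul, Complex.ofReal_zero, Complex.exp_zero, one_mul]
    rw [integral_complex_ofReal, integral_pd h2 ht, Complex.ofReal_one]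
  rw [h6] at h7
  exact zero_ne_one h7

end Vale.Agent.P156.H653
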