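import Vale.Agent.P156.H653.Defs
import Mathlib.Probability.Distributions.Gaussian.CharFun
import Mathlib.Probability.Distributions.Gaussian.Fernique

/-!
# The characteristic function of the wave (from helper894's `H894/Wave.lean`, light imports)
-/

open MeasureTheory ProbabilityTheory
open Vale.Agent.P156.H849 Vale.Agent.P156.H653
open scoped RealInnerProductSpace BigOperators

noncomputable section

namespace Vale.Agent.P156.H653.WC

variable {d q k : ℕ}

/-- The functional `x ↦ ⟪l0, x_o⟫ + ∑ ⟪l j, x_j⟫`. -/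
def dualSt (l0 : Ek k) (l : Fin d → Ek k) : StrongDual ℝ (StarSp d k) :=
  (innerSL ℝ l0).comp (ContinuousLinearMap.fst ℝ (Ek k) (Fin d → Ek k)) +
    ∑ j, (innerSL ℝ (l j)).comp ((ContinuousLinearMap.proj j).comp
      (ContinuousLinearMap.snd ℝ (Ek k) (Fin d → Ek k)))

theorem dualSt_apply (l0 : Ek k) (l : Fin d → Ek k) (x : StarSp d k) :
    dualSt l0 l x = ⟪l0, x.1⟫ + ∑ j, ⟪l j, x.2 j⟫ := by
  simp [dualSt]

theorem exists_dualSt (L : StrongDual ℝ (StarSp d k)) :
    ∃ l0 l, L = dualSt l0 l := by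
  refine ⟨(InnerProductSpace.toDual ℝ (Ek k)).symm
      (L.comp (ContinuousLinearMap.inl ℝ (Ek k) (Fin d → Ek k))),
    fun j => (InnerProductSpace.toDual ℝ (Ek k)).symm
      (L.comp ((ContinuousLinearMap.inr ℝ (Ek k) (Fin d → Ek k)).comp
        (ContinuousLinearMap.single ℝ (fun _ : Fin d => Ek k) j))), ?_⟩
  refine ContinuousLinearMap.ext fun x => ?_
  rw [dualSt_apply]
  simp only [InnerProductSpace.toDual_symm_apply, ContinuousLinearMap.comp_apply,
    ContinuousLinearMap.inl_apply, ContinuousLinearMap.inr_apply,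
    ContinuousLinearMap.single_apply]
  rw [← map_sum, ← map_add]
  congr 1
  ext1
  · simp [Prod.fst_sum]
  · simp only [Prod.snd_add, Prod.snd_sum, zero_add]
    exact (Finset.univ_sum_single x.2).symm

/-- `√((d/(d-1)) (1 - κ²))`. -/
def sp (q : ℕ) (lam : ℝ) : ℝ := sg q lam * Real.sqrt (((q : ℝ) + 1) / q)

/-- `waveMap` as a continuous linear map. -/
def waveL (q k : ℕ) (lam : ℝ) : StarSp (q + 1) k →L[ℝ] StarSp (q + 1) k :=
  (ContinuousLinearMap.fst ℝ (Ek k) (Fin (q + 1) → Ek k)).prod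
    (ContinuousLinearMap.pi fun j => cc q lam • ContinuousLinearMap.fst ℝ (Ek k) (Fin (q + 1) → Ek k) +
      sp q lam • ((ContinuousLinearMap.proj j).comp
          (ContinuousLinearMap.snd ℝ (Ek k) (Fin (q + 1) → Ek k)) -
        ((1 : ℝ) / ((q : ℝ) + 1)) • ∑ i, (ContinuousLinearMap.proj i).comp
          (ContinuousLinearMap.snd ℝ (Ek k) (Fin (q + 1) → Ek k))))

theorem coe_waveL (lam : ℝ) : (waveL q k lam : StarSp (q + 1) k → StarSp (q + 1) k) =
    waveMap q k lam := by
  funext g
  refine Prod.ext rfl ?_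
  funext j
  simp [waveL, waveMap, sp]

/-! ### Characteristic functions -/

theorem charFun_stdProd (l0 : Ek k) (l : Fin d → Ek k) :
    charFunDual ((stdGaussian (Ek k)).prod (Measure.pi fun _ : Fin d => stdGaussian (Ek k)))
      (dualSt l0 l) = Complex.exp (-((‖l0‖ ^ 2 + ∑ j, ‖l j‖ ^ 2 : ℝ) : ℂ) / 2) := by
  rw [charFunDual_prod, charFunDual_pi]
  have h1 : (dualSt l0 l).comp (ContinuousLinearMap.inl ℝ (Ek k) (Fin d → Ek k)) =
      innerSL ℝ l0 := by
    refine ContinuousLinearMap.ext fun x => ?_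
    simp [dualSt_apply]
  have h2 : ∀ i, ((dualSt l0 l).comp (ContinuousLinearMap.inr ℝ (Ek k) (Fin d → Ek k))).comp
      (ContinuousLinearMap.single ℝ (fun _ : Fin d => Ek k) i) = innerSL ℝ (l i) := by
    intro i
    refine ContinuousLinearMap.ext fun x => ?_
    simp only [ContinuousLinearMap.comp_apply, ContinuousLinearMap.inr_apply, dualSt_apply,
      inner_zero_right, zero_add, ContinuousLinearMap.single_apply, innerSL_apply_apply]
    rw [Finset.sum_eq_single i]
    · simp
    · intro j _ hj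
      rw [Pi.single_eq_of_ne hj, inner_zero_right]
    · simp
  rw [h1]
  simp only [h2, charFunDual_stdGaussian, innerSL_apply_norm]
  rw [← Complex.exp_sum, ← Complex.exp_add]
  congr 1
  push_cast
  rw [← Finset.sum_div, ← add_div, Finset.sum_neg_distrib]
  ring

theorem dualSt_comp_waveL (lam : ℝ) (l0 : Ek k) (l : Fin (q + 1) → Ek k) :
    (dualSt l0 l).comp (waveL q k lam) = dualSt (l0 + cc q lam • ∑ j, l j)
      (fun j => sp q lam • (l j - ((1 : ℝ) / ((q : ℝ) + 1)) • ∑ i, l i)) := by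
  refine ContinuousLinearMap.ext fun x => ?_
  rw [ContinuousLinearMap.comp_apply, dualSt_apply, dualSt_apply, coe_waveL, waveMap]
  simp only [inner_add_left, inner_add_right, inner_smul_left, inner_smul_right, inner_sub_left,
    inner_sub_right, sum_inner, inner_sum, RCLike.conj_to_real, Finset.sum_add_distrib,
    Finset.sum_sub_distrib, Finset.mul_sum, mul_sub, sp]
  rw [add_assoc]
  congr 3
  exact Finset.sum_comm

theorem charFun_waveM (lam : ℝ) (l0 : Ek k) (l : Fin (q + 1) → Ek k) :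
    charFunDual (waveM q k lam) (dualSt l0 l) =
      Complex.exp (-((‖l0 + cc q lam • ∑ j, l j‖ ^ 2 +
        ∑ j, ‖sp q lam • (l j - ((1 : ℝ) / ((q : ℝ) + 1)) • ∑ i, l i)‖ ^ 2 : ℝ) : ℂ) / 2) := by
  rw [waveM, ← coe_waveL, charFunDual_map, dualSt_comp_waveL, charFun_stdProd]


end Vale.Agent.P156.H653.WC
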