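import Vale.Agent.P156.H653.Equality
import Vale.Agent.P156.H653.Fourier
import Vale.Agent.P156.H653.WaveChar
import Vale.Agent.P156.H894.Det

/-!
# Laws in isotropic coordinates
-/

open MeasureTheory Real Module Filter ProbabilityTheory
open Vale.Agent.P156.H849 Vale.Agent.P156.H894 Vale.Agent.P156.H653.WC
open scoped RealInnerProductSpace ENNReal Topology

set_option linter.unusedSectionVars false

noncomputable section

namespace Vale.Agent.P156.H653

section general

variable {V : Type*} [NormedAddCommGroup V] [InnerProductSpace ℝ V] [FiniteDimensional ℝ V]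
  [MeasurableSpace V] [BorelSpace V] {μ : Measure V} [IsProbabilityMeasure μ]

/-- The law with density `pd μ t`. -/
def pdM (μ : Measure V) (t : ℝ) : Measure V := volume.withDensity fun x => ENNReal.ofReal (pd μ t x)

lemma isProb_pdM (h2 : Integrable (fun y => ‖y‖ ^ 2) μ) {t : ℝ} (ht : 0 < t) :
    IsProbabilityMeasure (pdM μ t) := by
  constructor
  unfold pdM
  rw [withDensity_apply _ MeasurableSet.univ, Measure.restrict_univ,
    ← ofReal_integral_eq_lintegral_ofReal (integrable_pd h2 ht)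
    (Filter.Eventually.of_forall fun x => (pd_pos ht x).le), integral_pd h2 ht, ENNReal.ofReal_one]

lemma charFun_pdM (h2 : Integrable (fun y => ‖y‖ ^ 2) μ) {t : ℝ} (ht : 0 < t) (ξ : V) :
    charFun (pdM μ t) ξ = charFun μ ξ * Complex.exp (-((t * ‖ξ‖ ^ 2 / 2 : ℝ) : ℂ)) := by
  rw [← integral_cexp_pd h2 ht, charFun_apply]
  unfold pdM
  rw [integral_withDensity_eq_integral_toReal_smul (measurable_pd ht).ennreal_ofReal
    (Filter.Eventually.of_forall fun x => ENNReal.ofReal_lt_top)]
  congr 1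
  funext x
  rw [ENNReal.toReal_ofReal (pd_pos ht x).le, Complex.real_smul, mul_comm]

theorem law_add (h2 : Integrable (fun y => ‖y‖ ^ 2) μ) {t : ℝ} (ht : 0 < t) :
    (μ.prod (stdGaussian V)).map (fun p => p.1 + Real.sqrt t • p.2) = pdM μ t := by
  have := isProb_pdM (μ := μ) h2 ht
  have hm : Measurable (fun p : V × V => p.1 + Real.sqrt t • p.2) := by fun_prop
  have : IsProbabilityMeasure ((μ.prod (stdGaussian V)).map (fun p => p.1 + Real.sqrt t • p.2)) :=
    Measure.isProbabilityMeasure_map hm.aemeasurable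
  apply Measure.ext_of_charFun
  ext ξ
  rw [charFun_pdM h2 ht, charFun_apply, integral_map hm.aemeasurable (by fun_prop)]
  have e : ∀ p : V × V, Complex.exp (⟪p.1 + Real.sqrt t • p.2, ξ⟫ * Complex.I) =
      Complex.exp (⟪p.1, ξ⟫ * Complex.I) * Complex.exp (⟪p.2, Real.sqrt t • ξ⟫ * Complex.I) := by
    intro p
    rw [inner_add_left, real_inner_smul_left, real_inner_smul_right, ← Complex.exp_add]
    congr 1
    push_cast
    ring
  simp_rw [e]
  rw [integral_prod_mul (fun x : V => Complex.exp (⟪x, ξ⟫ * Complex.I))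
    (fun z : V => Complex.exp (⟪z, Real.sqrt t • ξ⟫ * Complex.I)), ← charFun_apply,
    ← charFun_apply, charFun_stdGaussian]
  congr 2
  rw [norm_smul, Real.norm_eq_abs, abs_of_nonneg (Real.sqrt_nonneg t)]
  push_cast
  rw [mul_pow, ← Complex.ofReal_pow, Real.sq_sqrt ht.le]
  ring

variable {V' : Type*} [NormedAddCommGroup V'] [InnerProductSpace ℝ V'] [FiniteDimensional ℝ V']
  [MeasurableSpace V'] [BorelSpace V']

theorem map_pdM {P : V →L[ℝ] V'} (hP : ∀ v', P (P.adjoint v') = v')
    (h2 : Integrable (fun y => ‖y‖ ^ 2) μ) {t : ℝ} (ht : 0 < t) :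
    (pdM μ t).map P = pdM (μ.map P) t := by
  have h2' := second_moment_map (μ := μ) hP h2
  have := isProb_pdM (μ := μ) h2 ht
  have := isProb_pdM (μ := μ.map P) h2' ht
  have : IsProbabilityMeasure ((pdM μ t).map P) :=
    Measure.isProbabilityMeasure_map P.measurable.aemeasurable
  have hinner : ∀ (x : V) (ξ : V'), ⟪P x, ξ⟫ = ⟪x, P.adjoint ξ⟫ := fun x ξ =>
    (ContinuousLinearMap.adjoint_inner_right P x ξ).symm
  have hmap : ∀ (ρ : Measure V) (ξ : V'), charFun (ρ.map P) ξ = charFun ρ (P.adjoint ξ) := by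
    intro ρ ξ
    rw [charFun_apply, integral_map P.measurable.aemeasurable (by fun_prop), charFun_apply]
    simp_rw [hinner]
  apply Measure.ext_of_charFun
  ext ξ
  rw [hmap, charFun_pdM h2 ht, charFun_pdM h2' ht, hmap, norm_adjoint hP]

end general

variable {q k : ℕ} {lam : ℝ}

lemma pil_rec (hq : 1 ≤ q) (a : Ek k) (y : Fin (q + 1) → Ek k) (hy : ∑ l, y l = 0)
    (m : Fin (q + 1)) : pil m (WithLp.toLp 2 (a, WithLp.toLp 2 fun i =>
      ((q : ℝ) / ((q : ℝ) + 1)) • ∑ l, simplex q l i • y l) : VS q k) = y m := by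
  have hq0 : (q : ℝ) ≠ 0 := by positivity
  have hq1 : (q : ℝ) + 1 ≠ 0 := by positivity
  have e0 : pil m (WithLp.toLp 2 (a, WithLp.toLp 2 fun i =>
    ((q : ℝ) / ((q : ℝ) + 1)) • ∑ l, simplex q l i • y l) : VS q k) =
      ∑ i, simplex q m i • (((q : ℝ) / ((q : ℝ) + 1)) • ∑ l, simplex q l i • y l) := rfl
  rw [e0]
  simp_rw [Finset.smul_sum, smul_smul]
  rw [Finset.sum_comm]
  simp_rw [← Finset.sum_smul]
  have e : ∀ l : Fin (q + 1), ∑ i, simplex q m i * ((q : ℝ) / ((q : ℝ) + 1) * simplex q l i) =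
      (if m = l then 1 else 0) - 1 / ((q : ℝ) + 1) := by
    intro l
    have : ∀ i, simplex q m i * ((q : ℝ) / ((q : ℝ) + 1) * simplex q l i) =
        ((q : ℝ) / ((q : ℝ) + 1)) * (simplex q m i * simplex q l i) := fun i => by ring
    simp_rw [this]
    rw [← Finset.mul_sum, simplex_gram q hq]
    split_ifs
    · field_simp; ring
    · field_simp; ring
  simp_rw [e, sub_smul, Finset.sum_sub_distrib, ← Finset.smul_sum, hy]
  simp

theorem isoInv_isoStar (hq : 1 ≤ q) (hc : cc q lam ^ 2 < 1) (x : VS q k) :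
    isoInv q k lam (isoStar q k lam x) = x := by
  have hs := sg_pos (q := q) hc
  refine VS_ext rfl fun i => ?_
  show ((q : ℝ) / ((q : ℝ) + 1)) • ∑ l, simplex q l i • ((sg q lam)⁻¹ •
    ((cc q lam • x.fst + sg q lam • pil l x) - cc q lam • x.fst)) = x.snd i
  have e : ∀ l, (sg q lam)⁻¹ • ((cc q lam • x.fst + sg q lam • pil l x) - cc q lam • x.fst) =
      pil l x := by
    intro l
    rw [add_sub_cancel_left, smul_smul, inv_mul_cancel₀ hs.ne', one_smul]
  simp_rw [e]
  exact (snd_eq_sum hq x i).symm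

theorem isoStar_isoInv (hq : 1 ≤ q) (hc : cc q lam ^ 2 < 1) {s : StarSp (q + 1) k}
    (hs : ∑ l, s.2 l = lam • s.1) : isoStar q k lam (isoInv q k lam s) = s := by
  have hsg := sg_pos (q := q) hc
  refine Prod.ext rfl (funext fun l => ?_)
  have h := pil_rec hq s.1 (fun l => (sg q lam)⁻¹ • (s.2 l - cc q lam • s.1)) (by
    rw [← Finset.smul_sum, Finset.sum_sub_distrib, hs]
    have : lam • s.1 = ∑ _l : Fin (q + 1), cc q lam • s.1 := by
      rw [Finset.sum_const, Finset.card_univ, Fintype.card_fin, ← Nat.cast_smul_eq_nsmul ℝ,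
        smul_smul]
      congr 1
      unfold cc
      push_cast
      field_simp
    rw [this, sub_self, smul_zero]) l
  show cc q lam • s.1 + sg q lam • pil l (isoInv q k lam s) = s.2 l
  have h' : pil l (isoInv q k lam s) = (sg q lam)⁻¹ • (s.2 l - cc q lam • s.1) := h
  rw [h', smul_smul, mul_inv_cancel₀ hsg.ne', one_smul]
  abel

/-- `isoStar` as a continuous linear map -/
def isoStarL (q k : ℕ) (lam : ℝ) : VS q k →L[ℝ] StarSp (q + 1) k :=
  LinearMap.toContinuousLinearMap
    { toFun := isoStar q k lam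
      map_add' := fun x y => by
        refine Prod.ext (WithLp.add_fst x y) (funext fun j => ?_)
        show cc q lam • (x + y).fst + sg q lam • pil j (x + y) =
            (cc q lam • x.fst + sg q lam • pil j x) + (cc q lam • y.fst + sg q lam • pil j y)
        have : pil j (x + y) = pil j x + pil j y := by
          simp [pil, Finset.sum_add_distrib]
        rw [this, WithLp.add_fst]
        module
      map_smul' := fun a x => by
        refine Prod.ext rfl (funext fun j => ?_)
        show cc q lam • (a • x).fst + sg q lam • pil j (a • x) =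
            a • (cc q lam • x.fst + sg q lam • pil j x)
        have : pil j (a • x) = a • pil j x := by
          simp [pil, Finset.smul_sum, smul_comm a]
        rw [this, WithLp.smul_fst]
        module }

@[simp] lemma isoStarL_apply (x : VS q k) : isoStarL q k lam x = isoStar q k lam x := rfl

/-- Gram identity for the simplex vectors. -/
lemma sum_norm_simplex (hq : 1 ≤ q) (l : Fin (q + 1) → Ek k) :
    ∑ i : Fin q, ‖∑ j, simplex q j i • l j‖ ^ 2 =
      (((q : ℝ) + 1) / q) * ∑ j, ‖l j - ((1 : ℝ) / ((q : ℝ) + 1)) • ∑ i, l i‖ ^ 2 := by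
  have hq0 : (q : ℝ) ≠ 0 := by positivity
  have hq1 : (q : ℝ) + 1 ≠ 0 := by positivity
  have e1 : ∀ i, ‖∑ j, simplex q j i • l j‖ ^ 2 =
      ∑ j, ∑ j', (simplex q j i * simplex q j' i) * ⟪l j, l j'⟫ := by
    intro i
    rw [← real_inner_self_eq_norm_sq, sum_inner]
    congr 1
    funext j
    rw [inner_sum]
    congr 1
    funext j'
    rw [real_inner_smul_left, real_inner_smul_right]
    ring
  simp_rw [e1]
  rw [Finset.sum_comm]
  simp_rw [fun j => Finset.sum_comm (s := Finset.univ) (t := Finset.univ)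
    (f := fun (i : Fin q) (j' : Fin (q + 1)) =>
      (simplex q j i * simplex q j' i) * ⟪l j, l j'⟫), ← Finset.sum_mul, simplex_gram q hq]
  have e2 : ∀ j j' : Fin (q + 1), (if j = j' then (1 : ℝ) else -(1 / (q : ℝ))) * ⟪l j, l j'⟫ =
      (if j = j' then (((q : ℝ) + 1) / q) * ⟪l j, l j'⟫ else 0) - (1 / q) * ⟪l j, l j'⟫ := by
    intro j j'
    split_ifs
    · field_simp; ring
    · ring
  simp_rw [e2, Finset.sum_sub_distrib, ← Finset.mul_sum]
  simp only [Finset.sum_ite_eq, Finset.mem_univ, if_true, ← inner_sum]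
  rw [← Finset.mul_sum, ← sum_inner, real_inner_self_eq_norm_sq]
  simp_rw [real_inner_self_eq_norm_sq]
  set m := ∑ i, l i with hm
  have e3 : ∀ j, ‖l j - ((1 : ℝ) / ((q : ℝ) + 1)) • m‖ ^ 2 =
      ‖l j‖ ^ 2 - 2 * (1 / ((q : ℝ) + 1)) * ⟪l j, m⟫ + (1 / ((q : ℝ) + 1)) ^ 2 * ‖m‖ ^ 2 := by
    intro j
    rw [norm_sub_sq_real, real_inner_smul_right, norm_smul, mul_pow, Real.norm_eq_abs, sq_abs]
    ring
  simp_rw [e3, Finset.sum_add_distrib, Finset.sum_sub_distrib, ← Finset.mul_sum]
  rw [← sum_inner, ← hm, real_inner_self_eq_norm_sq, Finset.sum_const, Finset.card_univ,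
    Fintype.card_fin, nsmul_eq_mul]
  push_cast
  field_simp
  ring

theorem waveM_eq (hq : 1 ≤ q) :
    waveM q k lam = (stdGaussian (VS q k)).map (isoStar q k lam) := by
  have h1 : (stdGaussian (VS q k)).map (isoStar q k lam) =
      (stdGaussian (VS q k)).map (isoStarL q k lam) := rfl
  rw [h1]
  have : IsProbabilityMeasure ((stdGaussian (VS q k)).map (isoStarL q k lam)) :=
    Measure.isProbabilityMeasure_map (isoStarL q k lam).measurable.aemeasurable
  have : IsProbabilityMeasure (waveM q k lam) := by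
    unfold waveM
    refine Measure.isProbabilityMeasure_map ?_
    have : Measurable (waveMap q k lam) := by
      unfold waveMap; fun_prop
    exact this.aemeasurable
  apply Measure.ext_of_charFunDual
  ext L
  obtain ⟨l0, l, rfl⟩ := exists_dualSt L
  rw [charFun_waveM, charFunDual_map]
  set ξ : VS q k := WithLp.toLp 2 (l0 + cc q lam • ∑ j, l j, WithLp.toLp 2 fun i =>
    sg q lam • ∑ j, simplex q j i • l j) with hξ
  have h2 : (dualSt l0 l).comp (isoStarL q k lam) = innerSL ℝ ξ := by
    ext x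
    rw [innerSL_apply_apply, inner_VS]
    show dualSt l0 l (isoStar q k lam x) = ⟪l0 + cc q lam • ∑ j, l j, x.fst⟫ +
      ∑ i, ⟪sg q lam • ∑ j, simplex q j i • l j, x.snd i⟫
    rw [dualSt_apply]
    show ⟪l0, x.fst⟫ + ∑ j, ⟪l j, cc q lam • x.fst + sg q lam • pil j x⟫ = _
    simp only [inner_add_right, inner_add_left, real_inner_smul_right, real_inner_smul_left,
      Finset.sum_add_distrib, sum_inner, pil, inner_sum, Finset.mul_sum]
    rw [Finset.sum_comm (s := (Finset.univ : Finset (Fin q)))]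
    ring_nf
  rw [h2, charFunDual_stdGaussian]
  congr 1
  have h3 : ‖innerSL ℝ ξ‖ ^ 2 = ‖l0 + cc q lam • ∑ j, l j‖ ^ 2 +
      ∑ j, ‖sp q lam • (l j - ((1 : ℝ) / ((q : ℝ) + 1)) • ∑ i, l i)‖ ^ 2 := by
    rw [innerSL_apply_norm, norm_VS]
    have e1 : ξ.fst = l0 + cc q lam • ∑ j, l j := rfl
    have e2 : ∀ i, ξ.snd i = sg q lam • ∑ j, simplex q j i • l j := fun i => rfl
    rw [e1]
    simp_rw [e2, norm_smul, mul_pow, Real.norm_eq_abs, sq_abs, ← Finset.mul_sum]
    rw [sum_norm_simplex hq]
    have h4 : sp q lam ^ 2 = sg q lam ^ 2 * (((q : ℝ) + 1) / q) := by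
      rw [sp, mul_pow, Real.sq_sqrt (by positivity)]
    rw [h4]
    ring
  have h5 : ((‖innerSL ℝ ξ‖ : ℂ)) ^ 2 = ((‖innerSL ℝ ξ‖ ^ 2 : ℝ) : ℂ) := by push_cast; ring
  rw [h5, h3]

lemma measurable_isoStar : Measurable (isoStar q k lam) := by
  have h : Continuous (isoStar q k lam) := by
    unfold isoStar pil
    fun_prop
  exact h.measurable

lemma measurable_isoInv : Measurable (isoInv q k lam) := by
  have h : Continuous (isoInv q k lam) := by
    unfold isoInv
    fun_prop
  exact h.measurable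

lemma measurable_isoEdge : Measurable (isoEdge q k lam) := by
  have h : Continuous (isoEdge q k lam) := by
    unfold isoEdge
    fun_prop
  exact h.measurable

lemma measurable_redStar : Measurable (redStar : StarSp (q + 1) k → StarSp q k) := by
  unfold redStar
  fun_prop

lemma measurable_edgeP (l : Fin (q + 1)) : Measurable (edgeP l : StarSp (q + 1) k → _) := by
  unfold edgeP
  fun_prop

lemma map_isoStar_isoInv (hq : 1 ≤ q) (hc : cc q lam ^ 2 < 1)
    (mu : Measure (StarSp (q + 1) k)) (hsupp : ∀ᵐ s ∂mu, ∑ l, s.2 l = lam • s.1) :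
    mu = (mu.map (isoInv q k lam)).map (isoStar q k lam) := by
  rw [Measure.map_map measurable_isoStar measurable_isoInv]
  have : mu = mu.map id := Measure.map_id.symm
  conv_lhs => rw [this]
  refine Measure.map_congr ?_
  filter_upwards [hsupp] with s hs'
  exact (isoStar_isoInv hq hc hs').symm

theorem smoothLaw_eq (hq : 1 ≤ q) (hlam : lam ^ 2 < 4 * q)
    (mu : Measure (StarSp (q + 1) k)) [IsProbabilityMeasure mu]
    (hsupp : ∀ᵐ s ∂mu, ∑ l, s.2 l = lam • s.1)
    (h2 : Integrable (fun y => ‖y‖ ^ 2) (mu.map (isoInv q k lam))) {t : ℝ} (ht : 0 < t) :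
    smoothLaw lam mu t = (pdM (mu.map (isoInv q k lam)) t).map (isoStar q k lam) := by
  have hc : cc q lam ^ 2 < 1 := by
    unfold cc
    rw [div_pow, div_lt_one (by positivity)]
    nlinarith [sq_nonneg ((q : ℝ) - 1)]
  set μ := mu.map (isoInv q k lam) with hμ
  have : IsProbabilityMeasure μ :=
    Measure.isProbabilityMeasure_map measurable_isoInv.aemeasurable
  have h1 : mu = μ.map (isoStar q k lam) := map_isoStar_isoInv hq hc mu hsupp
  unfold smoothLaw
  rw [waveM_eq hq]
  conv_lhs => rw [h1]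
  rw [Measure.map_prod_map _ _ measurable_isoStar measurable_isoStar, ← law_add h2 ht,
    Measure.map_map (by fun_prop) (measurable_isoStar.prodMap measurable_isoStar),
    Measure.map_map measurable_isoStar (by fun_prop)]
  congr 1
  funext p
  show isoStarL q k lam p.1 + Real.sqrt t • isoStarL q k lam p.2 =
    isoStarL q k lam (p.1 + Real.sqrt t • p.2)
  rw [map_add, map_smul]

theorem edge_law (hq : 1 ≤ q) (hlam : lam ^ 2 < 4 * q)
    (mu : Measure (StarSp (q + 1) k)) [IsProbabilityMeasure mu]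
    (hsupp : ∀ᵐ s ∂mu, ∑ l, s.2 l = lam • s.1)
    (h2 : Integrable (fun y => ‖y‖ ^ 2) (mu.map (isoInv q k lam))) {t : ℝ} (ht : 0 < t)
    (l : Fin (q + 1)) :
    (smoothLaw lam mu t).map (edgeP l) =
      (pdM ((mu.map (isoInv q k lam)).map (Pl q k l)) t).map (isoEdge q k lam) := by
  have : IsProbabilityMeasure (mu.map (isoInv q k lam)) :=
    Measure.isProbabilityMeasure_map measurable_isoInv.aemeasurable
  rw [smoothLaw_eq hq hlam mu hsupp h2 ht, Measure.map_map (measurable_edgeP l) measurable_isoStar,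
    ← map_pdM (Pl_adjoint hq l) h2 ht, Measure.map_map measurable_isoEdge (Pl q k l).measurable]
  rfl

end Vale.Agent.P156.H653
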