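import Vale.Agent.P156.H653.Ident
import Vale.Agent.P156.H653.Laws
import Vale.Agent.P156.H504.Dent
import Vale.Agent.P156.H894.Det

/-!
# D6: the entropy inequality characterizes Gaussian waves
-/

open MeasureTheory Real Module Filter ProbabilityTheory
open Vale.Agent.P156.H849 Vale.Agent.P156.H894
open scoped RealInnerProductSpace ENNReal Topology

set_option linter.unusedSectionVars false

noncomputable section

namespace Vale.Agent.P156.H653

variable {q k : ℕ} {lam : ℝ}

lemma cc_sq_lt_one (hlam : lam ^ 2 < 4 * q) : cc q lam ^ 2 < 1 := by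
  unfold cc
  rw [div_pow, div_lt_one (by positivity)]
  nlinarith [sq_nonneg ((q : ℝ) - 1)]

lemma cc_sg (hc : cc q lam ^ 2 < 1) : cc q lam ^ 2 + sg q lam ^ 2 = 1 := by
  unfold sg
  rw [Real.sq_sqrt (by linarith)]
  ring

/-- `redStar ∘ isoStar` as a measurable equivalence. -/
lemma exists_equiv_star (hq : 1 ≤ q) (hc : cc q lam ^ 2 < 1) :
    ∃ e : VS q k ≃ᵐ StarSp q k, ∀ x, e x = redStar (isoStar q k lam x) := by
  have hs := sg_pos (q := q) hc
  let L : VS q k →ₗ[ℝ] StarSp q k :=
    { toFun := fun x => redStar (isoStar q k lam x)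
      map_add' := fun x y => by
        refine Prod.ext ?_ (funext fun j => ?_)
        · show (x + y).fst = x.fst + y.fst
          exact WithLp.add_fst x y
        · show cc q lam • (x + y).fst + sg q lam • pil j.castSucc (x + y) =
            (cc q lam • x.fst + sg q lam • pil j.castSucc x) +
            (cc q lam • y.fst + sg q lam • pil j.castSucc y)
          have : pil j.castSucc (x + y) = pil j.castSucc x + pil j.castSucc y := by
            simp [pil, Finset.sum_add_distrib]
          rw [this, WithLp.add_fst]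
          module
      map_smul' := fun a x => by
        refine Prod.ext ?_ (funext fun j => ?_)
        · show (a • x).fst = a • x.fst
          rfl
        · show cc q lam • (a • x).fst + sg q lam • pil j.castSucc (a • x) =
            a • (cc q lam • x.fst + sg q lam • pil j.castSucc x)
          have : pil j.castSucc (a • x) = a • pil j.castSucc x := by
            simp [pil, Finset.smul_sum, smul_comm a]
          rw [this, WithLp.smul_fst]
          module }
  have hinj : Function.Injective L := by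
    rw [← LinearMap.ker_eq_bot, LinearMap.ker_eq_bot']
    intro x hx
    have h1 : x.fst = 0 := congrArg Prod.fst hx
    have h2 : ∀ j : Fin q, pil j.castSucc x = 0 := by
      intro j
      have h := congrFun (congrArg Prod.snd hx) j
      have h' : cc q lam • x.fst + sg q lam • pil j.castSucc x = 0 := h
      rw [h1, smul_zero, zero_add] at h'
      exact (smul_eq_zero.1 h').resolve_left hs.ne'
    have h3 : pil (Fin.last q) x = 0 := by
      have := sum_pil hq x
      rw [Fin.sum_univ_castSucc] at this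
      simpa [h2] using this
    refine VS_ext h1 fun i => ?_
    rw [snd_eq_sum hq x i]
    have : ∀ l, pil l x = 0 := by
      intro l
      induction l using Fin.lastCases with
      | last => exact h3
      | cast l => exact h2 l
    simp [this]
  have hfr : finrank ℝ (VS q k) = finrank ℝ (StarSp q k) := by
    rw [finrank_VS, finrank_prod, finrank_pi_fintype]
    simp
    ring
  let e := (LinearEquiv.ofInjectiveOfFinrankEq L hinj hfr).toContinuousLinearEquiv
  exact ⟨e.toHomeomorph.toMeasurableEquiv, fun x => rfl⟩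

lemma exists_equiv_edge (hc : cc q lam ^ 2 < 1) :
    ∃ e : VE k ≃ᵐ Ek k × Ek k, ∀ x, e x = isoEdge q k lam x := by
  have hs := sg_pos (q := q) hc
  let L : VE k →ₗ[ℝ] Ek k × Ek k :=
    { toFun := fun x => isoEdge q k lam x
      map_add' := fun x y => by
        refine Prod.ext ?_ ?_
        · show (x + y).fst = x.fst + y.fst
          exact WithLp.add_fst x y
        · show cc q lam • (x + y).fst + sg q lam • (x + y).snd =
            (cc q lam • x.fst + sg q lam • x.snd) + (cc q lam • y.fst + sg q lam • y.snd)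
          rw [WithLp.add_fst, WithLp.add_snd]
          module
      map_smul' := fun a x => by
        refine Prod.ext ?_ ?_
        · show (a • x).fst = a • x.fst
          rfl
        · show cc q lam • (a • x).fst + sg q lam • (a • x).snd =
            a • (cc q lam • x.fst + sg q lam • x.snd)
          rw [WithLp.smul_fst, WithLp.smul_snd]
          module }
  have hinj : Function.Injective L := by
    rw [← LinearMap.ker_eq_bot, LinearMap.ker_eq_bot']
    intro x hx
    have h1 : x.fst = 0 := congrArg Prod.fst hx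
    have h2 : cc q lam • x.fst + sg q lam • x.snd = 0 := congrArg Prod.snd hx
    rw [h1, smul_zero, zero_add] at h2
    exact VE_ext h1 ((smul_eq_zero.1 h2).resolve_left hs.ne')
  have hfr : finrank ℝ (VE k) = finrank ℝ (Ek k × Ek k) := by
    rw [finrank_VE, finrank_prod]
    simp
    ring
  let e := (LinearEquiv.ofInjectiveOfFinrankEq L hinj hfr).toContinuousLinearEquiv
  exact ⟨e.toHomeomorph.toMeasurableEquiv, fun x => rfl⟩

/-- The entropy functional in isotropic coordinates. -/
theorem Fent_eq (hq : 2 ≤ q) (hlam : lam ^ 2 < 4 * q)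
    (mu : Measure (StarSp (q + 1) k)) [IsProbabilityMeasure mu]
    (hsupp : ∀ᵐ s ∂mu, ∑ l, s.2 l = lam • s.1)
    (h2 : Integrable (fun y => ‖y‖ ^ 2) (mu.map (isoInv q k lam))) {t : ℝ} (ht : 0 < t) :
    Fent lam mu t = Fiso (mu.map (isoInv q k lam))
      ((mu.map (isoInv q k lam)).map (Pl q k 0)) t - k * Uval q lam := by
  have hc := cc_sq_lt_one hlam
  have hq1 : 1 ≤ q := by omega
  have hq0 : (0 : ℝ) < q := by exact_mod_cast hq1
  have hs := sg_pos (q := q) hc
  have hal := al_pos hq1
  set μ := mu.map (isoInv q k lam) with hμ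
  have : IsProbabilityMeasure μ :=
    Measure.isProbabilityMeasure_map measurable_isoInv.aemeasurable
  set ν := μ.map (Pl q k 0) with hν
  have h2' : Integrable (fun y => ‖y‖ ^ 2) ν := second_moment_map (Pl_adjoint hq1 0) h2
  obtain ⟨e, he⟩ := exists_equiv_star (q := q) (k := k) (lam := lam) hq1 hc
  obtain ⟨f, hf⟩ := exists_equiv_edge (q := q) (k := k) (lam := lam) hc
  have hdet : 0 < detS q k lam := by
    unfold detS; positivity
  have e1 : dent ((smoothLaw lam mu t).map redStar) = ent μ t + Real.log (detS q k lam) := by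
    rw [smoothLaw_eq hq1 hlam mu hsupp h2 ht,
      Measure.map_map measurable_redStar measurable_isoStar]
    have hfun : (redStar ∘ isoStar q k lam : VS q k → StarSp q k) = e := by
      funext x; exact (he x).symm
    rw [hfun]
    refine dent_map e hdet ?_ (measurable_pd ht) (fun x => (pd_pos ht x).le)
      (integrable_pd h2 ht) (integral_pd h2 ht) (integrable_negMulLog_pd h2 ht)
    have h := map_redStar_isoStar (k := k) hq1 hc
    have hfun2 : (fun x : VS q k => redStar (isoStar q k lam x)) = e := by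
      funext x; exact (he x).symm
    rw [hfun2] at h
    exact h
  have e2 : dent ((smoothLaw lam mu t).map (edgeP 0)) =
      ent ν t + Real.log (sg q lam ^ k) := by
    rw [edge_law hq1 hlam mu hsupp h2 ht 0]
    have hfun : (isoEdge q k lam : VE k → Ek k × Ek k) = f := by
      funext x; exact (hf x).symm
    rw [hfun]
    refine dent_map f (by positivity) ?_ (measurable_pd ht) (fun x => (pd_pos ht x).le)
      (integrable_pd h2' ht) (integral_pd h2' ht) (integrable_negMulLog_pd h2' ht)
    have h := map_isoEdge (q := q) (k := k) hc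
    rw [hfun] at h
    exact h
  unfold Fent Fiso
  rw [e1, e2]
  have h3 := log_detS (k := k) hq hc
  linarith

/-- isotropic edge coordinates -/
def edgeInv (q k : ℕ) (lam : ℝ) (p : Ek k × Ek k) : VE k :=
  WithLp.toLp 2 (p.1, (sg q lam)⁻¹ • (p.2 - cc q lam • p.1))

lemma measurable_edgeInv : Measurable (edgeInv q k lam) := by
  have h : Continuous (edgeInv q k lam) := by
    unfold edgeInv
    fun_prop
  exact h.measurable

lemma Pl_isoInv (hq : 1 ≤ q) (hc : cc q lam ^ 2 < 1) {s : StarSp (q + 1) k}
    (hs : ∑ l, s.2 l = lam • s.1) (l : Fin (q + 1)) :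
    Pl q k l (isoInv q k lam s) = edgeInv q k lam (edgeP l s) := by
  have hsg := sg_pos (q := q) hc
  have h := isoStar_isoInv (k := k) hq hc hs
  refine VE_ext rfl ?_
  show pil l (isoInv q k lam s) = (sg q lam)⁻¹ • (s.2 l - cc q lam • s.1)
  have h2 : cc q lam • s.1 + sg q lam • pil l (isoInv q k lam s) = s.2 l :=
    congrFun (congrArg Prod.snd h) l
  rw [← h2, add_sub_cancel_left, smul_smul, inv_mul_cancel₀ hsg.ne', one_smul]

lemma edgeInv_swap (hc : cc q lam ^ 2 < 1) (p : Ek k × Ek k) :
    swp k (cc q lam) (sg q lam) (edgeInv q k lam p) = edgeInv q k lam p.swap := by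
  have hsg := sg_pos (q := q) hc
  have hcs := cc_sg hc
  refine VE_ext ?_ ?_
  · show cc q lam • p.1 + sg q lam • ((sg q lam)⁻¹ • (p.2 - cc q lam • p.1)) = p.2
    rw [smul_smul, mul_inv_cancel₀ hsg.ne', one_smul]
    abel
  · show sg q lam • p.1 - cc q lam • ((sg q lam)⁻¹ • (p.2 - cc q lam • p.1)) =
      (sg q lam)⁻¹ • (p.1 - cc q lam • p.2)
    have h1 : sg q lam = (sg q lam)⁻¹ * (1 - cc q lam ^ 2) := by
      rw [eq_inv_mul_iff_mul_eq₀ hsg.ne']
      nlinarith
    calc sg q lam • p.1 - cc q lam • ((sg q lam)⁻¹ • (p.2 - cc q lam • p.1))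
        = ((sg q lam)⁻¹ * (1 - cc q lam ^ 2)) • p.1 -
          cc q lam • ((sg q lam)⁻¹ • (p.2 - cc q lam • p.1)) := by rw [← h1]
      _ = _ := by module

/-- **Block D6.** A star law with finite second moment, supported on `∑ x_j = lam x_o`, with equal
symmetric edge laws, whose entropy functional is at least `-k U(lam)` at one time, is a Gaussian
wave `N(0, Σ ⊗ Σ_star)`. -/
theorem wave_of_entropy (hq : 2 ≤ q) (hlam : lam ^ 2 < 4 * q)
    (mu : Measure (StarSp (q + 1) k)) [IsProbabilityMeasure mu] (mue : Measure (Ek k × Ek k))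
    (he : ∀ l, mu.map (edgeP l) = mue) (hs : mue.map Prod.swap = mue)
    (h2 : Integrable (fun x => ‖x.1‖ ^ 2) mu) (hsupp : ∀ᵐ x ∂mu, ∑ j, x.2 j = lam • x.1)
    {t0 : ℝ} (ht0 : 0 < t0) (hF : -(k * Uval q lam) ≤ Fent lam mu t0) :
    ∃ A : Ek k →L[ℝ] Ek k, mu = (waveM q k lam).map (siteMap A) := by
  have hq1 : 1 ≤ q := by omega
  have hq0 : (0 : ℝ) < q := by exact_mod_cast hq1
  have hc := cc_sq_lt_one hlam
  have hsg := sg_pos (q := q) hc
  have hcs := cc_sg hc
  set μ := mu.map (isoInv q k lam) with hμ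
  have hμp : IsProbabilityMeasure μ :=
    Measure.isProbabilityMeasure_map measurable_isoInv.aemeasurable
  -- second moments
  have hleaf : ∀ l, Integrable (fun x : StarSp (q + 1) k => ‖x.2 l‖ ^ 2) mu := by
    intro l
    have h1 : Integrable (fun p : Ek k × Ek k => ‖p.1‖ ^ 2) mue := by
      rw [← he l, integrable_map_measure (by fun_prop) (measurable_edgeP l).aemeasurable]
      exact h2
    have h3 : Integrable (fun p : Ek k × Ek k => ‖p.2‖ ^ 2) mue := by
      rw [← hs] at h1
      rw [integrable_map_measure (by fun_prop) measurable_swap.aemeasurable] at h1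
      exact h1
    rw [← he l, integrable_map_measure (by fun_prop) (measurable_edgeP l).aemeasurable] at h3
    exact h3
  have hμ2 : Integrable (fun y => ‖y‖ ^ 2) μ := by
    rw [hμ, integrable_map_measure (by fun_prop) measurable_isoInv.aemeasurable]
    have e1 : ((fun y : VS q k => ‖y‖ ^ 2) ∘ isoInv q k lam) =ᵐ[mu] fun s : StarSp (q + 1) k =>
        ‖s.1‖ ^ 2 + ((q : ℝ) / ((q : ℝ) + 1)) *
          ∑ l, ‖(sg q lam)⁻¹ • (s.2 l - cc q lam • s.1)‖ ^ 2 := by
      filter_upwards [hsupp] with s hs'
      simp only [Function.comp]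
      rw [norm_VS]
      have e2 := sum_norm_pil hq1 (isoInv q k lam s)
      have e3 : ∀ l, pil l (isoInv q k lam s) = (sg q lam)⁻¹ • (s.2 l - cc q lam • s.1) := by
        intro l
        exact congrArg WithLp.snd (Pl_isoInv hq1 hc hs' l)
      simp_rw [e3] at e2
      rw [e2]
      have e4 : (isoInv q k lam s).fst = s.1 := rfl
      rw [e4, ← mul_assoc]
      have e5 : (q : ℝ) / ((q : ℝ) + 1) * (((q : ℝ) + 1) / q) = 1 := by
        field_simp
      rw [e5, one_mul]
    refine Integrable.congr ?_ e1.symm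
    refine h2.add (Integrable.const_mul (integrable_finsetSum _ fun l _ => ?_) _)
    refine Integrable.mono' (((hleaf l).add (h2.const_mul (cc q lam ^ 2))).const_mul
      (2 * ((sg q lam)⁻¹) ^ 2)) (by fun_prop) (Eventually.of_forall fun s => ?_)
    rw [Real.norm_eq_abs, abs_of_nonneg (sq_nonneg _), norm_smul, mul_pow, Real.norm_eq_abs,
      sq_abs]
    have e6 : ‖s.2 l - cc q lam • s.1‖ ^ 2 ≤ 2 * (‖s.2 l‖ ^ 2 + cc q lam ^ 2 * ‖s.1‖ ^ 2) := by
      have h1 := norm_sub_le (s.2 l) (cc q lam • s.1)
      have h3 : ‖s.2 l - cc q lam • s.1‖ ^ 2 ≤ (‖s.2 l‖ + ‖cc q lam • s.1‖) ^ 2 := by gcongr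
      have h4 : ‖cc q lam • s.1‖ ^ 2 = cc q lam ^ 2 * ‖s.1‖ ^ 2 := by
        rw [norm_smul, mul_pow, Real.norm_eq_abs, sq_abs]
      nlinarith [sq_nonneg (‖s.2 l‖ - ‖cc q lam • s.1‖)]
    calc (sg q lam)⁻¹ ^ 2 * ‖s.2 l - cc q lam • s.1‖ ^ 2
        ≤ (sg q lam)⁻¹ ^ 2 * (2 * (‖s.2 l‖ ^ 2 + cc q lam ^ 2 * ‖s.1‖ ^ 2)) := by gcongr
      _ = 2 * (sg q lam)⁻¹ ^ 2 * (‖s.2 l‖ ^ 2 + cc q lam ^ 2 * ‖s.1‖ ^ 2) := by ring
  -- marginals
  set ν := mue.map (edgeInv q k lam) with hν
  have hm : ∀ l, μ.map (Pl q k l) = ν := by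
    intro l
    rw [hμ, Measure.map_map (Pl q k l).measurable measurable_isoInv, hν, ← he l,
      Measure.map_map measurable_edgeInv (measurable_edgeP l)]
    refine Measure.map_congr ?_
    filter_upwards [hsupp] with s hs'
    exact Pl_isoInv hq1 hc hs' l
  have hsw : ν.map (swp k (cc q lam) (sg q lam)) = ν := by
    conv_rhs => rw [hν, ← hs]
    rw [hν, Measure.map_map (swp k _ _).measurable measurable_edgeInv,
      Measure.map_map measurable_edgeInv measurable_swap]
    congr 1
    funext p
    exact edgeInv_swap hc p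
  -- the parameter `r`
  set r : ℝ := cc q lam * ((q : ℝ) - 1) / (2 * sg q lam) with hr
  have hr1 : 2 * sg q lam * r = cc q lam * ((q : ℝ) - 1) := by
    rw [hr]; field_simp
  have hr2 : r ^ 2 < q := by
    have h1 : (2 * sg q lam * r) ^ 2 = cc q lam ^ 2 * ((q : ℝ) - 1) ^ 2 := by
      rw [hr1]; ring
    have h3 : (cc q lam ^ 2) * ((q : ℝ) + 1) ^ 2 = lam ^ 2 := by
      unfold cc; field_simp
    have h4 : 4 * sg q lam ^ 2 * r ^ 2 < 4 * sg q lam ^ 2 * q := by
      have h5 : 4 * sg q lam ^ 2 * r ^ 2 = cc q lam ^ 2 * ((q : ℝ) - 1) ^ 2 := by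
        rw [← h1]; ring
      have h6 : sg q lam ^ 2 = 1 - cc q lam ^ 2 := by linarith
      rw [h5, h6]
      nlinarith
    exact lt_of_mul_lt_mul_left h4 (by positivity)
  -- entropy
  have hFe := Fent_eq (k := k) hq hlam mu hsupp hμ2 ht0
  rw [hFe, ← hμ, hm 0] at hF
  have hF0 : 0 ≤ Fiso μ ν t0 := by linarith
  obtain ⟨t, ht, hsc⟩ := exists_score_eq (μ := μ) (ν := ν) hq1 hcs hr1 hr2 hm hsw hμ2 ht0 hF0
  have hνp : IsProbabilityMeasure ν := by rw [← hm 0]; infer_instance
  have hc1 : cc q lam ≠ 1 := by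
    intro h; rw [h] at hc; norm_num at hc
  obtain ⟨C, hC⟩ := linear_of_score_eq hq hc1 hsg.ne' (sc μ t) (sc ν t) (continuous_sc ht) hsc
    (fun v => sc_swp hcs hsw ht v)
  obtain ⟨A, hA⟩ := exists_dg hμ2 ht C hC
  refine ⟨A, ?_⟩
  have h3 : mu = μ.map (isoStar q k lam) := map_isoStar_isoInv hq1 hc mu hsupp
  have hsite : Measurable (siteMap A : StarSp (q + 1) k → StarSp (q + 1) k) := by
    unfold siteMap
    fun_prop
  rw [h3, hA, waveM_eq hq1, Measure.map_map measurable_isoStar (dg q A).measurable,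
    Measure.map_map hsite measurable_isoStar]
  congr 1
  funext x
  refine Prod.ext rfl (funext fun l => ?_)
  show cc q lam • A x.fst + sg q lam • pil l (dg q A x) =
    A (cc q lam • x.fst + sg q lam • pil l x)
  rw [map_add, map_smul, map_smul]
  congr 2
  unfold pil
  rw [map_sum]
  simp_rw [dg_snd, map_smul]

end Vale.Agent.P156.H653
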