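import Vale.Agent.P156.H653.Mix

/-!
# Integrability and growth bounds for Gaussian mixtures with finite second moment
-/

open MeasureTheory Real Module
open scoped RealInnerProductSpace ENNReal Topology

noncomputable section

namespace Vale.Agent.P156.H653

variable {V : Type*} [NormedAddCommGroup V] [InnerProductSpace ℝ V] [FiniteDimensional ℝ V]
  [MeasurableSpace V] [BorelSpace V]

variable {μ : Measure V} [IsProbabilityMeasure μ]

lemma integrable_kernel_aux (h2 : Integrable (fun y => ‖y‖ ^ 2) μ) {κ : ℝ} (hκ : 0 < κ) :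
    Integrable (fun p : V × V => (1 + ‖p.2‖ ^ 2) * gk κ (p.1 - p.2)) (volume.prod μ) := by
  have hc := continuous_gk (V := V) κ
  have hcont : Continuous (fun p : V × V => (1 + ‖p.2‖ ^ 2) * gk κ (p.1 - p.2)) := by fun_prop
  rw [integrable_prod_iff' hcont.aestronglyMeasurable]
  constructor
  · refine Filter.Eventually.of_forall fun y => ?_
    exact ((integrable_gk hκ).comp_sub_right y).const_mul (1 + ‖y‖ ^ 2)
  · have e : (fun y : V => ∫ x, ‖(1 + ‖y‖ ^ 2) * gk κ (x - y)‖) = fun y => 1 + ‖y‖ ^ 2 := by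
      funext y
      have e1 : (fun x : V => ‖(1 + ‖y‖ ^ 2) * gk κ (x - y)‖) =
          fun x => (1 + ‖y‖ ^ 2) * gk κ (x - y) := by
        funext x
        rw [Real.norm_eq_abs, abs_of_pos]
        have := gk_pos κ (x - y)
        positivity
      rw [e1, integral_const_mul, integral_sub_right_eq_self (fun x => gk κ x) y, integral_gk hκ,
        mul_one]
    rw [e]
    exact (integrable_const _).add h2

omit [InnerProductSpace ℝ V] [FiniteDimensional ℝ V] [MeasurableSpace V] [BorelSpace V] in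
lemma weight_le (x y : V) : 1 + ‖x‖ ^ 2 ≤ 2 * ((1 + ‖y‖ ^ 2) * (1 + ‖x - y‖ ^ 2)) := by
  have h1 : ‖x‖ ≤ ‖x - y‖ + ‖y‖ := by
    calc ‖x‖ = ‖(x - y) + y‖ := by rw [sub_add_cancel]
      _ ≤ _ := norm_add_le _ _
  have h2 : ‖x‖ ^ 2 ≤ (‖x - y‖ + ‖y‖) ^ 2 := by
    have := norm_nonneg x
    gcongr
  nlinarith [sq_nonneg (‖x - y‖ - ‖y‖), sq_nonneg (‖x - y‖ * ‖y‖)]

/-- Functions on `V × V` dominated by `(1+|x|²)(1+|x-y|²) gk t (x-y)` are integrable. -/
lemma mix_dom {F : Type*} [NormedAddCommGroup F] (h2 : Integrable (fun y => ‖y‖ ^ 2) μ) {t C : ℝ}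
    (ht : 0 < t) {f : V → V → F}
    (hf : AEStronglyMeasurable (fun p : V × V => f p.1 p.2) (volume.prod μ))
    (hb : ∀ x y, ‖f x y‖ ≤ C * ((1 + ‖x‖ ^ 2) * ((1 + ‖x - y‖ ^ 2) * gk t (x - y)))) :
    Integrable (fun p : V × V => f p.1 p.2) (volume.prod μ) := by
  have hC : 0 ≤ C := by
    have := (norm_nonneg _).trans (hb 0 0)
    refine nonneg_of_mul_nonneg_left this ?_
    have := gk_pos t ((0 : V) - 0)
    positivity
  set D : ℝ := cdom (finrank ℝ V) (2 * t) (2 * t) with hD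
  set E : ℝ := cdom (finrank ℝ V) t t with hE
  have hDpos : 0 < D := cdom_pos _ _ _ (by positivity)
  have hEpos : 0 < E := cdom_pos _ _ _ (by positivity)
  refine Integrable.mono' ((integrable_kernel_aux (μ := μ) h2 (κ := 2 * (2 * t))
    (by positivity)).const_mul (C * (2 * (E * D)))) hf
    (Filter.Eventually.of_forall fun p => ?_)
  refine (hb p.1 p.2).trans ?_
  have e1 := gk_dom (V := V) ht le_rfl le_rfl (p.1 - p.2)
  have e2 := gk_dom (V := V) (a := 2 * t) (b := 2 * t) (t := 2 * t) (by positivity) le_rfl le_rfl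
    (p.1 - p.2)
  have e3 := weight_le p.1 p.2
  have g2 := (gk_pos (2 * t) (p.1 - p.2)).le
  have g1 := (gk_pos t (p.1 - p.2)).le
  have g3 : 0 ≤ (1 + ‖p.1 - p.2‖ ^ 2) * gk t (p.1 - p.2) := by positivity
  calc C * ((1 + ‖p.1‖ ^ 2) * ((1 + ‖p.1 - p.2‖ ^ 2) * gk t (p.1 - p.2)))
      ≤ C * ((2 * ((1 + ‖p.2‖ ^ 2) * (1 + ‖p.1 - p.2‖ ^ 2))) *
        (E * gk (2 * t) (p.1 - p.2))) := by
        gcongr
    _ = C * (2 * (E * ((1 + ‖p.2‖ ^ 2) * ((1 + ‖p.1 - p.2‖ ^ 2) * gk (2 * t) (p.1 - p.2))))) := by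
        ring
    _ ≤ C * (2 * (E * ((1 + ‖p.2‖ ^ 2) * (D * gk (2 * (2 * t)) (p.1 - p.2))))) := by
        gcongr
    _ = _ := by ring

/-- Fubini for mixtures. -/
lemma mix_fubini {F : Type*} [NormedAddCommGroup F] [NormedSpace ℝ F] {f : V → V → F}
    (hf : Integrable (fun p : V × V => f p.1 p.2) (volume.prod μ)) :
    ∫ x, ∫ y, f x y ∂μ = ∫ y, ∫ z, f (y + z) y ∂volume ∂μ := by
  rw [integral_integral_swap hf]
  congr 1
  funext y
  have := integral_add_right_eq_self (μ := (volume : Measure V)) (fun x => f x y) y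
  rw [← this]
  congr 1
  funext z
  rw [add_comm]

/-- Quadratic growth times a density is integrable. -/
lemma integrable_mul_pd (h2 : Integrable (fun y => ‖y‖ ^ 2) μ) {t C : ℝ} (ht : 0 < t) {φ : V → ℝ}
    (hφ : Measurable φ) (hb : ∀ x, |φ x| ≤ C * (1 + ‖x‖ ^ 2)) :
    Integrable (fun x => φ x * pd μ t x) := by
  have hc := continuous_gk (V := V) t
  have h : Integrable (fun p : V × V => φ p.1 * gk t (p.1 - p.2))
      (volume.prod μ) := by
    refine mix_dom (C := C) (f := fun x y => φ x * gk t (x - y)) h2 ht ?_ ?_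
    · have h1 : Measurable (fun p : V × V => φ p.1 * gk t (p.1 - p.2)) :=
        (hφ.comp measurable_fst).mul
          ((by fun_prop : Continuous fun p : V × V => gk t (p.1 - p.2)).measurable)
      exact h1.aestronglyMeasurable
    · intro x y
      rw [norm_mul, Real.norm_eq_abs, Real.norm_eq_abs, abs_of_pos (gk_pos t _)]
      have g := (gk_pos t (x - y)).le
      have hb' := hb x
      have hnn : 0 ≤ C * (1 + ‖x‖ ^ 2) := (abs_nonneg _).trans hb'
      calc |φ x| * gk t (x - y) ≤ (C * (1 + ‖x‖ ^ 2)) * gk t (x - y) := by gcongr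
        _ ≤ (C * (1 + ‖x‖ ^ 2)) * ((1 + ‖x - y‖ ^ 2) * gk t (x - y)) := by
            apply mul_le_mul_of_nonneg_left _ hnn
            nlinarith [sq_nonneg ‖x - y‖]
        _ = _ := by ring
  have := h.integral_prod_left
  simp only at this
  refine this.congr (Filter.Eventually.of_forall fun x => ?_)
  simp only [pd]
  rw [integral_const_mul]

lemma integral_mul_pd (h2 : Integrable (fun y => ‖y‖ ^ 2) μ) {t C : ℝ} (ht : 0 < t) {φ : V → ℝ}
    (hφ : Measurable φ) (hb : ∀ x, |φ x| ≤ C * (1 + ‖x‖ ^ 2)) :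
    ∫ x, φ x * pd μ t x = ∫ y, ∫ z, φ (y + z) * gk t z ∂volume ∂μ := by
  have hc := continuous_gk (V := V) t
  have h : Integrable (fun p : V × V => φ p.1 * gk t (p.1 - p.2))
      (volume.prod μ) := by
    refine mix_dom (C := C) (f := fun x y => φ x * gk t (x - y)) h2 ht ?_ ?_
    · have h1 : Measurable (fun p : V × V => φ p.1 * gk t (p.1 - p.2)) :=
        (hφ.comp measurable_fst).mul
          ((by fun_prop : Continuous fun p : V × V => gk t (p.1 - p.2)).measurable)
      exact h1.aestronglyMeasurable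
    · intro x y
      rw [norm_mul, Real.norm_eq_abs, Real.norm_eq_abs, abs_of_pos (gk_pos t _)]
      have g := (gk_pos t (x - y)).le
      have hb' := hb x
      have hnn : 0 ≤ C * (1 + ‖x‖ ^ 2) := (abs_nonneg _).trans hb'
      calc |φ x| * gk t (x - y) ≤ (C * (1 + ‖x‖ ^ 2)) * gk t (x - y) := by gcongr
        _ ≤ (C * (1 + ‖x‖ ^ 2)) * ((1 + ‖x - y‖ ^ 2) * gk t (x - y)) := by
            apply mul_le_mul_of_nonneg_left _ hnn
            nlinarith [sq_nonneg ‖x - y‖]
        _ = _ := by ring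
  have h3 := mix_fubini (f := fun x y => φ x * gk t (x - y)) h
  simp only [integral_const_mul] at h3
  unfold pd
  rw [h3]
  simp

lemma integral_pd (h2 : Integrable (fun y => ‖y‖ ^ 2) μ) {t : ℝ} (ht : 0 < t) :
    ∫ x, pd μ t x = 1 := by
  have := integral_mul_pd (μ := μ) h2 (C := 1) ht (φ := fun _ => 1) measurable_const
    (fun x => by simp)
  simp only [one_mul, integral_gk ht] at this
  simpa using this

lemma integrable_pd (h2 : Integrable (fun y => ‖y‖ ^ 2) μ) {t : ℝ} (ht : 0 < t) :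
    Integrable (pd μ t) := by
  have := integrable_mul_pd (μ := μ) h2 (C := 1) ht (φ := fun _ => 1) measurable_const
    (fun x => by simp)
  simpa using this

/-- second moment of the mixture -/
lemma integral_sq_mul_pd (h2 : Integrable (fun y => ‖y‖ ^ 2) μ) {t : ℝ} (ht : 0 < t) :
    ∫ x, ‖x‖ ^ 2 * pd μ t x = (∫ y, ‖y‖ ^ 2 ∂μ) + (finrank ℝ V : ℝ) * t := by
  have hc := continuous_gk (V := V) t
  rw [integral_mul_pd (μ := μ) h2 (C := 1) ht (φ := fun x => ‖x‖ ^ 2) (by fun_prop)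
    (fun x => by rw [abs_of_nonneg (sq_nonneg _)]; linarith)]
  have e : ∀ y : V, ∫ z : V, ‖y + z‖ ^ 2 * gk t z = ‖y‖ ^ 2 + (finrank ℝ V : ℝ) * t := by
    intro y
    have e1 : ∀ z : V, ‖y + z‖ ^ 2 * gk t z =
        (‖y‖ ^ 2 * gk t z + 2 * (⟪y, z⟫ * gk t z)) + ‖z‖ ^ 2 * gk t z := by
      intro z
      rw [norm_add_sq_real]; ring
    have i1 : Integrable (fun z : V => ‖y‖ ^ 2 * gk t z) := (integrable_gk ht).const_mul _
    have i2 : Integrable (fun z : V => ⟪y, z⟫ * gk t z) := by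
      refine integrable_of_dom (C := ‖y‖) ht
        (by fun_prop : Continuous fun z : V => ⟪y, z⟫ * gk t z).aestronglyMeasurable ?_
      intro z
      rw [norm_mul, Real.norm_eq_abs, Real.norm_eq_abs, abs_of_pos (gk_pos t z)]
      have g := (gk_pos t z).le
      calc |⟪y, z⟫| * gk t z ≤ (‖y‖ * ‖z‖) * gk t z := by
            gcongr; exact abs_real_inner_le_norm y z
        _ = ‖y‖ * (‖z‖ * gk t z) := by ring
        _ ≤ ‖y‖ * ((1 + ‖z‖ ^ 2) * gk t z) := by
            gcongr; nlinarith [sq_nonneg (‖z‖ - 1)]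
    have i3 : Integrable (fun z : V => ‖z‖ ^ 2 * gk t z) := by
      refine integrable_of_dom (C := 1) ht
        (by fun_prop : Continuous fun z : V => ‖z‖ ^ 2 * gk t z).aestronglyMeasurable ?_
      intro z
      rw [norm_mul, Real.norm_eq_abs, Real.norm_eq_abs, abs_of_pos (gk_pos t z),
        abs_of_nonneg (sq_nonneg _), one_mul]
      have g := (gk_pos t z).le
      gcongr
      linarith
    have odd : ∫ z : V, ⟪y, z⟫ * gk t z = 0 := by
      have h1 : ∫ z : V, ⟪y, z⟫ * gk t z = ∫ z : V, ⟪y, -z⟫ * gk t (-z) :=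
        (integral_neg_eq_self (fun z => ⟪y, z⟫ * gk t z) volume).symm
      have h3 : ∀ z : V, ⟪y, -z⟫ * gk t (-z) = -(⟪y, z⟫ * gk t z) := by
        intro z
        unfold gk
        rw [inner_neg_right, norm_neg]; ring
      simp_rw [h3, integral_neg] at h1
      linarith
    simp_rw [e1]
    have s1 : ∫ z : V, (‖y‖ ^ 2 * gk t z + 2 * (⟪y, z⟫ * gk t z)) + ‖z‖ ^ 2 * gk t z =
        (∫ z : V, (‖y‖ ^ 2 * gk t z + 2 * (⟪y, z⟫ * gk t z))) + ∫ z : V, ‖z‖ ^ 2 * gk t z :=
      integral_add (i1.add (i2.const_mul 2)) i3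
    rw [s1, integral_add i1 (i2.const_mul 2),
      integral_const_mul, integral_const_mul, integral_gk ht, odd, integral_norm_sq_gk ht]
    ring
  simp_rw [e]
  rw [integral_add h2 (integrable_const _)]
  simp

/-- lower bound exponent. -/
def lbd (n : ℕ) (M t x2 : ℝ) : ℝ := ((n : ℝ) / 2) * Real.log (2 * π * t) + (x2 + M) / t

/-- Gaussian lower bound of the density (Jensen). -/
lemma pd_ge (h2 : Integrable (fun y => ‖y‖ ^ 2) μ) {t : ℝ} (ht : 0 < t) (x : V) :
    Real.exp (-lbd (finrank ℝ V) (∫ y, ‖y‖ ^ 2 ∂μ) t (‖x‖ ^ 2)) ≤ pd μ t x := by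
  set M : ℝ := ∫ y, ‖y‖ ^ 2 ∂μ with hM
  set n : ℝ := (finrank ℝ V : ℝ) with hn
  set m : ℝ := -lbd (finrank ℝ V) M t (‖x‖ ^ 2) with hm
  have i1 : Integrable (fun y : V => Real.exp m *
      (1 + (-(n / 2) * Real.log (2 * π * t) - (‖x‖ ^ 2 + ‖y‖ ^ 2) / t - m))) μ := by
    refine Integrable.const_mul ?_ _
    have : (fun y : V => (1 + (-(n / 2) * Real.log (2 * π * t) - (‖x‖ ^ 2 + ‖y‖ ^ 2) / t - m))) =
        fun y : V => (1 + (-(n / 2) * Real.log (2 * π * t)) - ‖x‖ ^ 2 / t - m) +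
          (-(1 / t)) * ‖y‖ ^ 2 := by
      funext y; ring
    rw [this]
    exact (integrable_const _).add (h2.const_mul _)
  have h3 : ∀ y : V, Real.exp m *
      (1 + (-(n / 2) * Real.log (2 * π * t) - (‖x‖ ^ 2 + ‖y‖ ^ 2) / t - m)) ≤ gk t (x - y) := by
    intro y
    have e1 : Real.exp (-(n / 2) * Real.log (2 * π * t) - (‖x‖ ^ 2 + ‖y‖ ^ 2) / t) ≤
        gk t (x - y) := by
      unfold gk
      apply Real.exp_le_exp.2
      have e2 : ‖x - y‖ ^ 2 ≤ 2 * (‖x‖ ^ 2 + ‖y‖ ^ 2) := by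
        have := norm_sub_le x y
        have h4 : ‖x - y‖ ^ 2 ≤ (‖x‖ + ‖y‖) ^ 2 := by gcongr
        nlinarith [sq_nonneg (‖x‖ - ‖y‖)]
      have e3 : ‖x - y‖ ^ 2 / (2 * t) ≤ (‖x‖ ^ 2 + ‖y‖ ^ 2) / t := by
        rw [div_le_div_iff₀ (by positivity) ht]
        nlinarith
      linarith
    refine le_trans ?_ e1
    have e4 := Real.add_one_le_exp (-(n / 2) * Real.log (2 * π * t) -
      (‖x‖ ^ 2 + ‖y‖ ^ 2) / t - m)
    calc Real.exp m * (1 + (-(n / 2) * Real.log (2 * π * t) - (‖x‖ ^ 2 + ‖y‖ ^ 2) / t - m))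
        ≤ Real.exp m * Real.exp (-(n / 2) * Real.log (2 * π * t) -
          (‖x‖ ^ 2 + ‖y‖ ^ 2) / t - m) := by
          gcongr
          linarith
      _ = _ := by rw [← Real.exp_add]; congr 1; ring
  have h4 := integral_mono i1 (integrable_gk_shift (μ := μ) ht x) h3
  have h5 : ∫ y : V, Real.exp m *
      (1 + (-(n / 2) * Real.log (2 * π * t) - (‖x‖ ^ 2 + ‖y‖ ^ 2) / t - m)) ∂μ = Real.exp m := by
    rw [integral_const_mul]
    have : (fun y : V => (1 + (-(n / 2) * Real.log (2 * π * t) - (‖x‖ ^ 2 + ‖y‖ ^ 2) / t - m))) =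
        fun y : V => (1 + (-(n / 2) * Real.log (2 * π * t)) - ‖x‖ ^ 2 / t - m) +
          (-(1 / t)) * ‖y‖ ^ 2 := by
      funext y; ring
    rw [this, integral_add (integrable_const _) (h2.const_mul _), integral_const_mul, ← hM]
    simp only [integral_const, probReal_univ, smul_eq_mul, one_mul]
    have : m = -(n / 2) * Real.log (2 * π * t) - (‖x‖ ^ 2 + M) / t := by
      rw [hm]; unfold lbd; ring
    rw [mul_eq_left₀ (Real.exp_pos m).ne']
    rw [this]
    field_simp
    ring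
  rw [h5] at h4
  exact h4

/-- Constant in the bound of the logarithm. -/
def clog (n : ℕ) (M a b : ℝ) : ℝ :=
  ((n : ℝ) / 2) * (|Real.log (2 * π * a)| + |Real.log (2 * π * b)|) + (1 + M) / a

lemma clog_nonneg (n : ℕ) {M a b : ℝ} (hM : 0 ≤ M) (ha : 0 < a) : 0 ≤ clog n M a b := by
  unfold clog; positivity

lemma abs_log_pd_le (h2 : Integrable (fun y => ‖y‖ ^ 2) μ) {a b t : ℝ} (ha : 0 < a)
    (hat : a ≤ t) (htb : t ≤ b) (x : V) :
    |Real.log (pd μ t x)| ≤ clog (finrank ℝ V) (∫ y, ‖y‖ ^ 2 ∂μ) a b * (1 + ‖x‖ ^ 2) := by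
  have ht : 0 < t := ha.trans_le hat
  set M : ℝ := ∫ y, ‖y‖ ^ 2 ∂μ with hM
  have hM0 : 0 ≤ M := integral_nonneg fun y => by positivity
  have hp := pd_pos (μ := μ) ht x
  have h1 := pd_ge (μ := μ) h2 ht x
  have h3 := pd_le (μ := μ) ht x
  have h4 : -lbd (finrank ℝ V) M t (‖x‖ ^ 2) ≤ Real.log (pd μ t x) := by
    rw [Real.le_log_iff_exp_le hp]; exact h1
  have h5 : Real.log (pd μ t x) ≤ -((finrank ℝ V : ℝ) / 2) * Real.log (2 * π * t) := by
    rw [Real.log_le_iff_le_exp hp]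
    refine h3.trans ?_
    unfold gk
    simp
  have hl : |Real.log (2 * π * t)| ≤ |Real.log (2 * π * a)| + |Real.log (2 * π * b)| := by
    have l1 : Real.log (2 * π * a) ≤ Real.log (2 * π * t) :=
      Real.log_le_log (by positivity) (by gcongr)
    have l2 : Real.log (2 * π * t) ≤ Real.log (2 * π * b) :=
      Real.log_le_log (by positivity) (by gcongr)
    rw [abs_le]
    constructor
    · have := neg_abs_le (Real.log (2 * π * a))
      have := abs_nonneg (Real.log (2 * π * b))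
      linarith
    · have := le_abs_self (Real.log (2 * π * b))
      have := abs_nonneg (Real.log (2 * π * a))
      linarith
  set n : ℝ := (finrank ℝ V : ℝ) with hn
  have hn0 : 0 ≤ n := by positivity
  set L : ℝ := |Real.log (2 * π * a)| + |Real.log (2 * π * b)| with hL
  have hL0 : 0 ≤ L := by positivity
  have hx : 0 ≤ ‖x‖ ^ 2 := by positivity
  have h6 : (‖x‖ ^ 2 + M) / t ≤ (1 + M) / a * (1 + ‖x‖ ^ 2) := by
    have : (‖x‖ ^ 2 + M) / t ≤ (‖x‖ ^ 2 + M) / a := by gcongr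
    refine this.trans ?_
    rw [div_mul_eq_mul_div]
    gcongr
    nlinarith
  have h7 : n / 2 * |Real.log (2 * π * t)| ≤ n / 2 * L * (1 + ‖x‖ ^ 2) := by
    have : n / 2 * |Real.log (2 * π * t)| ≤ n / 2 * L := by gcongr
    nlinarith [mul_nonneg (mul_nonneg (by positivity : 0 ≤ n / 2) hL0) hx]
  have h8 : clog (finrank ℝ V) M a b * (1 + ‖x‖ ^ 2) =
      n / 2 * L * (1 + ‖x‖ ^ 2) + (1 + M) / a * (1 + ‖x‖ ^ 2) := by
    unfold clog; ring
  rw [h8, abs_le]
  have e1 := neg_abs_le (Real.log (2 * π * t))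
  have e2 := le_abs_self (Real.log (2 * π * t))
  have e3 : n / 2 * Real.log (2 * π * t) ≤ n / 2 * |Real.log (2 * π * t)| := by gcongr
  have e4 : -(n / 2 * |Real.log (2 * π * t)|) ≤ n / 2 * Real.log (2 * π * t) := by
    nlinarith
  have e5 : 0 ≤ (1 + M) / a * (1 + ‖x‖ ^ 2) := by positivity
  unfold lbd at h4
  constructor
  · linarith
  · linarith

/-- constant in the gradient bound -/
lemma exists_grad_bound (h2 : Integrable (fun y => ‖y‖ ^ 2) μ) {t : ℝ} (ht : 0 < t) :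
    ∃ C, 0 < C ∧ ∀ x : V, ‖gd μ t x‖ ≤ C * (1 + ‖x‖) * pd μ t x := by
  set M : ℝ := ∫ y, ‖y‖ ^ 2 ∂μ with hM
  have hM0 : 0 ≤ M := integral_nonneg fun y => by positivity
  set n : ℝ := (finrank ℝ V : ℝ) with hn
  have hn0 : 0 ≤ n := by positivity
  set E : ℝ := cdom (finrank ℝ V) t t with hE
  have hEpos : 0 < E := cdom_pos _ _ _ ht
  set G0 : ℝ := gk (2 * t) (0 : V) with hG0
  have hG0pos : 0 < G0 := gk_pos _ _
  -- pointwise inequality with a threshold
  have key : ∀ (A : ℝ), 0 ≤ A → ∀ z : V,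
      ‖z‖ ^ 2 * gk t z ≤ A * gk t z + E * G0 * Real.exp (-(A / (4 * t))) := by
    intro A hA z
    have g := (gk_pos t z).le
    rcases le_total (‖z‖ ^ 2) A with h | h
    · have : ‖z‖ ^ 2 * gk t z ≤ A * gk t z := by gcongr
      have : 0 ≤ E * G0 * Real.exp (-(A / (4 * t))) := by positivity
      linarith
    · have e1 := gk_dom (V := V) ht le_rfl le_rfl z
      have e2 : gk (2 * t) z ≤ G0 * Real.exp (-(A / (4 * t))) := by
        rw [hG0]
        unfold gk
        rw [← Real.exp_add]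
        apply Real.exp_le_exp.2
        have : A / (4 * t) ≤ ‖z‖ ^ 2 / (2 * (2 * t)) := by
          have : (2 * (2 * t)) = 4 * t := by ring
          rw [this]; gcongr
        simp only [norm_zero, ne_eq, OfNat.ofNat_ne_zero, not_false_eq_true, zero_pow, zero_div,
          sub_zero]
        linarith
      have e3 : ‖z‖ ^ 2 * gk t z ≤ (1 + ‖z‖ ^ 2) * gk t z := by gcongr; linarith
      have e4 : E * gk (2 * t) z ≤ E * (G0 * Real.exp (-(A / (4 * t)))) := by gcongr
      have e5 : 0 ≤ A * gk t z := by positivity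
      linarith
  -- the function `L x`
  set c0 : ℝ := n / 2 * |Real.log (2 * π * t)| + (1 + M) / t with hc0
  have hc0pos : 0 < c0 := by positivity
  have hL : ∀ x : V, Real.exp (-(c0 * (1 + ‖x‖ ^ 2))) ≤ pd μ t x := by
    intro x
    refine le_trans ?_ (pd_ge (μ := μ) h2 ht x)
    apply Real.exp_le_exp.2
    apply neg_le_neg
    unfold lbd
    have e1 : n / 2 * Real.log (2 * π * t) ≤ n / 2 * |Real.log (2 * π * t)| := by
      gcongr; exact le_abs_self _
    have e2 : 0 ≤ n / 2 * |Real.log (2 * π * t)| * ‖x‖ ^ 2 := by positivity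
    have e3 : (‖x‖ ^ 2 + M) / t ≤ (1 + M) / t * (1 + ‖x‖ ^ 2) := by
      rw [div_mul_eq_mul_div]
      gcongr
      nlinarith [sq_nonneg ‖x‖]
    rw [hc0]
    nlinarith
  have hq : ∀ x : V, ∫ y, ‖x - y‖ ^ 2 * gk t (x - y) ∂μ ≤
      (4 * t * c0 + E * G0) * (1 + ‖x‖ ^ 2) * pd μ t x := by
    intro x
    set A : ℝ := 4 * t * (c0 * (1 + ‖x‖ ^ 2)) with hA
    have hA0 : 0 ≤ A := by positivity
    have hAe : A / (4 * t) = c0 * (1 + ‖x‖ ^ 2) := by rw [hA]; field_simp
    have i1 : Integrable (fun y => ‖x - y‖ ^ 2 * gk t (x - y)) μ := by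
      refine integrable_shift μ (K := fun z : V => ‖z‖ ^ 2 * gk t z)
        (C := cdom (finrank ℝ V) t t * gk (2 * t) (0 : V))
        (by have := continuous_gk (V := V) t; fun_prop) ?_ x
      intro z
      refine le_trans ?_ (one_add_sq_gk_le ht z)
      rw [norm_mul, Real.norm_eq_abs, Real.norm_eq_abs, abs_of_pos (gk_pos t z),
        abs_of_nonneg (sq_nonneg _)]
      have g := (gk_pos t z).le
      gcongr
      linarith
    have i2 : Integrable (fun y => A * gk t (x - y) + E * G0 * Real.exp (-(A / (4 * t)))) μ :=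
      ((integrable_gk_shift ht x).const_mul A).add (integrable_const _)
    have h3 := integral_mono i1 i2 (fun y => key A hA0 (x - y))
    refine h3.trans ?_
    rw [integral_add ((integrable_gk_shift ht x).const_mul A) (integrable_const _),
      integral_const_mul]
    simp only [integral_const, probReal_univ, smul_eq_mul, one_mul]
    rw [hAe]
    have h4 := hL x
    have h5 : E * G0 * Real.exp (-(c0 * (1 + ‖x‖ ^ 2))) ≤ E * G0 * pd μ t x := by gcongr
    have hp := (pd_pos (μ := μ) ht x).le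
    have h6 : E * G0 * pd μ t x ≤ E * G0 * (1 + ‖x‖ ^ 2) * pd μ t x := by
      have : 0 ≤ E * G0 * ‖x‖ ^ 2 * pd μ t x := by positivity
      linarith
    have h7 : A * ∫ y, gk t (x - y) ∂μ = 4 * t * c0 * (1 + ‖x‖ ^ 2) * pd μ t x := by
      rw [hA]; unfold pd; ring
    rw [h7]
    nlinarith
  refine ⟨(1 / t) * ((1 / 2) * (1 + (4 * t * c0 + E * G0))), by positivity, fun x => ?_⟩
  set B : ℝ := 4 * t * c0 + E * G0 with hB
  have hB0 : 0 < B := by positivity
  set θ : ℝ := 1 + ‖x‖ with hθ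
  have hθ0 : 0 < θ := by positivity
  have hp := (pd_pos (μ := μ) ht x).le
  have n1 : ‖gd μ t x‖ ≤ ∫ y, (1 / t) * ((1 / 2) * (θ * gk t (x - y) +
      (1 / θ) * (‖x - y‖ ^ 2 * gk t (x - y)))) ∂μ := by
    unfold gd
    refine (norm_integral_le_integral_norm _).trans ?_
    refine integral_mono (integrable_gksmul_shift (μ := μ) ht x).norm ?_ ?_
    · refine Integrable.const_mul (Integrable.const_mul
        (((integrable_gk_shift ht x).const_mul θ).add (Integrable.const_mul ?_ _)) _) _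
      refine integrable_shift μ (K := fun z : V => ‖z‖ ^ 2 * gk t z)
        (C := cdom (finrank ℝ V) t t * gk (2 * t) (0 : V))
        (by have := continuous_gk (V := V) t; fun_prop) ?_ x
      intro z
      refine le_trans ?_ (one_add_sq_gk_le ht z)
      rw [norm_mul, Real.norm_eq_abs, Real.norm_eq_abs, abs_of_pos (gk_pos t z),
        abs_of_nonneg (sq_nonneg _)]
      have g := (gk_pos t z).le
      gcongr
      linarith
    · intro y
      simp only
      rw [norm_smul, norm_mul, norm_neg, Real.norm_eq_abs, Real.norm_eq_abs,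
        abs_of_pos (gk_pos t _), abs_of_pos (by positivity : 0 < 1 / t)]
      have g := (gk_pos t (x - y)).le
      have e1 : ‖x - y‖ ≤ (1 / 2) * (θ + (1 / θ) * ‖x - y‖ ^ 2) := by
        have : (1 / 2) * (θ + (1 / θ) * ‖x - y‖ ^ 2) - ‖x - y‖ =
            (1 / (2 * θ)) * (θ - ‖x - y‖) ^ 2 := by
          field_simp; ring
        have h0 : 0 ≤ (1 / (2 * θ)) * (θ - ‖x - y‖) ^ 2 := by positivity
        linarith
      calc 1 / t * gk t (x - y) * ‖x - y‖
          ≤ 1 / t * gk t (x - y) * ((1 / 2) * (θ + (1 / θ) * ‖x - y‖ ^ 2)) := by gcongr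
        _ = _ := by ring
  refine n1.trans ?_
  have i1 : Integrable (fun y => ‖x - y‖ ^ 2 * gk t (x - y)) μ := by
    refine integrable_shift μ (K := fun z : V => ‖z‖ ^ 2 * gk t z)
      (C := cdom (finrank ℝ V) t t * gk (2 * t) (0 : V))
      (by have := continuous_gk (V := V) t; fun_prop) ?_ x
    intro z
    refine le_trans ?_ (one_add_sq_gk_le ht z)
    rw [norm_mul, Real.norm_eq_abs, Real.norm_eq_abs, abs_of_pos (gk_pos t z),
      abs_of_nonneg (sq_nonneg _)]
    have g := (gk_pos t z).le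
    gcongr
    linarith
  rw [integral_const_mul, integral_const_mul,
    integral_add ((integrable_gk_shift ht x).const_mul θ) (i1.const_mul _), integral_const_mul,
    integral_const_mul]
  have h8 : (1 / θ) * ∫ y, ‖x - y‖ ^ 2 * gk t (x - y) ∂μ ≤ B * θ * pd μ t x := by
    have e1 := hq x
    have e2 : (1 / θ) * ∫ y, ‖x - y‖ ^ 2 * gk t (x - y) ∂μ ≤
        (1 / θ) * (B * (1 + ‖x‖ ^ 2) * pd μ t x) := by gcongr
    refine e2.trans ?_
    rw [one_div, inv_mul_le_iff₀ hθ0]
    have e3 : 1 + ‖x‖ ^ 2 ≤ θ * θ := by rw [hθ]; nlinarith [norm_nonneg x]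
    calc B * (1 + ‖x‖ ^ 2) * pd μ t x ≤ B * (θ * θ) * pd μ t x := by gcongr
      _ = _ := by ring
  have h9 : ∫ y, gk t (x - y) ∂μ = pd μ t x := rfl
  rw [h9]
  calc 1 / t * (1 / 2 * (θ * pd μ t x + 1 / θ * ∫ y, ‖x - y‖ ^ 2 * gk t (x - y) ∂μ))
      ≤ 1 / t * (1 / 2 * (θ * pd μ t x + B * θ * pd μ t x)) := by gcongr
    _ = _ := by ring

end Vale.Agent.P156.H653
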