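import Vale.Agent.P156.H849.StarDefs
import Mathlib.Probability.Distributions.Gaussian.Multivariate

/-!
# The Gaussian wave, the smoothed star law and its entropy functional

`d = q + 1`.  `StarSp (q+1) k = Ek k × (Fin (q+1) → Ek k)`.

* `dent ν` : differential entropy of a law `ν ≪ volume`;
* `waveM q k lam` : the standard Gaussian wave (identity covariance `⊗` the star covariance with
  `Var = 1`, `cov(o,j) = lam/d`, `cov(i,j) = (lam^2-d)/(d(d-1))`), as an image of i.i.d. standard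
  Gaussians;
* `smoothLaw lam μ t` : the law of `X + √t Ψ`, `X ~ μ`, `Ψ ~ waveM` independent;
* `Fent lam μ t = dent (Z_o, Z_1, ..., Z_{d-1}) - (d/2) dent (Z_o, Z_1)`;
* `Uval q lam = ((d-1)/2) log (d-1) - ((d-2)/4) log (d^2 - lam^2)`.
-/

open MeasureTheory ProbabilityTheory
open Vale.Agent.P156.H849

noncomputable section

namespace Vale.Agent.P156.H653

/-- Differential entropy `- ∫ log (dν/dx) dν`. -/
def dent {V : Type*} [MeasureSpace V] (ν : Measure V) : ℝ :=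
  - ∫ x, Real.log ((ν.rnDeriv volume x).toReal) ∂ν

/-- `cov(o,j) = lam / d`. -/
def cc (q : ℕ) (lam : ℝ) : ℝ := lam / ((q : ℝ) + 1)

/-- `sqrt (1 - (lam/d)^2)`. -/
def sg (q : ℕ) (lam : ℝ) : ℝ := Real.sqrt (1 - cc q lam ^ 2)

/-- The linear map sending i.i.d. standard Gaussians `(g_0; g_1, ..., g_d)` to the wave
`(g_0 ; c g_0 + σ √(d/(d-1)) (g_j - mean g))`. -/
def waveMap (q k : ℕ) (lam : ℝ) (g : StarSp (q + 1) k) : StarSp (q + 1) k :=
  (g.1, fun j => cc q lam • g.1 + (sg q lam * Real.sqrt (((q : ℝ) + 1) / q)) •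
    (g.2 j - ((1 : ℝ) / ((q : ℝ) + 1)) • ∑ i, g.2 i))

/-- The standard Gaussian wave on the star. -/
def waveM (q k : ℕ) (lam : ℝ) : Measure (StarSp (q + 1) k) :=
  ((stdGaussian (Ek k)).prod (Measure.pi fun _ : Fin (q + 1) => stdGaussian (Ek k))).map
    (waveMap q k lam)

/-- The law of `X + √t Ψ`. -/
def smoothLaw {q k : ℕ} (lam : ℝ) (μ : Measure (StarSp (q + 1) k)) (t : ℝ) :
    Measure (StarSp (q + 1) k) :=
  (μ.prod (waveM q k lam)).map fun p => p.1 + Real.sqrt t • p.2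

/-- Forget the last leaf. -/
def redStar {q k : ℕ} (x : StarSp (q + 1) k) : StarSp q k := (x.1, fun j => x.2 j.castSucc)

/-- The edge `(o, l)`. -/
def edgeP {q k : ℕ} (l : Fin (q + 1)) (x : StarSp (q + 1) k) : Ek k × Ek k := (x.1, x.2 l)

/-- The entropy functional `h(Z_o, Z_1, ..., Z_{d-1}) - (d/2) h(Z_o, Z_1)`. -/
def Fent {q k : ℕ} (lam : ℝ) (μ : Measure (StarSp (q + 1) k)) (t : ℝ) : ℝ :=
  dent ((smoothLaw lam μ t).map redStar) -
    (((q : ℝ) + 1) / 2) * dent ((smoothLaw lam μ t).map (edgeP 0))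

/-- `U(lam)`, `d = q+1`. -/
def Uval (q : ℕ) (lam : ℝ) : ℝ :=
  ((q : ℝ) / 2) * Real.log q - (((q : ℝ) - 1) / 4) * Real.log (((q : ℝ) + 1) ^ 2 - lam ^ 2)

/-- `A` applied at every site. -/
def siteMap {d k : ℕ} (A : Ek k →L[ℝ] Ek k) (x : StarSp d k) : StarSp d k :=
  (A x.1, fun j => A (x.2 j))

end Vale.Agent.P156.H653
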