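import Vale.Agent.P156.H653.Bounds

/-!
# Entropy and Fisher information of Gaussian mixtures: de Bruijn identity and large time bounds
-/

open MeasureTheory Real Module
open scoped RealInnerProductSpace ENNReal Topology

noncomputable section

namespace Vale.Agent.P156.H653

variable {V : Type*} [NormedAddCommGroup V] [InnerProductSpace ℝ V] [FiniteDimensional ℝ V]
  [MeasurableSpace V] [BorelSpace V]

variable (μ : Measure V)

/-- entropy of the mixture -/
def ent (t : ℝ) : ℝ := ∫ x, negMulLog (pd μ t x)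

/-- Fisher information of the mixture -/
def fish (t : ℝ) : ℝ := ∫ x, ‖gd μ t x‖ ^ 2 / pd μ t x

variable {μ} [IsProbabilityMeasure μ]

lemma abs_conv_le {a b s C : ℝ} (ha : 0 < a) (has : a ≤ s) (hsb : s ≤ b) (hC : 0 ≤ C) {K : V → ℝ}
    (hKc : Continuous K) (hK : ∀ z, |K z| ≤ C * ((1 + ‖z‖ ^ 2) * gk s z)) (x : V) :
    |∫ y, K (x - y) ∂μ| ≤ C * cdom (finrank ℝ V) a b * pd μ (2 * b) x := by
  have hb : 0 < b := (ha.trans_le has).trans_le hsb
  have h1 : ∀ z : V, |K z| ≤ C * cdom (finrank ℝ V) a b * gk (2 * b) z := by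
    intro z
    refine (hK z).trans ?_
    rw [mul_assoc]
    exact mul_le_mul_of_nonneg_left (gk_dom ha has hsb z) hC
  have h0 : ∀ z : V, ‖K z‖ ≤ C * cdom (finrank ℝ V) a b * gk (2 * b) (0 : V) := by
    intro z
    refine (h1 z).trans ?_
    have := cdom_pos (finrank ℝ V) a b hb
    exact mul_le_mul_of_nonneg_left (gk_le_zero (by positivity) z) (by positivity)
  calc |∫ y, K (x - y) ∂μ| ≤ ∫ y, |K (x - y)| ∂μ := abs_integral_le_integral_abs
    _ ≤ ∫ y, C * cdom (finrank ℝ V) a b * gk (2 * b) (x - y) ∂μ := by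
        refine integral_mono (integrable_shift μ hKc h0 x).norm
          ((integrable_gk_shift (by positivity) x).const_mul _) fun y => h1 _
    _ = _ := by rw [integral_const_mul]; rfl

lemma measurable_pd {t : ℝ} (ht : 0 < t) : Measurable (pd μ t) := (continuous_pd ht).measurable

lemma measurable_gd {t : ℝ} (ht : 0 < t) : Measurable (gd μ t) := (continuous_gd ht).measurable

/-- A function bounded by `(1+|x|²) pd (2b)` is integrable. -/
lemma integrable_of_le_pd (h2 : Integrable (fun y => ‖y‖ ^ 2) μ) {κ C : ℝ} (hκ : 0 < κ)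
    {f : V → ℝ} (hf : Measurable f) (hb : ∀ x, |f x| ≤ C * (1 + ‖x‖ ^ 2) * pd μ κ x) :
    Integrable f := by
  have h := integrable_mul_pd (μ := μ) h2 (t := κ) (C := C) hκ
    (φ := fun x => C * (1 + ‖x‖ ^ 2)) (by fun_prop) (fun x => by
      have hp := pd_pos (μ := μ) hκ x
      have h1 : 0 ≤ C * (1 + ‖x‖ ^ 2) := by
        have := (abs_nonneg _).trans (hb x)
        exact nonneg_of_mul_nonneg_left this hp
      rw [abs_of_nonneg h1])
  exact Integrable.mono' h hf.aestronglyMeasurable (Filter.Eventually.of_forall hb)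

lemma td_le {a b s : ℝ} (ha : 0 < a) (has : a ≤ s) (hsb : s ≤ b) (x : V) :
    |td μ s x| ≤ (1 / (2 * a ^ 2) + (finrank ℝ V : ℝ) / (2 * a)) * cdom (finrank ℝ V) a b *
      pd μ (2 * b) x :=
  abs_conv_le ha has hsb (by positivity) (continuous_gkt s) (fun z => abs_gkt_le ha has z) x

lemma qd_le {t : ℝ} (ht : 0 < t) (w x : V) :
    |qd μ t w x| ≤ (‖w‖ ^ 2 / t ^ 2 + ‖w‖ ^ 2 / t) * cdom (finrank ℝ V) t t *
      pd μ (2 * t) x :=
  abs_conv_le ht le_rfl le_rfl (by positivity) (continuous_gkxx t w)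
    (fun z => abs_gkxx_le ht w z) x

lemma inner_gd_le {t : ℝ} (ht : 0 < t) (w x : V) :
    |⟪gd μ t x, w⟫| ≤ (‖w‖ / t) * cdom (finrank ℝ V) t t * pd μ (2 * t) x := by
  rw [inner_gd ht]
  exact abs_conv_le ht le_rfl le_rfl (by positivity) (continuous_gkx t w)
    (fun z => abs_gkx_le' ht w z) x

/-- The score has linear growth, squared version. -/
lemma exists_score_bound (h2 : Integrable (fun y => ‖y‖ ^ 2) μ) {t : ℝ} (ht : 0 < t) :
    ∃ C, 0 < C ∧ ∀ x : V, ‖(pd μ t x)⁻¹ • gd μ t x‖ ^ 2 ≤ C * (1 + ‖x‖ ^ 2) := by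
  obtain ⟨C, hC, h⟩ := exists_grad_bound (μ := μ) h2 ht
  refine ⟨2 * C ^ 2, by positivity, fun x => ?_⟩
  have hp := pd_pos (μ := μ) ht x
  have h1 : ‖(pd μ t x)⁻¹ • gd μ t x‖ ≤ C * (1 + ‖x‖) := by
    rw [norm_smul, norm_inv, Real.norm_eq_abs, abs_of_pos hp, inv_mul_le_iff₀ hp]
    calc ‖gd μ t x‖ ≤ C * (1 + ‖x‖) * pd μ t x := h x
      _ = _ := by ring
  calc ‖(pd μ t x)⁻¹ • gd μ t x‖ ^ 2 ≤ (C * (1 + ‖x‖)) ^ 2 := by gcongr
    _ = C ^ 2 * (1 + ‖x‖) ^ 2 := by ring
    _ ≤ C ^ 2 * (2 * (1 + ‖x‖ ^ 2)) := by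
        gcongr
        nlinarith [sq_nonneg (1 - ‖x‖)]
    _ = _ := by ring

lemma norm_sq_gd_div {t : ℝ} (ht : 0 < t) (x : V) :
    ‖gd μ t x‖ ^ 2 / pd μ t x = ‖(pd μ t x)⁻¹ • gd μ t x‖ ^ 2 * pd μ t x := by
  have hp := pd_pos (μ := μ) ht x
  rw [norm_smul, norm_inv, Real.norm_eq_abs, abs_of_pos hp]
  field_simp

lemma measurable_score {t : ℝ} (ht : 0 < t) : Measurable (fun x => (pd μ t x)⁻¹ • gd μ t x) :=
  (measurable_pd ht).inv.smul (measurable_gd ht)

lemma integrable_inner_sq_div (h2 : Integrable (fun y => ‖y‖ ^ 2) μ) {t : ℝ} (ht : 0 < t)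
    (w : V) : Integrable (fun x => ⟪gd μ t x, w⟫ / pd μ t x * ⟪gd μ t x, w⟫) := by
  obtain ⟨C, hC, h⟩ := exists_score_bound (μ := μ) h2 ht
  refine integrable_of_le_pd (μ := μ) h2 (κ := t) (C := ‖w‖ ^ 2 * C) ht ?_ ?_
  · have h1 : Measurable (fun x => ⟪gd μ t x, w⟫) :=
      (continuous_gd ht).inner continuous_const |>.measurable
    exact (h1.div (measurable_pd ht)).mul h1
  · intro x
    have hp := pd_pos (μ := μ) ht x
    have e : ⟪gd μ t x, w⟫ / pd μ t x * ⟪gd μ t x, w⟫ =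
        ⟪(pd μ t x)⁻¹ • gd μ t x, w⟫ ^ 2 * pd μ t x := by
      rw [real_inner_smul_left]; field_simp
    rw [e, abs_mul, abs_of_pos hp, abs_of_nonneg (sq_nonneg _)]
    have h3 : ⟪(pd μ t x)⁻¹ • gd μ t x, w⟫ ^ 2 ≤ (‖(pd μ t x)⁻¹ • gd μ t x‖ * ‖w‖) ^ 2 := by
      rw [← sq_abs]
      exact pow_le_pow_left₀ (abs_nonneg _) (abs_real_inner_le_norm _ _) 2
    have h4 := h x
    have h5 : (‖(pd μ t x)⁻¹ • gd μ t x‖ * ‖w‖) ^ 2 ≤ ‖w‖ ^ 2 * C * (1 + ‖x‖ ^ 2) := by
      calc (‖(pd μ t x)⁻¹ • gd μ t x‖ * ‖w‖) ^ 2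
          = ‖w‖ ^ 2 * ‖(pd μ t x)⁻¹ • gd μ t x‖ ^ 2 := by ring
        _ ≤ ‖w‖ ^ 2 * (C * (1 + ‖x‖ ^ 2)) := by gcongr
        _ = _ := by ring
    gcongr
    exact h3.trans h5

lemma log_add_one_le (h2 : Integrable (fun y => ‖y‖ ^ 2) μ) {a b t : ℝ} (ha : 0 < a)
    (hat : a ≤ t) (htb : t ≤ b) (x : V) :
    |Real.log (pd μ t x) + 1| ≤
      (clog (finrank ℝ V) (∫ y, ‖y‖ ^ 2 ∂μ) a b + 1) * (1 + ‖x‖ ^ 2) := by
  have h := abs_log_pd_le (μ := μ) h2 ha hat htb x
  calc |Real.log (pd μ t x) + 1| ≤ |Real.log (pd μ t x)| + |(1 : ℝ)| := abs_add_le _ _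
    _ ≤ clog (finrank ℝ V) (∫ y, ‖y‖ ^ 2 ∂μ) a b * (1 + ‖x‖ ^ 2) + 1 := by simp; linarith
    _ ≤ _ := by nlinarith [sq_nonneg ‖x‖]

lemma hasLineDerivAt_log_pd {t : ℝ} (ht : 0 < t) (w x : V) :
    HasLineDerivAt ℝ (fun x => Real.log (pd μ t x) + 1) (⟪gd μ t x, w⟫ / pd μ t x) x w := by
  have h := hasLineDerivAt_pd (μ := μ) ht w x
  unfold HasLineDerivAt at h ⊢
  have h1 := (h.log (by
    simp only [zero_smul, add_zero]
    exact (pd_pos ht x).ne')).add_const 1
  simpa using h1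

/-- integration by parts -/
lemma integral_log_mul_qd (h2 : Integrable (fun y => ‖y‖ ^ 2) μ) {t : ℝ} (ht : 0 < t) (w : V) :
    Integrable (fun x => (Real.log (pd μ t x) + 1) * qd μ t w x) ∧
    ∫ x, (Real.log (pd μ t x) + 1) * qd μ t w x =
      - ∫ x, ⟪gd μ t x, w⟫ / pd μ t x * ⟪gd μ t x, w⟫ := by
  set Cl : ℝ := clog (finrank ℝ V) (∫ y, ‖y‖ ^ 2 ∂μ) t t + 1 with hCl
  have hCl0 : 0 ≤ Cl := by
    have := clog_nonneg (finrank ℝ V) (M := ∫ y, ‖y‖ ^ 2 ∂μ) (b := t)
      (integral_nonneg fun y => by positivity) ht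
    linarith
  have hml : Measurable (fun x => Real.log (pd μ t x) + 1) := (measurable_pd ht).log.add_const 1
  have e0 : 0 < cdom (finrank ℝ V) t t := cdom_pos _ _ _ ht
  have i1 : Integrable (fun x => (Real.log (pd μ t x) + 1) * qd μ t w x) := by
    refine integrable_of_le_pd (μ := μ) h2 (κ := 2 * t)
      (C := Cl * ((‖w‖ ^ 2 / t ^ 2 + ‖w‖ ^ 2 / t) * cdom (finrank ℝ V) t t)) (by positivity)
      (hml.mul (continuous_qd ht w).measurable) ?_
    intro x
    rw [abs_mul]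
    have e1 := log_add_one_le (μ := μ) h2 ht le_rfl le_rfl x
    have e2 := qd_le (μ := μ) ht w x
    have e3 := (pd_pos (μ := μ) (t := 2 * t) (by positivity) x).le
    calc |Real.log (pd μ t x) + 1| * |qd μ t w x|
        ≤ (Cl * (1 + ‖x‖ ^ 2)) * ((‖w‖ ^ 2 / t ^ 2 + ‖w‖ ^ 2 / t) * cdom (finrank ℝ V) t t *
          pd μ (2 * t) x) := by gcongr
      _ = _ := by ring
  refine ⟨i1, ?_⟩
  have i2 := integrable_inner_sq_div (μ := μ) h2 ht w
  have i3 : Integrable (fun x => (Real.log (pd μ t x) + 1) * ⟪gd μ t x, w⟫) := by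
    refine integrable_of_le_pd (μ := μ) h2 (κ := 2 * t)
      (C := Cl * ((‖w‖ / t) * cdom (finrank ℝ V) t t)) (by positivity)
      (hml.mul ((continuous_gd ht).inner continuous_const |>.measurable)) ?_
    intro x
    rw [abs_mul]
    have e1 := log_add_one_le (μ := μ) h2 ht le_rfl le_rfl x
    have e2 := inner_gd_le (μ := μ) ht w x
    have e3 := (pd_pos (μ := μ) (t := 2 * t) (by positivity) x).le
    calc |Real.log (pd μ t x) + 1| * |⟪gd μ t x, w⟫|
        ≤ (Cl * (1 + ‖x‖ ^ 2)) * ((‖w‖ / t) * cdom (finrank ℝ V) t t *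
          pd μ (2 * t) x) := by gcongr
      _ = _ := by ring
  have key := integral_bilinear_hasLineDerivAt_right_eq_neg_left_of_integrable
    (μ := (volume : Measure V)) (f := fun x => Real.log (pd μ t x) + 1)
    (f' := fun x => ⟪gd μ t x, w⟫ / pd μ t x) (g := fun x => ⟪gd μ t x, w⟫)
    (g' := qd μ t w) (v := w) (B := ContinuousLinearMap.mul ℝ ℝ)
    i2 i1 i3 (fun x _ => hasLineDerivAt_log_pd ht w x) (fun x _ => hasLineDerivAt_gd ht w x)
  simpa only [ContinuousLinearMap.mul_apply'] using key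

/-- de Bruijn's identity. -/
theorem hasDerivAt_ent (h2 : Integrable (fun y => ‖y‖ ^ 2) μ) {t : ℝ} (ht : 0 < t) :
    HasDerivAt (ent μ) (fish μ t / 2) t := by
  have ha : 0 < t / 2 := by positivity
  set M : ℝ := ∫ y, ‖y‖ ^ 2 ∂μ with hM
  set Cl : ℝ := clog (finrank ℝ V) M (t / 2) (2 * t) + 1 with hCl
  have hCl0 : 0 ≤ Cl := by
    have := clog_nonneg (finrank ℝ V) (M := M) (b := 2 * t)
      (integral_nonneg fun y => by positivity) ha
    linarith
  set Ct : ℝ := (1 / (2 * (t / 2) ^ 2) + (finrank ℝ V : ℝ) / (2 * (t / 2))) *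
    cdom (finrank ℝ V) (t / 2) (2 * t) with hCt
  have hCt0 : 0 ≤ Ct := by
    have := cdom_pos (finrank ℝ V) (t / 2) (2 * t) (by positivity)
    positivity
  have h := hasDerivAt_integral_of_dominated_loc_of_deriv_le (μ := (volume : Measure V)) (𝕜 := ℝ)
    (F := fun (s : ℝ) x => negMulLog (pd μ s x))
    (F' := fun (s : ℝ) x => (-Real.log (pd μ s x) - 1) * td μ s x)
    (x₀ := t) (s := Set.Icc (t / 2) (2 * t))
    (bound := fun x => Cl * Ct * (1 + ‖x‖ ^ 2) * pd μ (2 * (2 * t)) x)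
    (Icc_mem_nhds (by linarith) (by linarith))
    (by
      filter_upwards [lt_mem_nhds ht] with s hs
      exact (continuous_negMulLog.comp (continuous_pd hs)).aestronglyMeasurable)
    (by
      refine integrable_of_le_pd (μ := μ) h2 (κ := t) (C := clog (finrank ℝ V) M t t) ht
        (continuous_negMulLog.comp (continuous_pd ht)).measurable ?_
      intro x
      have hp := pd_pos (μ := μ) ht x
      rw [negMulLog, abs_mul, abs_neg, abs_of_pos hp, mul_comm]
      have := abs_log_pd_le (μ := μ) h2 ht le_rfl le_rfl x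
      gcongr)
    (((measurable_pd ht).log.neg.sub_const 1).mul
      (continuous_td ht).measurable).aestronglyMeasurable
    (Filter.Eventually.of_forall fun x s hs => by
      rw [norm_mul, Real.norm_eq_abs, Real.norm_eq_abs]
      have e1 := log_add_one_le (μ := μ) h2 ha hs.1 hs.2 x
      have e2 := td_le (μ := μ) ha hs.1 hs.2 x
      have e3 := (pd_pos (μ := μ) (t := 2 * (2 * t)) (by positivity) x).le
      have e4 : |-Real.log (pd μ s x) - 1| = |Real.log (pd μ s x) + 1| := by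
        rw [← abs_neg]; congr 1; ring
      rw [e4]
      calc |Real.log (pd μ s x) + 1| * |td μ s x|
          ≤ (Cl * (1 + ‖x‖ ^ 2)) * (Ct * pd μ (2 * (2 * t)) x) := by gcongr
        _ = _ := by ring)
    (by
      have := integrable_mul_pd (μ := μ) h2 (t := 2 * (2 * t)) (C := Cl * Ct) (by positivity)
        (φ := fun x => Cl * Ct * (1 + ‖x‖ ^ 2)) (by fun_prop) (fun x => by
          rw [abs_of_nonneg (by positivity)])
      exact this)
    (Filter.Eventually.of_forall fun x s hs => by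
      have hs0 : 0 < s := ha.trans_le hs.1
      have h3 := hasDerivAt_pd (μ := μ) hs0 x
      have h4 := (hasDerivAt_negMulLog (pd_pos (μ := μ) hs0 x).ne').comp s h3
      exact h4)
  refine HasDerivAt.congr_deriv (f' := ∫ x, (-Real.log (pd μ t x) - 1) * td μ t x) h.2 ?_
  -- the value
  have e1 : ∀ x, (-Real.log (pd μ t x) - 1) * td μ t x =
      (-(1 / 2)) * ∑ i, (Real.log (pd μ t x) + 1) * qd μ t (stdOrthonormalBasis ℝ V i) x := by
    intro x
    rw [td_eq ht, ← Finset.mul_sum]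
    ring
  simp_rw [e1]
  rw [integral_const_mul, integral_finsetSum _ fun i _ => (integral_log_mul_qd h2 ht _).1]
  rw [Finset.sum_congr rfl fun i _ =>
    (integral_log_mul_qd (μ := μ) h2 ht (stdOrthonormalBasis ℝ V i)).2]
  rw [Finset.sum_neg_distrib, ← integral_finsetSum _ fun i _ => integrable_inner_sq_div h2 ht _]
  unfold fish
  have e2 : ∀ x, ∑ i, ⟪gd μ t x, stdOrthonormalBasis ℝ V i⟫ / pd μ t x *
      ⟪gd μ t x, stdOrthonormalBasis ℝ V i⟫ = ‖gd μ t x‖ ^ 2 / pd μ t x := by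
    intro x
    rw [norm_sq_eq_sum (gd μ t x), Finset.sum_div]
    congr 1
    funext i
    ring
  simp_rw [e2]
  ring

/-- `∫ - G log G`. -/
lemma integral_negMulLog_gk {t : ℝ} (ht : 0 < t) :
    Integrable (fun z : V => negMulLog (gk t z)) ∧ ∫ z : V, negMulLog (gk t z) =
      (finrank ℝ V : ℝ) / 2 * Real.log (2 * π * t) + (finrank ℝ V : ℝ) / 2 := by
  have e : ∀ z : V, negMulLog (gk t z) =
      (finrank ℝ V : ℝ) / 2 * Real.log (2 * π * t) * gk t z +
        (1 / (2 * t)) * (‖z‖ ^ 2 * gk t z) := by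
    intro z
    unfold negMulLog
    have : Real.log (gk t z) =
        -((finrank ℝ V : ℝ) / 2) * Real.log (2 * π * t) - ‖z‖ ^ 2 / (2 * t) := by
      unfold gk; rw [Real.log_exp]
    rw [this]
    field_simp
    ring
  have i3 : Integrable (fun z : V => ‖z‖ ^ 2 * gk t z) := by
    have hc := continuous_gk (V := V) t
    refine integrable_of_dom (C := 1) ht
      (by fun_prop : Continuous fun z : V => ‖z‖ ^ 2 * gk t z).aestronglyMeasurable ?_
    intro z
    rw [norm_mul, Real.norm_eq_abs, Real.norm_eq_abs, abs_of_pos (gk_pos t z),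
      abs_of_nonneg (sq_nonneg _), one_mul]
    have g := (gk_pos t z).le
    gcongr
    linarith
  simp_rw [e]
  have i1 := (integrable_gk (V := V) ht).const_mul ((finrank ℝ V : ℝ) / 2 * Real.log (2 * π * t))
  have i2 := i3.const_mul (1 / (2 * t))
  refine ⟨i1.add i2, ?_⟩
  rw [integral_add i1 i2, integral_const_mul, integral_const_mul, integral_gk ht,
    integral_norm_sq_gk ht]
  field_simp

lemma integrable_negMulLog_pd (h2 : Integrable (fun y => ‖y‖ ^ 2) μ) {t : ℝ} (ht : 0 < t) :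
    Integrable (fun x => negMulLog (pd μ t x)) := by
  refine integrable_of_le_pd (μ := μ) h2 (κ := t)
    (C := clog (finrank ℝ V) (∫ y, ‖y‖ ^ 2 ∂μ) t t) ht
    (continuous_negMulLog.comp (continuous_pd ht)).measurable ?_
  intro x
  have hp := pd_pos (μ := μ) ht x
  rw [negMulLog, abs_mul, abs_neg, abs_of_pos hp, mul_comm]
  have := abs_log_pd_le (μ := μ) h2 ht le_rfl le_rfl x
  gcongr

/-- upper bound (Gibbs). -/
theorem ent_le (h2 : Integrable (fun y => ‖y‖ ^ 2) μ) {t : ℝ} (ht : 0 < t) :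
    ent μ t ≤ (finrank ℝ V : ℝ) / 2 * Real.log (2 * π * t) + (finrank ℝ V : ℝ) / 2 +
      (∫ y, ‖y‖ ^ 2 ∂μ) / (2 * t) := by
  unfold ent
  set n : ℝ := (finrank ℝ V : ℝ) with hn
  have i1 : Integrable (fun x : V => ‖x‖ ^ 2 * pd μ t x) :=
    integrable_mul_pd (μ := μ) h2 (C := 1) ht (φ := fun x => ‖x‖ ^ 2) (by fun_prop)
      (fun x => by rw [abs_of_nonneg (sq_nonneg _)]; linarith)
  have ip := integrable_pd (μ := μ) h2 ht
  have ig := integrable_gk (V := V) ht
  have key : ∀ x : V, negMulLog (pd μ t x) ≤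
      ((n / 2 * Real.log (2 * π * t)) * pd μ t x + (1 / (2 * t)) * (‖x‖ ^ 2 * pd μ t x)) +
        (gk t x - pd μ t x) := by
    intro x
    have hp := pd_pos (μ := μ) ht x
    have hg := gk_pos t x
    have h3 : Real.log (gk t x / pd μ t x) ≤ gk t x / pd μ t x - 1 :=
      Real.log_le_sub_one_of_pos (by positivity)
    rw [Real.log_div hg.ne' hp.ne'] at h3
    have h4 : Real.log (gk t x) = -(n / 2) * Real.log (2 * π * t) - ‖x‖ ^ 2 / (2 * t) := by
      unfold gk; rw [Real.log_exp]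
    rw [h4] at h3
    have h5 := mul_le_mul_of_nonneg_left h3 hp.le
    have h6 : pd μ t x * (gk t x / pd μ t x - 1) = gk t x - pd μ t x := by
      field_simp
    rw [h6] at h5
    unfold negMulLog
    have h7 : pd μ t x * (-(n / 2) * Real.log (2 * π * t) - ‖x‖ ^ 2 / (2 * t) -
        Real.log (pd μ t x)) = -((n / 2 * Real.log (2 * π * t)) * pd μ t x +
          (1 / (2 * t)) * (‖x‖ ^ 2 * pd μ t x)) + -pd μ t x * Real.log (pd μ t x) := by
      field_simp
      ring
    linarith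
  have i2 : Integrable (fun x : V => (n / 2 * Real.log (2 * π * t)) * pd μ t x +
      (1 / (2 * t)) * (‖x‖ ^ 2 * pd μ t x)) := (ip.const_mul _).add (i1.const_mul _)
  have h8 : ∫ x : V, negMulLog (pd μ t x) ≤
      ∫ x : V, (((n / 2 * Real.log (2 * π * t)) * pd μ t x +
      (1 / (2 * t)) * (‖x‖ ^ 2 * pd μ t x)) + (gk t x - pd μ t x)) :=
    integral_mono (integrable_negMulLog_pd (μ := μ) h2 ht) (i2.add (ig.sub ip)) key
  refine h8.trans (le_of_eq ?_)
  have s1 : ∫ x : V, (((n / 2 * Real.log (2 * π * t)) * pd μ t x +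
      (1 / (2 * t)) * (‖x‖ ^ 2 * pd μ t x)) + (gk t x - pd μ t x)) =
      (∫ x : V, ((n / 2 * Real.log (2 * π * t)) * pd μ t x +
      (1 / (2 * t)) * (‖x‖ ^ 2 * pd μ t x))) + ∫ x : V, (gk t x - pd μ t x) :=
    integral_add i2 (ig.sub ip)
  rw [s1, integral_add (ip.const_mul _) (i1.const_mul _), integral_sub ig ip,
    integral_const_mul, integral_const_mul, integral_gk ht, integral_pd h2 ht,
    integral_sq_mul_pd h2 ht]
  field_simp
  ring

/-- lower bound (concavity of the entropy). -/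
theorem le_ent (h2 : Integrable (fun y => ‖y‖ ^ 2) μ) {t : ℝ} (ht : 0 < t) :
    (finrank ℝ V : ℝ) / 2 * Real.log (2 * π * t) + (finrank ℝ V : ℝ) / 2 ≤ ent μ t := by
  have hc := continuous_gk (V := V) t
  have hcl : Continuous (fun z : V => negMulLog (gk t z)) := continuous_negMulLog.comp hc
  -- bound of negMulLog gk
  set n : ℝ := (finrank ℝ V : ℝ) with hn
  have hb : ∀ z : V, |negMulLog (gk t z)| ≤
      (n / 2 * |Real.log (2 * π * t)| + 1 / (2 * t)) * ((1 + ‖z‖ ^ 2) * gk t z) := by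
    intro z
    have g := gk_pos t z
    have h4 : Real.log (gk t z) = -(n / 2) * Real.log (2 * π * t) - ‖z‖ ^ 2 / (2 * t) := by
      unfold gk; rw [Real.log_exp]
    unfold negMulLog
    rw [h4, abs_mul, abs_neg, abs_of_pos g]
    have h5 : |-(n / 2) * Real.log (2 * π * t) - ‖z‖ ^ 2 / (2 * t)| ≤
        n / 2 * |Real.log (2 * π * t)| + ‖z‖ ^ 2 / (2 * t) := by
      refine (abs_sub _ _).trans ?_
      rw [abs_mul, abs_neg, abs_of_nonneg (by positivity : 0 ≤ n / 2),
        abs_of_nonneg (by positivity : 0 ≤ ‖z‖ ^ 2 / (2 * t))]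
    have h6 : n / 2 * |Real.log (2 * π * t)| + ‖z‖ ^ 2 / (2 * t) ≤
        (n / 2 * |Real.log (2 * π * t)| + 1 / (2 * t)) * (1 + ‖z‖ ^ 2) := by
      have e1 : ‖z‖ ^ 2 / (2 * t) = 1 / (2 * t) * ‖z‖ ^ 2 := by ring
      have e2 : 0 ≤ 1 / (2 * t) := by positivity
      have e3 : 0 ≤ n / 2 * |Real.log (2 * π * t)| * ‖z‖ ^ 2 := by positivity
      rw [e1]
      nlinarith
    calc gk t z * |-(n / 2) * Real.log (2 * π * t) - ‖z‖ ^ 2 / (2 * t)|
        ≤ gk t z * ((n / 2 * |Real.log (2 * π * t)| + 1 / (2 * t)) * (1 + ‖z‖ ^ 2)) :=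
          mul_le_mul_of_nonneg_left (h5.trans h6) g.le
      _ = _ := by ring
  have hC0 : 0 ≤ n / 2 * |Real.log (2 * π * t)| + 1 / (2 * t) := by positivity
  have hbb : ∀ z : V, ‖negMulLog (gk t z)‖ ≤
      (n / 2 * |Real.log (2 * π * t)| + 1 / (2 * t)) *
        (cdom (finrank ℝ V) t t * gk (2 * t) (0 : V)) := fun z =>
    (hb z).trans (mul_le_mul_of_nonneg_left (one_add_sq_gk_le ht z) hC0)
  -- pointwise concavity
  have key : ∀ x : V, ∫ y, negMulLog (gk t (x - y)) ∂μ ≤ negMulLog (pd μ t x) := by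
    intro x
    have hp := pd_pos (μ := μ) ht x
    have i1 : Integrable (fun y => negMulLog (gk t (x - y))) μ := integrable_shift μ hcl hbb x
    have i2 : Integrable (fun y => (-Real.log (pd μ t x) - 1) * gk t (x - y) + pd μ t x) μ :=
      ((integrable_gk_shift ht x).const_mul _).add (integrable_const _)
    have h3 : ∀ y, negMulLog (gk t (x - y)) ≤
        (-Real.log (pd μ t x) - 1) * gk t (x - y) + pd μ t x := by
      intro y
      have hg := gk_pos t (x - y)
      have h4 : Real.log (pd μ t x / gk t (x - y)) ≤ pd μ t x / gk t (x - y) - 1 :=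
        Real.log_le_sub_one_of_pos (by positivity)
      rw [Real.log_div hp.ne' hg.ne'] at h4
      have h5 := mul_le_mul_of_nonneg_left h4 hg.le
      have h6 : gk t (x - y) * (pd μ t x / gk t (x - y) - 1) = pd μ t x - gk t (x - y) := by
        field_simp
      rw [h6] at h5
      unfold negMulLog
      nlinarith
    have h7 := integral_mono i1 i2 h3
    refine h7.trans (le_of_eq ?_)
    rw [integral_add ((integrable_gk_shift ht x).const_mul _) (integrable_const _),
      integral_const_mul]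
    simp only [integral_const, probReal_univ, smul_eq_mul, one_mul]
    have h8 : ∫ y, gk t (x - y) ∂μ = pd μ t x := rfl
    rw [h8]
    unfold negMulLog
    ring
  have hint : Integrable (fun p : V × V => negMulLog (gk t (p.1 - p.2))) (volume.prod μ) := by
    refine mix_dom (C := n / 2 * |Real.log (2 * π * t)| + 1 / (2 * t))
      (f := fun x y => negMulLog (gk t (x - y))) h2 ht
      (hcl.comp (continuous_fst.sub continuous_snd)).aestronglyMeasurable ?_
    intro x y
    refine (hb (x - y)).trans ?_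
    have g := (gk_pos t (x - y)).le
    have e0 : 0 ≤ (1 + ‖x - y‖ ^ 2) * gk t (x - y) := by positivity
    refine mul_le_mul_of_nonneg_left ?_ hC0
    nlinarith [mul_nonneg (sq_nonneg ‖x‖) e0]
  have h3 : ∫ x, ∫ y, negMulLog (gk t (x - y)) ∂μ = ∫ z : V, negMulLog (gk t z) := by
    rw [mix_fubini (f := fun x y => negMulLog (gk t (x - y))) hint]
    simp
  have h4 := integral_mono hint.integral_prod_left (integrable_negMulLog_pd (μ := μ) h2 ht) key
  have h5 : ∫ x : V, ∫ y, negMulLog (gk t ((x, y).1 - (x, y).2)) ∂μ =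
      ∫ x, ∫ y, negMulLog (gk t (x - y)) ∂μ := rfl
  rw [h5, h3, (integral_negMulLog_gk ht).2] at h4
  exact h4

end Vale.Agent.P156.H653
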