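import Vale.Agent.P156.H653.WaveIneq
import Mathlib.Topology.Algebra.Module.FiniteDimension

/-!
# The functional equation of the equality case
-/

open MeasureTheory Real Module Filter
open Vale.Agent.P156.H849
open scoped RealInnerProductSpace ENNReal Topology

set_option linter.unusedSectionVars false

noncomputable section

namespace Vale.Agent.P156.H653

variable {q k : ℕ}

/-- Reconstruction of the leaves from the simplex coordinates. -/
lemma snd_eq_sum (hq : 1 ≤ q) (x : VS q k) (i : Fin q) :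
    x.snd i = ((q : ℝ) / ((q : ℝ) + 1)) • ∑ l, simplex q l i • pil l x := by
  have hq0 : (q : ℝ) ≠ 0 := by positivity
  have hq1 : (q : ℝ) + 1 ≠ 0 := by positivity
  unfold pil
  simp_rw [Finset.smul_sum, smul_smul]
  rw [Finset.sum_comm]
  simp_rw [← Finset.sum_smul]
  have e : ∀ j : Fin q, ∑ l, (q : ℝ) / ((q : ℝ) + 1) * (simplex q l i * simplex q l j) =
      if i = j then 1 else 0 := by
    intro j
    rw [← Finset.mul_sum, simplex_frame q hq]
    split_ifs
    · field_simp
    · simp
  simp_rw [e, ite_smul, one_smul, zero_smul]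
  simp

/-- Any family `y` with zero sum is a family of simplex coordinates. -/
lemma exists_pil (hq : 1 ≤ q) (a : Ek k) (y : Fin (q + 1) → Ek k) (hy : ∑ l, y l = 0) :
    ∃ x : VS q k, x.fst = a ∧ ∀ l, pil l x = y l := by
  have hq0 : (q : ℝ) ≠ 0 := by positivity
  have hq1 : (q : ℝ) + 1 ≠ 0 := by positivity
  refine ⟨WithLp.toLp 2 (a, WithLp.toLp 2 fun i =>
    ((q : ℝ) / ((q : ℝ) + 1)) • ∑ l, simplex q l i • y l), rfl, fun m => ?_⟩
  have e0 : pil m (WithLp.toLp 2 (a, WithLp.toLp 2 fun i =>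
    ((q : ℝ) / ((q : ℝ) + 1)) • ∑ l, simplex q l i • y l) : VS q k) =
      ∑ i, simplex q m i • (((q : ℝ) / ((q : ℝ) + 1)) • ∑ l, simplex q l i • y l) := rfl
  rw [e0]
  simp_rw [Finset.smul_sum, smul_smul]
  rw [Finset.sum_comm]
  simp_rw [← Finset.sum_smul]
  have e : ∀ l : Fin (q + 1), ∑ i, simplex q m i * ((q : ℝ) / ((q : ℝ) + 1) * simplex q l i) =
      (if m = l then 1 else 0) - 1 / ((q : ℝ) + 1) := by
    intro l
    have : ∀ i, simplex q m i * ((q : ℝ) / ((q : ℝ) + 1) * simplex q l i) =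
        ((q : ℝ) / ((q : ℝ) + 1)) * (simplex q m i * simplex q l i) := fun i => by ring
    simp_rw [this]
    rw [← Finset.mul_sum, simplex_gram q hq]
    split_ifs
    · field_simp; ring
    · field_simp; ring
  simp_rw [e, sub_smul, Finset.sum_sub_distrib, ← Finset.smul_sum, hy]
  simp

/-- **The functional equation.** -/
theorem linear_of_score_eq (hq : 2 ≤ q) {c s : ℝ} (hc : c ≠ 1) (hs : s ≠ 0)
    (S : VS q k → VS q k) (S' : VE k → VE k) (hcont : Continuous S')
    (hl : ∀ l x, Pl q k l (S x) = S' (Pl q k l x))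
    (hsw : ∀ v, S' (swp k c s v) = swp k c s (S' v)) :
    ∃ C : Ek k →L[ℝ] Ek k, ∀ x : VS q k, (S x).fst = C x.fst ∧ ∀ i, (S x).snd i = C (x.snd i) := by
  obtain ⟨n, rfl⟩ : ∃ n, q = n + 2 := ⟨q - 2, by omega⟩
  have hq1 : 1 ≤ n + 2 := by omega
  set f : Ek k → Ek k → Ek k := fun a b => (S' (WithLp.toLp 2 (a, b))).fst with hf
  set g : Ek k → Ek k → Ek k := fun a b => (S' (WithLp.toLp 2 (a, b))).snd with hg
  -- basic relations
  have hPl : ∀ (l : Fin (n + 2 + 1)) (x : VS (n + 2) k),
      Pl (n + 2) k l x = WithLp.toLp 2 (x.fst, pil l x) := fun l x => rfl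
  have hfst : ∀ l (x : VS (n + 2) k), (S x).fst = f x.fst (pil l x) := by
    intro l x
    have := congrArg WithLp.fst (hl l x)
    rw [Pl_fst, hPl] at this
    exact this
  have hsnd : ∀ l (x : VS (n + 2) k), pil l (S x) = g x.fst (pil l x) := by
    intro l x
    have := congrArg WithLp.snd (hl l x)
    rw [Pl_snd, hPl] at this
    exact this
  -- step 2
  have hf0 : ∀ a b, f a b = f a 0 := by
    intro a b
    obtain ⟨x, hx1, hx2⟩ := exists_pil hq1 a
      (Fin.cons b (Fin.cons (-b) (Fin.cons 0 (fun _ : Fin n => (0 : Ek k)))) :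
        Fin (n + 2 + 1) → Ek k) (by simp [Fin.sum_univ_succ])
    have e0 := hfst 0 x
    have e2 := hfst 2 x
    rw [hx1, hx2] at e0 e2
    have h2 : (Fin.cons b (Fin.cons (-b) (Fin.cons 0 (fun _ : Fin n => (0 : Ek k)))) :
        Fin (n + 2 + 1) → Ek k) 2 = 0 := by
      have : (2 : Fin (n + 2 + 1)) = Fin.succ (Fin.succ 0) := rfl
      rw [this, Fin.cons_succ, Fin.cons_succ, Fin.cons_zero]
    have h0 : (Fin.cons b (Fin.cons (-b) (Fin.cons 0 (fun _ : Fin n => (0 : Ek k)))) :
        Fin (n + 2 + 1) → Ek k) 0 = b := Fin.cons_zero _ _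
    rw [h0] at e0
    rw [h2] at e2
    rw [← e0, ← e2]
  -- step 3
  have hg3 : ∀ a b b', g a b + (g a b' + (g a (-(b + b')) + n • g a 0)) = 0 := by
    intro a b b'
    obtain ⟨x, hx1, hx2⟩ := exists_pil hq1 a
      (Fin.cons b (Fin.cons b' (Fin.cons (-(b + b')) (fun _ : Fin n => (0 : Ek k)))) :
        Fin (n + 2 + 1) → Ek k) (by simp [Fin.sum_univ_succ])
    have e0 := sum_pil hq1 (S x)
    simp_rw [hsnd, hx1, hx2] at e0
    rw [Fin.sum_univ_succ, Fin.sum_univ_succ, Fin.sum_univ_succ] at e0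
    simp only [Fin.cons_zero, Fin.cons_succ, Finset.sum_const, Finset.card_univ,
      Fintype.card_fin] at e0
    exact e0
  have hg0 : ∀ a, g a 0 = 0 := by
    intro a
    have h := hg3 a 0 0
    simp only [add_zero, neg_zero] at h
    have h1 : ((n : ℝ) + 3) • g a 0 = 0 := by
      calc ((n : ℝ) + 3) • g a 0 = g a 0 + (g a 0 + (g a 0 + (n : ℝ) • g a 0)) := by module
        _ = 0 := by rw [Nat.cast_smul_eq_nsmul ℝ]; exact h
    rcases smul_eq_zero.1 h1 with h2 | h2
    · exact absurd h2 (by positivity)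
    · exact h2
  have hgn : ∀ a b, g a (-b) = - g a b := by
    intro a b
    have h := hg3 a b 0
    rw [hg0] at h
    simp only [smul_zero, add_zero, zero_add] at h
    exact (neg_eq_of_add_eq_zero_right h).symm
  have hgadd : ∀ a b b', g a (b + b') = g a b + g a b' := by
    intro a b b'
    have h := hg3 a b b'
    rw [hg0, hgn] at h
    simp only [smul_zero, add_zero] at h
    rw [← add_assoc] at h
    exact (add_neg_eq_zero.1 h).symm
  -- step 4
  have hsw1 : ∀ a b, f (c • a + s • b) 0 = c • f a 0 + s • g a b := by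
    intro a b
    have h := congrArg WithLp.fst (hsw (WithLp.toLp 2 (a, b)))
    rw [swp_fst] at h
    have e1 : swp k c s (WithLp.toLp 2 (a, b)) =
        WithLp.toLp 2 (c • a + s • b, s • a - c • b) := rfl
    rw [e1] at h
    have h' : f (c • a + s • b) (s • a - c • b) = c • f a b + s • g a b := h
    rw [hf0, hf0 a b] at h'
    exact h'
  have hf00 : f 0 0 = 0 := by
    have h := hsw1 0 0
    rw [hg0] at h
    simp only [smul_zero, add_zero] at h
    have h1 : (1 - c) • f 0 0 = 0 := by
      rw [sub_smul, one_smul, sub_eq_zero]; exact h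
    rcases smul_eq_zero.1 h1 with h2 | h2
    · exact absurd (by linarith : c = 1) hc
    · exact h2
  have hcg : Continuous (g 0) := by
    have h1 : Continuous fun b : Ek k => (WithLp.toLp 2 ((0 : Ek k), b) : VE k) := by
      fun_prop
    have h2 : Continuous fun v : VE k => v.snd := by fun_prop
    exact h2.comp (hcont.comp h1)
  let gh : Ek k →+ Ek k := AddMonoidHom.mk' (g 0) (hgadd 0)
  let C : Ek k →L[ℝ] Ek k := gh.toRealLinearMap hcg
  have hC : ∀ b, C b = g 0 b := fun b => rfl
  have hfC : ∀ z, f z 0 = C z := by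
    intro z
    have h := hsw1 0 (s⁻¹ • z)
    rw [hf00] at h
    simp only [smul_zero, zero_add] at h
    rw [smul_smul, mul_inv_cancel₀ hs, one_smul] at h
    rw [h, ← hC, ← map_smul, smul_smul, mul_inv_cancel₀ hs, one_smul]
  have hgC : ∀ a b, g a b = C b := by
    intro a b
    have h := hsw1 a b
    rw [hfC, hfC, map_add, map_smul, map_smul] at h
    have h1 : s • C b = s • g a b := add_left_cancel h
    exact (smul_right_injective _ hs h1).symm
  refine ⟨C, fun x => ⟨?_, fun i => ?_⟩⟩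
  · rw [hfst 0 x, hf0, hfC]
  · rw [snd_eq_sum hq1 (S x) i, snd_eq_sum hq1 x i]
    simp_rw [hsnd, hgC]
    rw [map_smul, map_sum]
    simp_rw [map_smul]

end Vale.Agent.P156.H653
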