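import Vale.Agent.P156.H653.Equality
import Vale.Agent.P156.H653.Fourier
import Mathlib.Analysis.InnerProductSpace.Spectrum

/-!
# Identification of the Gaussian law in isotropic coordinates
-/

open MeasureTheory Real Module Filter ProbabilityTheory
open Vale.Agent.P156.H849
open scoped RealInnerProductSpace ENNReal Topology

set_option linter.unusedSectionVars false

noncomputable section

namespace Vale.Agent.P156.H653

variable {q k : ℕ}

/-- `A` applied to every isotropic coordinate. -/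
def dg (q : ℕ) {k : ℕ} (A : Ek k →L[ℝ] Ek k) : VS q k →L[ℝ] VS q k :=
  LinearMap.toContinuousLinearMap
    { toFun := fun x => WithLp.toLp 2 (A x.fst, WithLp.toLp 2 fun i => A (x.snd i))
      map_add' := fun x y => VS_ext (by
        show A (x + y).fst = A x.fst + A y.fst
        rw [WithLp.add_fst, map_add]) fun i => by
        show A ((x + y).snd i) = A (x.snd i) + A (y.snd i)
        rw [WithLp.add_snd, PiLp.add_apply, map_add]
      map_smul' := fun a x => VS_ext (by
        show A (a • x).fst = a • A x.fst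
        rw [WithLp.smul_fst, map_smul]) fun i => by
        show A ((a • x).snd i) = a • A (x.snd i)
        rw [WithLp.smul_snd, PiLp.smul_apply, map_smul] }

@[simp] lemma dg_fst (A : Ek k →L[ℝ] Ek k) (x : VS q k) : (dg q A x).fst = A x.fst := rfl

@[simp] lemma dg_snd (A : Ek k →L[ℝ] Ek k) (x : VS q k) (i : Fin q) :
    (dg q A x).snd i = A (x.snd i) := rfl

lemma dg_adjoint (A : Ek k →L[ℝ] Ek k) : (dg q A).adjoint = dg q A.adjoint := by
  symm
  rw [ContinuousLinearMap.eq_adjoint_iff]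
  intro x y
  rw [inner_VS, inner_VS]
  simp only [dg_fst, dg_snd, ContinuousLinearMap.adjoint_inner_left]

/-- Square root of a nonnegative quadratic form. -/
lemma exists_sqrt_quad {E : Type*} [NormedAddCommGroup E] [InnerProductSpace ℝ E]
    [FiniteDimensional ℝ E] (T : E →ₗ[ℝ] E) (hT : T.IsSymmetric) (hpos : ∀ u, 0 ≤ ⟪T u, u⟫) :
    ∃ A : E →L[ℝ] E, ∀ u, ‖A u‖ ^ 2 = ⟪T u, u⟫ := by
  set b := hT.eigenvectorBasis rfl with hb
  set ev := hT.eigenvalues rfl with hev
  have hTb : ∀ i, T (b i) = ev i • b i := fun i => by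
    rw [hb, hT.apply_eigenvectorBasis]; rfl
  have hev0 : ∀ i, 0 ≤ ev i := by
    intro i
    have h := hpos (b i)
    rw [hTb, real_inner_smul_left, real_inner_self_eq_norm_sq, b.norm_eq_one] at h
    simpa using h
  refine ⟨∑ i, (Real.sqrt (ev i)) • (innerSL ℝ (b i)).smulRight (b i), fun u => ?_⟩
  have h1 : (∑ i, (Real.sqrt (ev i)) • (innerSL ℝ (b i)).smulRight (b i)) u =
      ∑ i, (Real.sqrt (ev i) * ⟪b i, u⟫) • b i := by
    rw [sum_apply]
    congr 1
    funext i
    simp [smul_smul]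
  have h2 : ∀ j, ⟪b j, ∑ i, (Real.sqrt (ev i) * ⟪b i, u⟫) • b i⟫ = Real.sqrt (ev j) * ⟪b j, u⟫ := by
    intro j
    rw [inner_sum]
    simp_rw [real_inner_smul_right, OrthonormalBasis.inner_eq_ite]
    simp
  rw [h1, ← b.sum_sq_inner_right]
  simp_rw [h2]
  rw [← b.sum_inner_mul_inner (T u) u]
  congr 1
  funext i
  rw [hT u (b i), hTb, real_inner_smul_right, mul_pow, Real.sq_sqrt (hev0 i),
    real_inner_comm u (b i)]
  ring

/-- **Identification.** -/
theorem exists_dg {μ : Measure (VS q k)} [IsProbabilityMeasure μ]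
    (h2 : Integrable (fun y => ‖y‖ ^ 2) μ) {t : ℝ} (ht : 0 < t) (C : Ek k →L[ℝ] Ek k)
    (hC : ∀ x : VS q k, (sc μ t x).fst = C x.fst ∧ ∀ i, (sc μ t x).snd i = C (x.snd i)) :
    ∃ A : Ek k →L[ℝ] Ek k, μ = (stdGaussian (VS q k)).map (dg q A) := by
  have hT : ∀ x, sc μ t x = dg q C x := fun x => VS_ext (hC x).1 (hC x).2
  -- the adjoint of `C` is injective
  have hinj : Function.Injective (C.adjoint : Ek k →ₗ[ℝ] Ek k) := by
    rw [← LinearMap.ker_eq_bot, LinearMap.ker_eq_bot']
    intro u hu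
    have hu' : C.adjoint u = 0 := hu
    have h := adjoint_score_injective (μ := μ) h2 ht (dg q C) hT
      (w := WithLp.toLp 2 (u, WithLp.toLp 2 fun _ => 0)) (by
        rw [dg_adjoint]
        refine VS_ext ?_ fun i => ?_
        · show C.adjoint u = 0
          exact hu'
        · show C.adjoint 0 = 0
          exact map_zero _)
    have := congrArg WithLp.fst h
    exact this
  set Ke := LinearEquiv.ofInjectiveEndo (C.adjoint : Ek k →ₗ[ℝ] Ek k) hinj with hKe
  set K : Ek k →L[ℝ] Ek k := LinearMap.toContinuousLinearMap (Ke.symm : Ek k →ₗ[ℝ] Ek k) with hK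
  have hCK : ∀ u, C.adjoint (K u) = u := by
    intro u
    have : Ke (Ke.symm u) = u := Ke.apply_symm_apply u
    exact this
  have hw : ∀ ξ : VS q k, (dg q C).adjoint (dg q K ξ) = ξ := by
    intro ξ
    rw [dg_adjoint]
    exact VS_ext (hCK _) fun i => hCK _
  set Q : Ek k → ℝ := fun u => -(⟪K u, u⟫ + t * ‖u‖ ^ 2) with hQ
  have hchar : ∀ ξ : VS q k, charFun μ ξ =
      Complex.exp (((-(Q ξ.fst + ∑ i, Q (ξ.snd i)) / 2 : ℝ) : ℂ)) := by
    intro ξ
    rw [charFun_of_linear_score h2 ht (dg q C) hT (hw ξ)]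
    congr 2
    rw [inner_VS, norm_VS, hQ]
    simp only [dg_fst, dg_snd, Finset.sum_neg_distrib, Finset.sum_add_distrib]
    rw [mul_add, Finset.mul_sum]
    ring
  have hQ0 : Q 0 = 0 := by simp [hQ]
  have hQpos : ∀ u, 0 ≤ Q u := by
    intro u
    have h := norm_charFun_le_one (μ := μ) (t := WithLp.toLp 2 (u, WithLp.toLp 2 fun _ => 0))
    rw [hchar, Complex.norm_exp, Complex.ofReal_re, Real.exp_le_one_iff] at h
    have e : Q (WithLp.toLp 2 (u, WithLp.toLp 2 fun _ => (0 : Ek k)) : VS q k).fst +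
        ∑ i, Q ((WithLp.toLp 2 (u, WithLp.toLp 2 fun _ => (0 : Ek k)) : VS q k).snd i) = Q u := by
      have e1 : ∀ i, Q ((WithLp.toLp 2 (u, WithLp.toLp 2 fun _ => (0 : Ek k)) :
          VS q k).snd i) = 0 := fun i => hQ0
      simp_rw [e1]
      simp
    rw [e] at h
    linarith
  -- symmetrize
  set T : Ek k →L[ℝ] Ek k := (-(1 / 2 : ℝ)) • (K + K.adjoint) - t • ContinuousLinearMap.id ℝ _
    with hTdef
  have hTq : ∀ u, ⟪T u, u⟫ = Q u := by
    intro u
    rw [hTdef, hQ]
    simp only [sub_apply, smul_apply, add_apply, ContinuousLinearMap.id_apply, inner_sub_left,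
      real_inner_smul_left, inner_add_left, ContinuousLinearMap.adjoint_inner_left,
      real_inner_self_eq_norm_sq]
    rw [real_inner_comm u (K u)]
    ring
  have hTs : (T : Ek k →ₗ[ℝ] Ek k).IsSymmetric := by
    intro u v
    rw [hTdef]
    simp only [ContinuousLinearMap.coe_coe, sub_apply, smul_apply, add_apply,
      ContinuousLinearMap.id_apply, inner_sub_left, inner_sub_right,
      real_inner_smul_left, real_inner_smul_right, inner_add_left, inner_add_right,
      ContinuousLinearMap.adjoint_inner_left, ContinuousLinearMap.adjoint_inner_right]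
    ring
  obtain ⟨A, hA⟩ := exists_sqrt_quad (T : Ek k →ₗ[ℝ] Ek k) hTs (fun u => by
    have : ⟪(T : Ek k →ₗ[ℝ] Ek k) u, u⟫ = Q u := hTq u
    rw [this]; exact hQpos u)
  have hA' : ∀ u, ‖A u‖ ^ 2 = Q u := fun u => (hA u).trans (hTq u)
  refine ⟨A.adjoint, ?_⟩
  have : IsProbabilityMeasure ((stdGaussian (VS q k)).map (dg q A.adjoint)) :=
    Measure.isProbabilityMeasure_map (dg q A.adjoint).measurable.aemeasurable
  apply Measure.ext_of_charFun
  ext ξ
  rw [hchar, charFun_apply, integral_map (dg q A.adjoint).measurable.aemeasurable (by fun_prop)]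
  have e1 : ∀ x : VS q k, ⟪dg q A.adjoint x, ξ⟫ = ⟪x, dg q A ξ⟫ := by
    intro x
    rw [← ContinuousLinearMap.adjoint_inner_right, dg_adjoint, ContinuousLinearMap.adjoint_adjoint]
  simp_rw [e1]
  rw [← charFun_apply, charFun_stdGaussian]
  congr 1
  have e2 : ‖dg q A ξ‖ ^ 2 = Q ξ.fst + ∑ i, Q (ξ.snd i) := by
    rw [norm_VS]
    simp only [dg_fst, dg_snd, hA']
  have e3 : ((‖dg q A ξ‖ : ℂ)) ^ 2 = ((‖dg q A ξ‖ ^ 2 : ℝ) : ℂ) := by push_cast; ring
  rw [e3, e2]
  push_cast
  ring

end Vale.Agent.P156.H653
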