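import Vale.Agent.P156.H653.Defs
import Mathlib.Analysis.InnerProductSpace.ProdL2

/-!
# Isotropic coordinates of the star space

`VS q k = WithLp 2 (E × PiLp 2 (Fin q → E))`, `E = Ek k`, is the isotropic space, `VE k =
WithLp 2 (E × E)` the isotropic edge space.  `simplex q l i` are the coordinates of the `q+1` unit
simplex vectors of `ℝ^q`; `pil l x = ∑ i, simplex q l i • x_i`; `isoStar x = (x_0 ; c x_0 + σ pil l
x)`.
-/

open MeasureTheory ProbabilityTheory
open Vale.Agent.P156.H849

noncomputable section

namespace Vale.Agent.P156.H653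

/-- isotropic star space -/
abbrev VS (q k : ℕ) : Type := WithLp 2 (Ek k × PiLp 2 (fun _ : Fin q => Ek k))

/-- isotropic edge space -/
abbrev VE (k : ℕ) : Type := WithLp 2 (Ek k × Ek k)

/-- `√((q+1)/q)` -/
def al (q : ℕ) : ℝ := Real.sqrt (((q : ℝ) + 1) / q)

/-- `(1/√q - α)/q` -/
def be (q : ℕ) : ℝ := (1 / Real.sqrt q - al q) / q

/-- The `q+1` unit simplex vectors of `ℝ^q`. -/
def simplex (q : ℕ) : Fin (q + 1) → Fin q → ℝ :=
  Fin.lastCases (fun _ => -(1 / Real.sqrt q)) (fun j i => (if i = j then al q else 0) + be q)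

@[simp] lemma simplex_last (q : ℕ) (i : Fin q) :
    simplex q (Fin.last q) i = -(1 / Real.sqrt q) := by
  simp [simplex]

@[simp] lemma simplex_castSucc (q : ℕ) (j i : Fin q) :
    simplex q j.castSucc i = (if i = j then al q else 0) + be q := by
  simp [simplex]

lemma al_add (q : ℕ) (hq : 1 ≤ q) : al q + q * be q = 1 / Real.sqrt q := by
  unfold be
  have : (q : ℝ) ≠ 0 := by positivity
  field_simp
  ring

lemma al_sq (q : ℕ) : al q ^ 2 = ((q : ℝ) + 1) / q := by
  unfold al
  exact Real.sq_sqrt (by positivity)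

lemma be_rel (q : ℕ) (hq : 1 ≤ q) : 2 * al q * be q + q * be q ^ 2 = -(1 / q) := by
  have hq0 : (q : ℝ) ≠ 0 := by positivity
  have h1 := al_add q hq
  have h2 := al_sq q
  have h3 : (1 / Real.sqrt q) ^ 2 = 1 / q := by
    rw [div_pow, one_pow, Real.sq_sqrt (by positivity)]
  have h4 : (al q + q * be q) ^ 2 = 1 / q := by rw [h1, h3]
  have h5 : q * (2 * al q * be q + q * be q ^ 2) = (al q + q * be q) ^ 2 - al q ^ 2 := by ring
  rw [h4, h2] at h5
  have h6 : (1 : ℝ) / q - (q + 1) / q = q * (-(1 / q)) := by field_simp; ring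
  rw [h6] at h5
  exact mul_left_cancel₀ hq0 h5

/-- The simplex vectors sum to zero. -/
lemma simplex_sum (q : ℕ) (hq : 1 ≤ q) (i : Fin q) : ∑ l, simplex q l i = 0 := by
  rw [Fin.sum_univ_castSucc]
  simp only [simplex_castSucc, simplex_last, Finset.sum_add_distrib, Finset.sum_ite_eq,
    Finset.mem_univ, if_true, Finset.sum_const, Finset.card_univ, Fintype.card_fin, nsmul_eq_mul]
  rw [al_add q hq]
  ring

/-- They are unit vectors, with mutual inner products `-1/q`. -/
lemma simplex_gram (q : ℕ) (hq : 1 ≤ q) (l m : Fin (q + 1)) :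
    ∑ i, simplex q l i * simplex q m i = if l = m then 1 else -(1 / (q : ℝ)) := by
  have hq0 : (q : ℝ) ≠ 0 := by positivity
  have h3 : (1 / Real.sqrt q) * (1 / Real.sqrt q) = 1 / q := by
    rw [← sq, div_pow, one_pow, Real.sq_sqrt (by positivity)]
  have h2 := al_sq q
  have h4 := be_rel q hq
  have h1 := al_add q hq
  have key : ∀ j j' : Fin q, ∑ i, simplex q j.castSucc i * simplex q j'.castSucc i =
      if j = j' then 1 else -(1 / (q : ℝ)) := by
    intro j j'
    simp only [simplex_castSucc]
    have e : ∀ i : Fin q, ((if i = j then al q else 0) + be q) *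
        ((if i = j' then al q else 0) + be q) =
        (if i = j then (if i = j' then al q * al q else 0) else 0) +
        (if i = j then al q * be q else 0) + (if i = j' then al q * be q else 0) + be q ^ 2 := by
      intro i; split_ifs <;> ring
    simp_rw [e, Finset.sum_add_distrib, Finset.sum_ite_eq']
    simp only [Finset.mem_univ, if_true, Finset.sum_const, Finset.card_univ, Fintype.card_fin,
      nsmul_eq_mul]
    split_ifs with h
    · have : (1 : ℝ) = ((q : ℝ) + 1) / q + -(1 / q) := by field_simp; ring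
      rw [this, ← h2, ← h4]; ring
    · rw [← h4]; ring
  have key2 : ∀ j : Fin q, ∑ i, simplex q j.castSucc i * simplex q (Fin.last q) i =
      -(1 / (q : ℝ)) := by
    intro j
    simp only [simplex_castSucc, simplex_last]
    rw [← Finset.sum_mul, Finset.sum_add_distrib, Finset.sum_ite_eq']
    simp only [Finset.mem_univ, if_true, Finset.sum_const, Finset.card_univ, Fintype.card_fin,
      nsmul_eq_mul]
    rw [h1, mul_neg, h3]
  have key3 : ∑ i, simplex q (Fin.last q) i * simplex q (Fin.last q) i = 1 := by
    simp only [simplex_last, neg_mul_neg]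
    rw [h3, Finset.sum_const, Finset.card_univ, Fintype.card_fin, nsmul_eq_mul]
    field_simp
  induction l using Fin.lastCases with
  | last =>
    induction m using Fin.lastCases with
    | last => simpa using key3
    | cast m =>
      rw [if_neg (Fin.castSucc_lt_last m).ne', ← key2 m]
      exact Finset.sum_congr rfl fun i _ => mul_comm _ _
  | cast l =>
    induction m using Fin.lastCases with
    | last => rw [if_neg (Fin.castSucc_lt_last l).ne, key2 l]
    | cast m =>
      rw [key l m]
      simp [Fin.castSucc_inj]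

/-- Tight frame. -/
lemma simplex_frame (q : ℕ) (hq : 1 ≤ q) (i i' : Fin q) :
    ∑ l, simplex q l i * simplex q l i' = if i = i' then ((q : ℝ) + 1) / q else 0 := by
  have hq0 : (q : ℝ) ≠ 0 := by positivity
  have h3 : (1 / Real.sqrt q) * (1 / Real.sqrt q) = 1 / q := by
    rw [← sq, div_pow, one_pow, Real.sq_sqrt (by positivity)]
  have h2 := al_sq q
  have h4 := be_rel q hq
  rw [Fin.sum_univ_castSucc]
  simp only [simplex_castSucc, simplex_last, neg_mul_neg, h3]
  have e : ∀ j : Fin q, ((if i = j then al q else 0) + be q) *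
      ((if i' = j then al q else 0) + be q) =
      (if i = j then (if i' = j then al q * al q else 0) else 0) +
      (if i = j then al q * be q else 0) + (if i' = j then al q * be q else 0) + be q ^ 2 := by
    intro j; split_ifs <;> ring
  simp_rw [e, Finset.sum_add_distrib, Finset.sum_ite_eq]
  simp only [Finset.mem_univ, if_true, Finset.sum_const, Finset.card_univ, Fintype.card_fin,
    nsmul_eq_mul]
  have h5 : al q * be q + al q * be q + q * be q ^ 2 = -(1 / q) := by rw [← h4]; ring
  by_cases h : i = i'
  · subst h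
    simp only [if_true]
    rw [← h2]
    linarith [h5, sq (al q)]
  · rw [if_neg h, if_neg (fun h' => h h'.symm)]
    linarith

/-- `π_l x = ∑ i, simplex q l i • x_i`. -/
def pil {q k : ℕ} (l : Fin (q + 1)) (x : VS q k) : Ek k := ∑ i, simplex q l i • x.snd i

/-- isotropic coordinates to star configurations -/
def isoStar (q k : ℕ) (lam : ℝ) (x : VS q k) : StarSp (q + 1) k :=
  (x.fst, fun l => cc q lam • x.fst + sg q lam • pil l x)

/-- its left inverse -/
def isoInv (q k : ℕ) (lam : ℝ) (s : StarSp (q + 1) k) : VS q k :=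
  WithLp.toLp 2 (s.1, WithLp.toLp 2 fun i =>
    ((q : ℝ) / ((q : ℝ) + 1)) • ∑ l, simplex q l i • ((sg q lam)⁻¹ • (s.2 l - cc q lam • s.1)))

/-- isotropic edge coordinates to edge configurations -/
def isoEdge (q k : ℕ) (lam : ℝ) (x : VE k) : Ek k × Ek k :=
  (x.fst, cc q lam • x.fst + sg q lam • x.snd)

/-- the volume factor of `redStar ∘ isoStar` -/
def detS (q k : ℕ) (lam : ℝ) : ℝ := (sg q lam ^ q * al q ^ (q - 1) / Real.sqrt q) ^ k

end Vale.Agent.P156.H653
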