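import Mathlib.Analysis.SpecialFunctions.Gaussian.FourierTransform
import Mathlib.Analysis.Calculus.LineDeriv.IntegrationByParts
import Mathlib.Analysis.Calculus.ParametricIntegral
import Mathlib.Analysis.InnerProductSpace.Calculus
import Mathlib.MeasureTheory.Measure.CharacteristicFunction.Basic
import Mathlib.Analysis.SpecialFunctions.Log.NegMulLog
import Mathlib.Probability.Distributions.Gaussian.Multivariate

/-!
# The Gaussian kernel of variance `t` on a Euclidean space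
-/

open MeasureTheory Real Module
open scoped RealInnerProductSpace ENNReal Topology

noncomputable section

namespace Vale.Agent.P156.H653

variable {V : Type*} [NormedAddCommGroup V] [InnerProductSpace ℝ V] [FiniteDimensional ℝ V]
  [MeasurableSpace V] [BorelSpace V]

/-- The Gaussian kernel of variance `t`. -/
def gk (t : ℝ) (x : V) : ℝ :=
  Real.exp (-((finrank ℝ V : ℝ) / 2) * Real.log (2 * π * t) - ‖x‖ ^ 2 / (2 * t))

omit [FiniteDimensional ℝ V] [MeasurableSpace V] [BorelSpace V] in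
lemma gk_pos (t : ℝ) (x : V) : 0 < gk t x := Real.exp_pos _

omit [FiniteDimensional ℝ V] [MeasurableSpace V] [BorelSpace V] in
lemma continuous_gk (t : ℝ) : Continuous (gk t : V → ℝ) := by
  unfold gk; fun_prop

omit [FiniteDimensional ℝ V] [MeasurableSpace V] [BorelSpace V] in
lemma gk_le_zero {t : ℝ} (ht : 0 < t) (x : V) : gk t x ≤ gk t (0 : V) := by
  unfold gk
  apply Real.exp_le_exp.2
  have : 0 ≤ ‖x‖ ^ 2 / (2 * t) := by positivity
  simp only [norm_zero, ne_eq, OfNat.ofNat_ne_zero, not_false_eq_true, zero_pow, zero_div, sub_zero]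
  linarith

omit [FiniteDimensional ℝ V] [MeasurableSpace V] [BorelSpace V] in
lemma gk_eq (t : ℝ) (x : V) :
    gk t x = Real.exp (-((finrank ℝ V : ℝ) / 2) * Real.log (2 * π * t)) *
      Real.exp (-(1 / (2 * t)) * ‖x‖ ^ 2) := by
  unfold gk
  rw [← Real.exp_add]
  congr 1
  ring

lemma integral_gk {t : ℝ} (ht : 0 < t) : ∫ x : V, gk t x = 1 := by
  have h : (0 : ℝ) < 1 / (2 * t) := by positivity
  simp_rw [gk_eq]
  rw [integral_const_mul, GaussianFourier.integral_rexp_neg_mul_sq_norm h,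
    Real.rpow_def_of_pos (by positivity), ← Real.exp_add]
  rw [Real.exp_eq_one_iff]
  have : π / (1 / (2 * t)) = 2 * π * t := by field_simp
  rw [this]
  ring

lemma integrable_gk {t : ℝ} (ht : 0 < t) : Integrable (gk t : V → ℝ) := by
  by_contra h
  have := integral_gk (V := V) ht
  rw [integral_undef h] at this
  exact zero_ne_one this

/-- Domination constant. -/
def cdom (n : ℕ) (a b : ℝ) : ℝ :=
  (1 + 4 * b) * Real.exp (((n : ℝ) / 2) * (Real.log (2 * π * (2 * b)) - Real.log (2 * π * a)))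

lemma cdom_pos (n : ℕ) (a b : ℝ) (hb : 0 < b) : 0 < cdom n a b := by
  unfold cdom; positivity

omit [FiniteDimensional ℝ V] [MeasurableSpace V] [BorelSpace V] in
lemma gk_dom {a b t : ℝ} (ha : 0 < a) (hat : a ≤ t) (htb : t ≤ b) (z : V) :
    (1 + ‖z‖ ^ 2) * gk t z ≤ cdom (finrank ℝ V) a b * gk (2 * b) z := by
  have ht : 0 < t := ha.trans_le hat
  have hb : 0 < b := ht.trans_le htb
  unfold cdom gk
  set n : ℝ := (finrank ℝ V : ℝ)
  set r : ℝ := ‖z‖ ^ 2 with hr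
  have hr0 : 0 ≤ r := by positivity
  have h1 : 1 + r ≤ (1 + 4 * b) * Real.exp (r / (4 * b)) := by
    have h2 : r / (4 * b) + 1 ≤ Real.exp (r / (4 * b)) := Real.add_one_le_exp _
    have h3 : (1 + 4 * b) * (r / (4 * b) + 1) ≤ (1 + 4 * b) * Real.exp (r / (4 * b)) := by
      apply mul_le_mul_of_nonneg_left h2; positivity
    have h4 : (1 + 4 * b) * (r / (4 * b) + 1) = 1 + r + (r / (4 * b) + 4 * b) := by
      field_simp; ring
    have h5 : 0 ≤ r / (4 * b) := by positivity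
    linarith
  have hlog : Real.log (2 * π * a) ≤ Real.log (2 * π * t) :=
    Real.log_le_log (by positivity) (by gcongr)
  have hn : 0 ≤ n := by positivity
  have h6 : Real.exp (-(n / 2) * Real.log (2 * π * t) - r / (2 * t)) ≤
      Real.exp (-(n / 2) * Real.log (2 * π * a) - r / (2 * b)) := by
    apply Real.exp_le_exp.2
    have : r / (2 * b) ≤ r / (2 * t) := by gcongr
    nlinarith
  calc (1 + r) * Real.exp (-(n / 2) * Real.log (2 * π * t) - r / (2 * t))
      ≤ ((1 + 4 * b) * Real.exp (r / (4 * b))) *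
        Real.exp (-(n / 2) * Real.log (2 * π * a) - r / (2 * b)) := by
        apply mul_le_mul h1 h6 (Real.exp_pos _).le (by positivity)
    _ = _ := by
        rw [mul_assoc (1 + 4 * b), mul_assoc (1 + 4 * b), ← Real.exp_add, ← Real.exp_add]
        congr 2
        have e1 : r / (2 * (2 * b)) = r / (4 * b) := by ring_nf
        have e2 : r / (2 * b) = r / (4 * b) + r / (4 * b) := by field_simp; ring
        rw [e1, e2]
        ring

omit [FiniteDimensional ℝ V] [MeasurableSpace V] [BorelSpace V] in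
lemma gk_dom' {a b t : ℝ} (ha : 0 < a) (hat : a ≤ t) (htb : t ≤ b) (z : V) :
    gk t z ≤ cdom (finrank ℝ V) a b * gk (2 * b) z := by
  have := gk_dom ha hat htb z
  have h1 := gk_pos t z
  nlinarith [sq_nonneg ‖z‖]

omit [FiniteDimensional ℝ V] [MeasurableSpace V] [BorelSpace V] in
lemma gk_bdd {a b t : ℝ} (ha : 0 < a) (hat : a ≤ t) (htb : t ≤ b) (z : V) :
    (1 + ‖z‖ ^ 2) * gk t z ≤ cdom (finrank ℝ V) a b * gk (2 * b) (0 : V) := by
  have hb : 0 < b := (ha.trans_le hat).trans_le htb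
  refine (gk_dom ha hat htb z).trans ?_
  exact mul_le_mul_of_nonneg_left (gk_le_zero (by positivity) z) (cdom_pos _ _ _ hb).le

/-- time derivative of the kernel -/
def gkt (t : ℝ) (z : V) : ℝ :=
  gk t z * (‖z‖ ^ 2 / (2 * t ^ 2) - (finrank ℝ V : ℝ) / (2 * t))

/-- space derivative of the kernel -/
def gkx (t : ℝ) (w z : V) : ℝ := (-(1 / t) * gk t z) * ⟪z, w⟫

/-- second space derivative of the kernel -/
def gkxx (t : ℝ) (w z : V) : ℝ := gk t z * (⟪z, w⟫ ^ 2 / t ^ 2 - ‖w‖ ^ 2 / t)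

omit [FiniteDimensional ℝ V] [MeasurableSpace V] [BorelSpace V] in
lemma hasDerivAt_gk {t : ℝ} (ht : 0 < t) (z : V) : HasDerivAt (fun s => gk s z) (gkt t z) t := by
  unfold gkt gk
  have h1 : HasDerivAt (fun s : ℝ => Real.log (2 * π * s)) (1 / t) t := by
    have h0 : HasDerivAt (fun s : ℝ => 2 * π * s) (2 * π) t := by
      simpa using (hasDerivAt_id t).const_mul (2 * π)
    have := h0.log (by positivity)
    convert this using 1
    field_simp
  have h2 : HasDerivAt (fun s : ℝ => ‖z‖ ^ 2 / (2 * s)) (-(‖z‖ ^ 2 / (2 * t ^ 2))) t := by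
    have h0 := (hasDerivAt_inv ht.ne').const_mul (‖z‖ ^ 2 / 2)
    have e : (fun s : ℝ => ‖z‖ ^ 2 / (2 * s)) = fun s => ‖z‖ ^ 2 / 2 * s⁻¹ := by
      funext s; ring
    rw [e]
    refine h0.congr_deriv ?_
    field_simp
  have h3 := ((h1.const_mul (-((finrank ℝ V : ℝ) / 2))).sub h2).exp
  simp only [Pi.sub_apply] at h3
  convert h3 using 2
  ring

omit [FiniteDimensional ℝ V] [MeasurableSpace V] [BorelSpace V] in
lemma hasLineDerivAt_gk {t : ℝ} (ht : 0 < t) (w z : V) :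
    HasLineDerivAt ℝ (gk t) (gkx t w z) z w := by
  have h1 : HasFDerivAt (fun z : V => ‖z‖ ^ 2) (2 • innerSL ℝ z) z :=
    (hasStrictFDerivAt_norm_sq z).hasFDerivAt
  have h2 := ((h1.mul_const (1 / (2 * t))).const_sub
    (-((finrank ℝ V : ℝ) / 2) * Real.log (2 * π * t))).exp
  have h3 := h2.hasLineDerivAt w
  have e : (fun x : V => Real.exp (-((finrank ℝ V : ℝ) / 2) * Real.log (2 * π * t) -
      ‖x‖ ^ 2 * (1 / (2 * t)))) = gk t := by
    funext x; unfold gk; congr 1; ring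
  rw [e] at h3
  convert h3 using 1
  have : Real.exp (-((finrank ℝ V : ℝ) / 2) * Real.log (2 * π * t) -
      ‖z‖ ^ 2 * (1 / (2 * t))) = gk t z := by rw [← e]
  unfold gkx
  rw [this]
  simp only [smul_apply, neg_apply, smul_eq_mul,
    innerSL_apply_apply, nsmul_eq_mul, Nat.cast_ofNat]
  field_simp

omit [FiniteDimensional ℝ V] [MeasurableSpace V] [BorelSpace V] in
lemma hasLineDerivAt_inner (w z : V) :
    HasLineDerivAt ℝ (fun z : V => ⟪z, w⟫) (‖w‖ ^ 2) z w := by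
  unfold HasLineDerivAt
  have e : (fun s : ℝ => ⟪z + s • w, w⟫) = fun s => ⟪z, w⟫ + s * ‖w‖ ^ 2 := by
    funext s
    rw [inner_add_left, real_inner_smul_left, real_inner_self_eq_norm_sq]
  rw [e]
  simpa using ((hasDerivAt_id (0 : ℝ)).mul_const (‖w‖ ^ 2)).const_add ⟪z, w⟫

omit [FiniteDimensional ℝ V] [MeasurableSpace V] [BorelSpace V] in
lemma hasLineDerivAt_gkx {t : ℝ} (ht : 0 < t) (w z : V) :
    HasLineDerivAt ℝ (gkx t w) (gkxx t w z) z w := by
  have h1 := hasLineDerivAt_gk ht w z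
  have h2 := hasLineDerivAt_inner w z
  have h3 := (HasDerivAt.const_mul (-(1 / t)) h1).mul h2
  unfold HasLineDerivAt
  unfold gkxx
  convert! h3 using 1
  simp only [zero_smul, add_zero]
  unfold gkx
  field_simp
  ring

omit [FiniteDimensional ℝ V] [MeasurableSpace V] [BorelSpace V] in
lemma continuous_gkt (t : ℝ) : Continuous (gkt t : V → ℝ) := by
  unfold gkt; have := continuous_gk (V := V) t; fun_prop

omit [FiniteDimensional ℝ V] [MeasurableSpace V] [BorelSpace V] in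
lemma continuous_gkx (t : ℝ) (w : V) : Continuous (gkx t w : V → ℝ) := by
  unfold gkx; have := continuous_gk (V := V) t; fun_prop

omit [FiniteDimensional ℝ V] [MeasurableSpace V] [BorelSpace V] in
lemma continuous_gkxx (t : ℝ) (w : V) : Continuous (gkxx t w : V → ℝ) := by
  unfold gkxx; have := continuous_gk (V := V) t; fun_prop

omit [FiniteDimensional ℝ V] [MeasurableSpace V] [BorelSpace V] in
lemma abs_gkt_le {a t : ℝ} (ha : 0 < a) (hat : a ≤ t) (z : V) :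
    |gkt t z| ≤ (1 / (2 * a ^ 2) + (finrank ℝ V : ℝ) / (2 * a)) * ((1 + ‖z‖ ^ 2) * gk t z) := by
  have ht : 0 < t := ha.trans_le hat
  unfold gkt
  rw [abs_mul, abs_of_pos (gk_pos t z)]
  have h1 : |‖z‖ ^ 2 / (2 * t ^ 2) - (finrank ℝ V : ℝ) / (2 * t)| ≤
      ‖z‖ ^ 2 / (2 * t ^ 2) + (finrank ℝ V : ℝ) / (2 * t) := by
    have h0 : 0 ≤ ‖z‖ ^ 2 / (2 * t ^ 2) := by positivity
    have h0' : 0 ≤ (finrank ℝ V : ℝ) / (2 * t) := by positivity
    rw [abs_le]; constructor <;> linarith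
  have h2 : ‖z‖ ^ 2 / (2 * t ^ 2) ≤ ‖z‖ ^ 2 / (2 * a ^ 2) := by gcongr
  have h3 : (finrank ℝ V : ℝ) / (2 * t) ≤ (finrank ℝ V : ℝ) / (2 * a) := by gcongr
  have h4 : ‖z‖ ^ 2 / (2 * a ^ 2) + (finrank ℝ V : ℝ) / (2 * a) ≤
      (1 / (2 * a ^ 2) + (finrank ℝ V : ℝ) / (2 * a)) * (1 + ‖z‖ ^ 2) := by
    have h5 : 0 ≤ 1 / (2 * a ^ 2) := by positivity
    have h6 : 0 ≤ (finrank ℝ V : ℝ) / (2 * a) * ‖z‖ ^ 2 := by positivity
    have h7 : ‖z‖ ^ 2 / (2 * a ^ 2) = 1 / (2 * a ^ 2) * ‖z‖ ^ 2 := by ring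
    rw [h7]
    nlinarith
  calc gk t z * |‖z‖ ^ 2 / (2 * t ^ 2) - (finrank ℝ V : ℝ) / (2 * t)|
      ≤ gk t z * ((1 / (2 * a ^ 2) + (finrank ℝ V : ℝ) / (2 * a)) * (1 + ‖z‖ ^ 2)) :=
        mul_le_mul_of_nonneg_left (h1.trans ((add_le_add h2 h3).trans h4)) (gk_pos t z).le
    _ = _ := by ring

omit [FiniteDimensional ℝ V] [MeasurableSpace V] [BorelSpace V] in
lemma abs_gkx_le {t : ℝ} (ht : 0 < t) (w z : V) :
    |gkx t w z| ≤ (‖w‖ / t) * (‖z‖ * gk t z) := by
  unfold gkx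
  rw [abs_mul, abs_mul, abs_neg, abs_of_pos (gk_pos t z), abs_of_pos (by positivity : 0 < 1 / t)]
  calc 1 / t * gk t z * |⟪z, w⟫| ≤ 1 / t * gk t z * (‖z‖ * ‖w‖) := by
        apply mul_le_mul_of_nonneg_left (abs_real_inner_le_norm z w)
        have := (gk_pos t z).le
        positivity
    _ = _ := by ring

omit [FiniteDimensional ℝ V] [MeasurableSpace V] [BorelSpace V] in
lemma abs_gkx_le' {t : ℝ} (ht : 0 < t) (w z : V) :
    |gkx t w z| ≤ (‖w‖ / t) * ((1 + ‖z‖ ^ 2) * gk t z) := by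
  refine (abs_gkx_le ht w z).trans ?_
  have := (gk_pos t z).le
  gcongr
  nlinarith [sq_nonneg (‖z‖ - 1)]

omit [FiniteDimensional ℝ V] [MeasurableSpace V] [BorelSpace V] in
lemma abs_gkxx_le {t : ℝ} (ht : 0 < t) (w z : V) :
    |gkxx t w z| ≤ (‖w‖ ^ 2 / t ^ 2 + ‖w‖ ^ 2 / t) * ((1 + ‖z‖ ^ 2) * gk t z) := by
  unfold gkxx
  rw [abs_mul, abs_of_pos (gk_pos t z)]
  have h0 : ⟪z, w⟫ ^ 2 ≤ (‖z‖ * ‖w‖) ^ 2 := by
    rw [← sq_abs]
    exact pow_le_pow_left₀ (abs_nonneg _) (abs_real_inner_le_norm z w) 2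
  have h1 : |⟪z, w⟫ ^ 2 / t ^ 2 - ‖w‖ ^ 2 / t| ≤ ⟪z, w⟫ ^ 2 / t ^ 2 + ‖w‖ ^ 2 / t := by
    have h2 : 0 ≤ ⟪z, w⟫ ^ 2 / t ^ 2 := by positivity
    have h3 : 0 ≤ ‖w‖ ^ 2 / t := by positivity
    rw [abs_le]; constructor <;> linarith
  have h2 : ⟪z, w⟫ ^ 2 / t ^ 2 ≤ (‖z‖ * ‖w‖) ^ 2 / t ^ 2 := by gcongr
  have h3 : (‖z‖ * ‖w‖) ^ 2 / t ^ 2 + ‖w‖ ^ 2 / t ≤
      (‖w‖ ^ 2 / t ^ 2 + ‖w‖ ^ 2 / t) * (1 + ‖z‖ ^ 2) := by
    have h4 : (‖z‖ * ‖w‖) ^ 2 / t ^ 2 = ‖w‖ ^ 2 / t ^ 2 * ‖z‖ ^ 2 := by ring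
    have h5 : 0 ≤ ‖w‖ ^ 2 / t ^ 2 := by positivity
    have h6 : 0 ≤ ‖w‖ ^ 2 / t * ‖z‖ ^ 2 := by positivity
    rw [h4]
    nlinarith
  calc gk t z * |⟪z, w⟫ ^ 2 / t ^ 2 - ‖w‖ ^ 2 / t|
      ≤ gk t z * ((‖w‖ ^ 2 / t ^ 2 + ‖w‖ ^ 2 / t) * (1 + ‖z‖ ^ 2)) :=
        mul_le_mul_of_nonneg_left (by linarith) (gk_pos t z).le
    _ = _ := by ring

/-- A continuous function dominated by `(1+|z|^2) gk` is integrable. -/
lemma integrable_of_dom {F : Type*} [NormedAddCommGroup F] {t C : ℝ} (ht : 0 < t) {K : V → F}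
    (hK : AEStronglyMeasurable K volume) (hb : ∀ z, ‖K z‖ ≤ C * ((1 + ‖z‖ ^ 2) * gk t z)) :
    Integrable K := by
  have hC : 0 ≤ C := by
    have := (norm_nonneg _).trans (hb 0)
    have h2 : 0 < (1 + ‖(0 : V)‖ ^ 2) * gk t (0 : V) := by
      have := gk_pos t (0 : V); positivity
    exact nonneg_of_mul_nonneg_left this h2
  refine Integrable.mono' (((integrable_gk (V := V) (t := 2 * t) (by positivity)).const_mul
    (cdom (finrank ℝ V) t t)).const_mul C) hK (Filter.Eventually.of_forall fun z => ?_)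
  refine (hb z).trans ?_
  exact mul_le_mul_of_nonneg_left (gk_dom ht le_rfl le_rfl z) hC

lemma integral_inner_sq_gk {t : ℝ} (ht : 0 < t) (w : V) :
    ∫ z : V, ⟪z, w⟫ ^ 2 * gk t z = t * ‖w‖ ^ 2 := by
  -- integrate by parts with `f = ⟪z,w⟫`, `g = gk`
  have hf : ∀ z : V, HasLineDerivAt ℝ (fun z : V => ⟪z, w⟫) (‖w‖ ^ 2) z w :=
    fun z => hasLineDerivAt_inner w z
  have hc := continuous_gk (V := V) t
  have hcx := continuous_gkx (V := V) t w
  have h1 : Integrable (fun x : V => ContinuousLinearMap.mul ℝ ℝ (‖w‖ ^ 2) (gk t x)) := by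
    simpa using (integrable_gk ht).const_mul (‖w‖ ^ 2)
  have h2 : Integrable (fun x : V => ContinuousLinearMap.mul ℝ ℝ ⟪x, w⟫ (gkx t w x)) := by
    refine integrable_of_dom (C := ‖w‖ ^ 2 / t) ht ?_ ?_
    · exact (by simpa using (by fun_prop : Continuous fun x : V => ⟪x, w⟫ * gkx t w x)
        |>.aestronglyMeasurable)
    · intro z
      simp only [ContinuousLinearMap.mul_apply', norm_mul, Real.norm_eq_abs]
      have e1 := abs_real_inner_le_norm z w
      have e2 := abs_gkx_le ht w z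
      have e3 := (gk_pos t z).le
      calc |⟪z, w⟫| * |gkx t w z| ≤ (‖z‖ * ‖w‖) * ((‖w‖ / t) * (‖z‖ * gk t z)) := by gcongr
        _ = ‖w‖ ^ 2 / t * (‖z‖ ^ 2 * gk t z) := by ring
        _ ≤ ‖w‖ ^ 2 / t * ((1 + ‖z‖ ^ 2) * gk t z) := by gcongr; linarith
  have h3 : Integrable (fun x : V => ContinuousLinearMap.mul ℝ ℝ ⟪x, w⟫ (gk t x)) := by
    refine integrable_of_dom (C := ‖w‖) ht ?_ ?_
    · exact (by simpa using (by fun_prop : Continuous fun x : V => ⟪x, w⟫ * gk t x)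
        |>.aestronglyMeasurable)
    · intro z
      simp only [ContinuousLinearMap.mul_apply', norm_mul, Real.norm_eq_abs]
      have e1 := abs_real_inner_le_norm z w
      have e3 := (gk_pos t z).le
      rw [abs_of_nonneg e3]
      calc |⟪z, w⟫| * gk t z ≤ (‖z‖ * ‖w‖) * gk t z := by gcongr
        _ = ‖w‖ * (‖z‖ * gk t z) := by ring
        _ ≤ ‖w‖ * ((1 + ‖z‖ ^ 2) * gk t z) := by
            gcongr; nlinarith [sq_nonneg (‖z‖ - 1)]
  have key := integral_bilinear_hasLineDerivAt_right_eq_neg_left_of_integrable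
    (μ := (volume : Measure V)) (f := fun z : V => ⟪z, w⟫) (f' := fun _ => ‖w‖ ^ 2)
    (g := gk t) (g' := gkx t w) (v := w) (B := ContinuousLinearMap.mul ℝ ℝ)
    h1 h2 h3 (fun x _ => hf x) (fun x _ => hasLineDerivAt_gk ht w x)
  simp only [ContinuousLinearMap.mul_apply'] at key
  rw [integral_const_mul, integral_gk ht, mul_one] at key
  have e : ∫ z : V, ⟪z, w⟫ ^ 2 * gk t z = ∫ z : V, (-t) * (⟪z, w⟫ * gkx t w z) := by
    congr 1; funext z; unfold gkx; field_simp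
  rw [e, integral_const_mul, key]
  ring

omit [MeasurableSpace V] [BorelSpace V] in
lemma norm_sq_eq_sum (x : V) :
    ‖x‖ ^ 2 = ∑ i, ⟪x, stdOrthonormalBasis ℝ V i⟫ ^ 2 := by
  rw [(stdOrthonormalBasis ℝ V).sum_sq_inner_left x]

lemma integral_norm_sq_gk {t : ℝ} (ht : 0 < t) :
    ∫ z : V, ‖z‖ ^ 2 * gk t z = (finrank ℝ V : ℝ) * t := by
  simp_rw [norm_sq_eq_sum, Finset.sum_mul]
  rw [integral_finsetSum]
  · simp_rw [integral_inner_sq_gk ht, OrthonormalBasis.norm_eq_one]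
    simp
  · intro i _
    have hc := continuous_gk (V := V) t
    refine integrable_of_dom (C := 1) ht ?_ ?_
    · exact (by fun_prop : Continuous fun x : V => ⟪x, stdOrthonormalBasis ℝ V i⟫ ^ 2 * gk t x)
        |>.aestronglyMeasurable
    · intro z
      have e3 := (gk_pos t z).le
      rw [norm_mul, Real.norm_eq_abs, Real.norm_eq_abs, abs_of_nonneg e3, abs_of_nonneg
        (sq_nonneg _), one_mul]
      gcongr
      rw [norm_sq_eq_sum z]
      have := Finset.single_le_sum (f := fun i => ⟪z, stdOrthonormalBasis ℝ V i⟫ ^ 2)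
        (fun i _ => sq_nonneg _) (Finset.mem_univ i)
      linarith

end Vale.Agent.P156.H653
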