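import Vale.Agent.P156.H653.Kernel

/-!
# Gaussian mixtures: the density of `X + √t N`

`pd μ t` is the density, `gd μ t` its gradient, `qd μ t w` the second line derivative, `td μ t` its
time derivative.
-/

open MeasureTheory Real Module
open scoped RealInnerProductSpace ENNReal Topology

noncomputable section

namespace Vale.Agent.P156.H653

variable {V : Type*} [NormedAddCommGroup V] [InnerProductSpace ℝ V] [FiniteDimensional ℝ V]
  [MeasurableSpace V] [BorelSpace V]

section conv

variable {F : Type*} [NormedAddCommGroup F] [NormedSpace ℝ F]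

omit [NormedSpace ℝ F] in
lemma integrable_shift (μ : Measure V) [IsFiniteMeasure μ] {K : V → F} {C : ℝ}
    (hK : Continuous K) (hb : ∀ z, ‖K z‖ ≤ C) (x : V) : Integrable (fun y => K (x - y)) μ :=
  Integrable.of_bound (hK.comp (by fun_prop : Continuous fun y => x - y)).aestronglyMeasurable C
    (Filter.Eventually.of_forall fun y => hb _)

lemma continuous_conv (μ : Measure V) [IsFiniteMeasure μ] {K : V → F} {C : ℝ}
    (hK : Continuous K) (hb : ∀ z, ‖K z‖ ≤ C) : Continuous (fun x => ∫ y, K (x - y) ∂μ) := by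
  refine continuous_of_dominated (bound := fun _ => C) ?_ ?_ (integrable_const C) ?_
  · intro x
    exact (hK.comp (by fun_prop : Continuous fun y => x - y)).aestronglyMeasurable
  · intro x
    exact Filter.Eventually.of_forall fun y => hb _
  · exact Filter.Eventually.of_forall fun y => hK.comp (by fun_prop : Continuous fun x => x - y)

lemma hasLineDerivAt_conv (μ : Measure V) [IsFiniteMeasure μ] {K K' : V → F} {C C' : ℝ} {w : V}
    (hK : Continuous K) (hb : ∀ z, ‖K z‖ ≤ C) (hK' : Continuous K') (hb' : ∀ z, ‖K' z‖ ≤ C')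
    (hd : ∀ z, HasLineDerivAt ℝ K (K' z) z w) (x : V) :
    HasLineDerivAt ℝ (fun x => ∫ y, K (x - y) ∂μ) (∫ y, K' (x - y) ∂μ) x w := by
  unfold HasLineDerivAt
  have h := hasDerivAt_integral_of_dominated_loc_of_deriv_le (μ := μ) (𝕜 := ℝ)
    (F := fun (s : ℝ) y => K (x + s • w - y)) (F' := fun (s : ℝ) y => K' (x + s • w - y))
    (x₀ := 0) (s := Set.univ) (bound := fun _ => C') Filter.univ_mem
    (Filter.Eventually.of_forall fun s =>
      (hK.comp (by fun_prop : Continuous fun y => x + s • w - y)).aestronglyMeasurable)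
    (by simpa using integrable_shift μ hK hb x)
    (hK'.comp (by fun_prop : Continuous fun y => x + (0 : ℝ) • w - y)).aestronglyMeasurable
    (Filter.Eventually.of_forall fun y s _ => hb' _)
    (integrable_const C')
    (Filter.Eventually.of_forall fun y s _ => by
      have h0 := hd (x + s • w - y)
      unfold HasLineDerivAt at h0
      have h1 : HasDerivAt (fun r : ℝ => r - s) 1 s := by
        simpa using (hasDerivAt_id s).sub_const s
      have h2 : HasDerivAt (fun t : ℝ => K (x + s • w - y + t • w)) (K' (x + s • w - y))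
          ((fun r : ℝ => r - s) s) := by simpa using h0
      have h3 := HasDerivAt.scomp (h := fun r : ℝ => r - s) s h2 h1
      simp only [one_smul] at h3
      convert! h3 using 1
      funext r
      simp only [Function.comp]
      congr 1
      rw [sub_smul]
      abel)
  simpa using h.2

end conv

variable (μ : Measure V)

/-- The density of `X + √t N`. -/
def pd (t : ℝ) (x : V) : ℝ := ∫ y, gk t (x - y) ∂μ

/-- The gradient of the density of `X + √t N`. -/
def gd (t : ℝ) (x : V) : V := ∫ y, (-(1 / t) * gk t (x - y)) • (x - y) ∂μ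

/-- Time derivative of the density. -/
def td (t : ℝ) (x : V) : ℝ := ∫ y, gkt t (x - y) ∂μ

/-- Second line derivative of the density. -/
def qd (t : ℝ) (w x : V) : ℝ := ∫ y, gkxx t w (x - y) ∂μ

variable [IsProbabilityMeasure μ]

omit [FiniteDimensional ℝ V] [MeasurableSpace V] [BorelSpace V] in
lemma gk_norm_le {t : ℝ} (ht : 0 < t) (z : V) : ‖gk t z‖ ≤ gk t (0 : V) := by
  rw [Real.norm_eq_abs, abs_of_pos (gk_pos t z)]; exact gk_le_zero ht z

omit [FiniteDimensional ℝ V] [MeasurableSpace V] [BorelSpace V] in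
lemma one_add_sq_gk_le {t : ℝ} (ht : 0 < t) (z : V) :
    (1 + ‖z‖ ^ 2) * gk t z ≤ cdom (finrank ℝ V) t t * gk (2 * t) (0 : V) :=
  gk_bdd ht le_rfl le_rfl z

omit [FiniteDimensional ℝ V] [MeasurableSpace V] [BorelSpace V] in
lemma gk_smul_norm_le {t : ℝ} (ht : 0 < t) (z : V) :
    ‖(-(1 / t) * gk t z) • z‖ ≤ (1 / t) * ((1 + ‖z‖ ^ 2) * gk t z) := by
  rw [norm_smul, norm_mul, norm_neg, Real.norm_eq_abs, Real.norm_eq_abs, abs_of_pos (gk_pos t z),
    abs_of_pos (by positivity : 0 < 1 / t)]
  have h1 := (gk_pos t z).le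
  have h2 : ‖z‖ ≤ 1 + ‖z‖ ^ 2 := by nlinarith [sq_nonneg (‖z‖ - 1)]
  calc 1 / t * gk t z * ‖z‖ ≤ 1 / t * gk t z * (1 + ‖z‖ ^ 2) := by gcongr
    _ = _ := by ring

omit [FiniteDimensional ℝ V] [MeasurableSpace V] [BorelSpace V] in
lemma continuous_gksmul (t : ℝ) : Continuous (fun z : V => (-(1 / t) * gk t z) • z) := by
  have := continuous_gk (V := V) t; fun_prop

omit [FiniteDimensional ℝ V] [MeasurableSpace V] [BorelSpace V] in
lemma gksmul_bdd {t : ℝ} (ht : 0 < t) (z : V) :
    ‖(-(1 / t) * gk t z) • z‖ ≤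
      (1 / t) * (cdom (finrank ℝ V) t t * gk (2 * t) (0 : V)) := by
  refine (gk_smul_norm_le ht z).trans ?_
  exact mul_le_mul_of_nonneg_left (one_add_sq_gk_le ht z) (by positivity)

omit [FiniteDimensional ℝ V] [MeasurableSpace V] [BorelSpace V] in
lemma gkt_bdd {t : ℝ} (ht : 0 < t) (z : V) :
    ‖gkt t z‖ ≤ (1 / (2 * t ^ 2) + (finrank ℝ V : ℝ) / (2 * t)) *
      (cdom (finrank ℝ V) t t * gk (2 * t) (0 : V)) := by
  refine (abs_gkt_le ht le_rfl z).trans ?_
  exact mul_le_mul_of_nonneg_left (one_add_sq_gk_le ht z) (by positivity)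

omit [FiniteDimensional ℝ V] [MeasurableSpace V] [BorelSpace V] in
lemma gkx_bdd {t : ℝ} (ht : 0 < t) (w z : V) :
    ‖gkx t w z‖ ≤ (‖w‖ / t) * (cdom (finrank ℝ V) t t * gk (2 * t) (0 : V)) := by
  refine (abs_gkx_le' ht w z).trans ?_
  exact mul_le_mul_of_nonneg_left (one_add_sq_gk_le ht z) (by positivity)

omit [FiniteDimensional ℝ V] [MeasurableSpace V] [BorelSpace V] in
lemma gkxx_bdd {t : ℝ} (ht : 0 < t) (w z : V) :
    ‖gkxx t w z‖ ≤ (‖w‖ ^ 2 / t ^ 2 + ‖w‖ ^ 2 / t) *
      (cdom (finrank ℝ V) t t * gk (2 * t) (0 : V)) := by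
  refine (abs_gkxx_le ht w z).trans ?_
  exact mul_le_mul_of_nonneg_left (one_add_sq_gk_le ht z) (by positivity)

variable {μ}

lemma continuous_pd {t : ℝ} (ht : 0 < t) : Continuous (pd μ t) :=
  continuous_conv μ (continuous_gk t) (gk_norm_le ht)

lemma continuous_gd {t : ℝ} (ht : 0 < t) : Continuous (gd μ t) :=
  continuous_conv μ (K := fun z : V => (-(1 / t) * gk t z) • z) (continuous_gksmul t)
    (gksmul_bdd ht)

lemma continuous_td {t : ℝ} (ht : 0 < t) : Continuous (td μ t) :=
  continuous_conv μ (continuous_gkt t) (gkt_bdd ht)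

lemma continuous_qd {t : ℝ} (ht : 0 < t) (w : V) : Continuous (qd μ t w) :=
  continuous_conv μ (continuous_gkxx t w) (gkxx_bdd ht w)

lemma integrable_gk_shift {t : ℝ} (ht : 0 < t) (x : V) : Integrable (fun y => gk t (x - y)) μ :=
  integrable_shift μ (continuous_gk t) (gk_norm_le ht) x

lemma integrable_gksmul_shift {t : ℝ} (ht : 0 < t) (x : V) :
    Integrable (fun y => (-(1 / t) * gk t (x - y)) • (x - y)) μ :=
  integrable_shift μ (K := fun z : V => (-(1 / t) * gk t z) • z) (continuous_gksmul t)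
    (gksmul_bdd ht) x

/-- `⟪gd, w⟫` is the mixture of `gkx`. -/
lemma inner_gd {t : ℝ} (ht : 0 < t) (w x : V) : ⟪gd μ t x, w⟫ = ∫ y, gkx t w (x - y) ∂μ := by
  unfold gd
  rw [real_inner_comm]
  have h := (innerSL ℝ w).integral_comp_comm (integrable_gksmul_shift (μ := μ) ht x)
  simp only [innerSL_apply_apply] at h
  rw [← h]
  congr 1
  funext y
  unfold gkx
  rw [real_inner_smul_right, real_inner_comm]

lemma hasLineDerivAt_pd {t : ℝ} (ht : 0 < t) (w x : V) :
    HasLineDerivAt ℝ (pd μ t) ⟪gd μ t x, w⟫ x w := by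
  rw [inner_gd ht]
  exact hasLineDerivAt_conv μ (continuous_gk t) (gk_norm_le ht) (continuous_gkx t w)
    (gkx_bdd ht w) (fun z => hasLineDerivAt_gk ht w z) x

lemma hasLineDerivAt_gd {t : ℝ} (ht : 0 < t) (w x : V) :
    HasLineDerivAt ℝ (fun x => ⟪gd μ t x, w⟫) (qd μ t w x) x w := by
  simp_rw [inner_gd ht]
  exact hasLineDerivAt_conv μ (continuous_gkx t w) (gkx_bdd ht w) (continuous_gkxx t w)
    (gkxx_bdd ht w) (fun z => hasLineDerivAt_gkx ht w z) x

lemma pd_pos {t : ℝ} (ht : 0 < t) (x : V) : 0 < pd μ t x := by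
  unfold pd
  rw [integral_pos_iff_support_of_nonneg (fun y => (gk_pos t _).le) (integrable_gk_shift ht x)]
  have : (Function.support fun y => gk t (x - y)) = Set.univ := by
    ext y; simp [(gk_pos t (x - y)).ne']
  rw [this]
  simp

lemma pd_le {t : ℝ} (ht : 0 < t) (x : V) : pd μ t x ≤ gk t (0 : V) := by
  unfold pd
  have : ∫ y, gk t (x - y) ∂μ ≤ ∫ _, gk t (0 : V) ∂μ :=
    integral_mono (integrable_gk_shift ht x) (integrable_const _) fun y => gk_le_zero ht _
  simpa using this

lemma td_eq {t : ℝ} (ht : 0 < t) (x : V) :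
    td μ t x = (1 / 2) * ∑ i, qd μ t (stdOrthonormalBasis ℝ V i) x := by
  unfold td qd
  rw [← integral_finsetSum, ← integral_const_mul]
  · congr 1
    funext y
    unfold gkt gkxx
    simp only [OrthonormalBasis.norm_eq_one]
    rw [← Finset.mul_sum, Finset.sum_sub_distrib, ← Finset.sum_div, ← norm_sq_eq_sum]
    simp only [one_pow, Finset.sum_const, Finset.card_univ, Fintype.card_fin, nsmul_eq_mul]
    field_simp
  · intro i _
    exact integrable_shift μ (continuous_gkxx t _) (gkxx_bdd ht _) x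

lemma hasDerivAt_pd {t : ℝ} (ht : 0 < t) (x : V) :
    HasDerivAt (fun s => pd μ s x) (td μ t x) t := by
  have ha : 0 < t / 2 := by positivity
  have h := hasDerivAt_integral_of_dominated_loc_of_deriv_le (μ := μ) (𝕜 := ℝ)
    (F := fun (s : ℝ) y => gk s (x - y)) (F' := fun (s : ℝ) y => gkt s (x - y))
    (x₀ := t) (s := Set.Icc (t / 2) (2 * t))
    (bound := fun _ => (1 / (2 * (t / 2) ^ 2) + (finrank ℝ V : ℝ) / (2 * (t / 2))) *
      (cdom (finrank ℝ V) (t / 2) (2 * t) * gk (2 * (2 * t)) (0 : V)))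
    (Icc_mem_nhds (by linarith) (by linarith))
    (Filter.Eventually.of_forall fun s =>
      ((continuous_gk s).comp (by fun_prop : Continuous fun y => x - y)).aestronglyMeasurable)
    (integrable_gk_shift ht x)
    ((continuous_gkt t).comp (by fun_prop : Continuous fun y => x - y)).aestronglyMeasurable
    (Filter.Eventually.of_forall fun y s hs => by
      refine (abs_gkt_le ha hs.1 _).trans ?_
      exact mul_le_mul_of_nonneg_left (gk_bdd ha hs.1 hs.2 _) (by positivity))
    (integrable_const _)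
    (Filter.Eventually.of_forall fun y s hs => hasDerivAt_gk (ha.trans_le hs.1) _)
  exact h.2

end Vale.Agent.P156.H653
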