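import Vale.Agent.P156.H653.Entropy
import Mathlib.MeasureTheory.Function.SpecialFunctions.Inner

/-!
# Scores and projections

`P : V → V'` with `P P† = 1`.  The score of the law of `P Z` is the projection of the score of `Z`
(`score_pythagoras`).
-/

open MeasureTheory Real Module
open scoped RealInnerProductSpace ENNReal Topology

set_option linter.unusedSectionVars false

noncomputable section

namespace Vale.Agent.P156.H653

variable {V : Type*} [NormedAddCommGroup V] [InnerProductSpace ℝ V] [FiniteDimensional ℝ V]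
  [MeasurableSpace V] [BorelSpace V]
variable {V' : Type*} [NormedAddCommGroup V'] [InnerProductSpace ℝ V'] [FiniteDimensional ℝ V']
  [MeasurableSpace V'] [BorelSpace V']

variable (V) in
/-- The Gaussian measure of variance `t`. -/
def gM (t : ℝ) : Measure V := volume.withDensity fun x => ENNReal.ofReal (gk t x)

lemma integral_gM {F : Type*} [NormedAddCommGroup F] [NormedSpace ℝ F] (t : ℝ) (f : V → F) :
    ∫ x, f x ∂(gM V t) = ∫ x, gk t x • f x := by
  unfold gM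
  rw [integral_withDensity_eq_integral_toReal_smul]
  · congr 1
    funext x
    rw [ENNReal.toReal_ofReal (gk_pos t x).le]
  · exact (continuous_gk t).measurable.ennreal_ofReal
  · exact Filter.Eventually.of_forall fun x => ENNReal.ofReal_lt_top

lemma isProb_gM {t : ℝ} (ht : 0 < t) : IsProbabilityMeasure (gM V t) := by
  constructor
  unfold gM
  rw [withDensity_apply _ MeasurableSet.univ, Measure.restrict_univ,
    ← ofReal_integral_eq_lintegral_ofReal (integrable_gk ht)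
    (Filter.Eventually.of_forall fun x => (gk_pos t x).le), integral_gk ht, ENNReal.ofReal_one]

lemma charFun_gM {t : ℝ} (ht : 0 < t) (ξ : V) :
    charFun (gM V t) ξ = Complex.exp (-((t * ‖ξ‖ ^ 2 / 2 : ℝ) : ℂ)) := by
  rw [charFun_apply, integral_gM]
  have hb : 0 < (((1 / (2 * t) : ℝ) : ℂ)).re := by
    rw [Complex.ofReal_re]; positivity
  have h := GaussianFourier.integral_cexp_neg_mul_sq_norm_add (V := V) hb Complex.I ξ
  have e : ∀ x : V, gk t x • Complex.exp (⟪x, ξ⟫ * Complex.I) =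
      ((Real.exp (-((finrank ℝ V : ℝ) / 2) * Real.log (2 * π * t)) : ℝ) : ℂ) *
      Complex.exp (-((1 / (2 * t) : ℝ) : ℂ) * ‖x‖ ^ 2 + Complex.I * ⟪ξ, x⟫) := by
    intro x
    rw [gk_eq, Complex.real_smul, Complex.exp_add, Complex.ofReal_mul, mul_assoc]
    congr 1
    rw [Complex.ofReal_exp]
    congr 1
    · congr 1; push_cast; ring
    · congr 1; rw [real_inner_comm]; ring
  simp_rw [e]
  rw [integral_const_mul, h]
  have e2 : ((π : ℂ) / ((1 / (2 * t) : ℝ) : ℂ)) ^ ((finrank ℝ V : ℂ) / 2) =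
      ((Real.exp (((finrank ℝ V : ℝ) / 2) * Real.log (2 * π * t)) : ℝ) : ℂ) := by
    have e3 : ((π : ℂ) / ((1 / (2 * t) : ℝ) : ℂ)) = ((2 * π * t : ℝ) : ℂ) := by
      push_cast
      have : (t : ℂ) ≠ 0 := by exact_mod_cast ht.ne'
      field_simp
    rw [e3]
    have e4 : ((finrank ℝ V : ℂ) / 2) = (((finrank ℝ V : ℝ) / 2 : ℝ) : ℂ) := by push_cast; rfl
    rw [e4, ← Complex.ofReal_cpow (by positivity), Real.rpow_def_of_pos (by positivity)]
    congr 2
    ring
  rw [e2, ← mul_assoc, ← Complex.ofReal_mul, ← Real.exp_add]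
  have e5 : -((finrank ℝ V : ℝ) / 2) * Real.log (2 * π * t) +
      ((finrank ℝ V : ℝ) / 2) * Real.log (2 * π * t) = 0 := by ring
  rw [e5, Real.exp_zero, Complex.ofReal_one, one_mul]
  congr 1
  rw [Complex.I_sq]
  push_cast
  have : (t : ℂ) ≠ 0 := by exact_mod_cast ht.ne'
  field_simp
  ring

/-- The adjoint of a coisometry is isometric. -/
lemma norm_adjoint {P : V →L[ℝ] V'} (hP : ∀ v', P (P.adjoint v') = v') (ξ : V') :
    ‖P.adjoint ξ‖ ^ 2 = ‖ξ‖ ^ 2 := by
  rw [← real_inner_self_eq_norm_sq, ContinuousLinearMap.adjoint_inner_right, hP,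
    real_inner_self_eq_norm_sq]

lemma map_gM {P : V →L[ℝ] V'} (hP : ∀ v', P (P.adjoint v') = v') {t : ℝ} (ht : 0 < t) :
    (gM V t).map P = gM V' t := by
  have := isProb_gM (V := V) ht
  have := isProb_gM (V := V') ht
  have : IsProbabilityMeasure ((gM V t).map P) :=
    Measure.isProbabilityMeasure_map P.measurable.aemeasurable
  apply Measure.ext_of_charFun
  ext ξ
  rw [charFun_gM ht, charFun_apply, integral_map P.measurable.aemeasurable
    (by fun_prop)]
  have : ∀ x : V, ⟪P x, ξ⟫ = ⟪x, P.adjoint ξ⟫ := fun x =>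
    (ContinuousLinearMap.adjoint_inner_right P x ξ).symm
  simp_rw [this]
  rw [← charFun_apply, charFun_gM ht, norm_adjoint hP]

/-- Gaussian integrals of functions of `P z`. -/
lemma integral_comp_gk {P : V →L[ℝ] V'} (hP : ∀ v', P (P.adjoint v') = v') {t : ℝ} (ht : 0 < t)
    {f : V' → ℝ} (hf : Measurable f) :
    ∫ z : V, gk t z * f (P z) = ∫ z : V', gk t z * f z := by
  have h := integral_map (μ := gM V t) P.measurable.aemeasurable
    (f := f) hf.aestronglyMeasurable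
  rw [map_gM hP ht, integral_gM, integral_gM] at h
  simpa only [smul_eq_mul] using h.symm

lemma norm_coiso_le {P : V →L[ℝ] V'} (hP : ∀ v', P (P.adjoint v') = v') (z : V) :
    ‖P z‖ ≤ ‖z‖ := by
  have h1 : ‖P z‖ ^ 2 ≤ ‖z‖ * ‖P z‖ := by
    rw [← real_inner_self_eq_norm_sq, ← ContinuousLinearMap.adjoint_inner_right]
    refine (real_inner_le_norm _ _).trans ?_
    have h2 := norm_adjoint hP (P z)
    have h3 : ‖P.adjoint (P z)‖ = ‖P z‖ := by
      rw [← Real.sqrt_sq (norm_nonneg (P.adjoint (P z))), h2, Real.sqrt_sq (norm_nonneg _)]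
    rw [h3]
  by_cases h : ‖P z‖ = 0
  · rw [h]; exact norm_nonneg _
  · have h0 : 0 < ‖P z‖ := lt_of_le_of_ne (norm_nonneg _) (Ne.symm h)
    nlinarith

variable (μ : Measure V)

/-- The score. -/
def sc (t : ℝ) (x : V) : V := (pd μ t x)⁻¹ • gd μ t x

variable {μ} [IsProbabilityMeasure μ]

lemma continuous_sc {t : ℝ} (ht : 0 < t) : Continuous (sc μ t) :=
  ((continuous_pd ht).inv₀ fun x => (pd_pos ht x).ne').smul (continuous_gd ht)

lemma pd_smul_sc {t : ℝ} (ht : 0 < t) (x : V) : pd μ t x • sc μ t x = gd μ t x := by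
  unfold sc
  rw [smul_smul, mul_inv_cancel₀ (pd_pos ht x).ne', one_smul]

lemma exists_sc_bound (h2 : Integrable (fun y => ‖y‖ ^ 2) μ) {t : ℝ} (ht : 0 < t) :
    ∃ C, 0 < C ∧ ∀ x : V, ‖sc μ t x‖ ≤ C * (1 + ‖x‖) := by
  obtain ⟨C, hC, h⟩ := exists_grad_bound (μ := μ) h2 ht
  refine ⟨C, hC, fun x => ?_⟩
  have hp := pd_pos (μ := μ) ht x
  unfold sc
  rw [norm_smul, norm_inv, Real.norm_eq_abs, abs_of_pos hp, inv_mul_le_iff₀ hp]
  calc ‖gd μ t x‖ ≤ C * (1 + ‖x‖) * pd μ t x := h x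
    _ = _ := by ring

lemma fish_eq {t : ℝ} (ht : 0 < t) : fish μ t = ∫ x, ‖sc μ t x‖ ^ 2 * pd μ t x := by
  unfold fish sc
  simp_rw [norm_sq_gd_div ht]

section proj

variable {P : V →L[ℝ] V'}

lemma second_moment_map (hP : ∀ v', P (P.adjoint v') = v')
    (h2 : Integrable (fun y => ‖y‖ ^ 2) μ) :
    Integrable (fun y => ‖y‖ ^ 2) (μ.map P) := by
  rw [integrable_map_measure (by fun_prop) P.measurable.aemeasurable]
  refine Integrable.mono' h2 (by fun_prop) (Filter.Eventually.of_forall fun x => ?_)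
  simp only [Function.comp, norm_pow, norm_norm]
  have := norm_coiso_le hP x
  gcongr

instance isProb_map_clm : IsProbabilityMeasure (μ.map P) :=
  Measure.isProbabilityMeasure_map P.measurable.aemeasurable

/-- Expectations of functions of `P Z`. -/
lemma integral_comp_pd (hP : ∀ v', P (P.adjoint v') = v')
    (h2 : Integrable (fun y => ‖y‖ ^ 2) μ) {t C : ℝ} (ht : 0 < t) {φ : V' → ℝ}
    (hφ : Measurable φ) (hb : ∀ x, |φ x| ≤ C * (1 + ‖x‖ ^ 2)) :
    ∫ x, φ (P x) * pd μ t x = ∫ y, φ y * pd (μ.map P) t y := by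
  have hC : 0 ≤ C := by
    have := (abs_nonneg _).trans (hb 0)
    simpa using this
  have h2' := second_moment_map (μ := μ) hP h2
  have hb' : ∀ x : V, |φ (P x)| ≤ C * (1 + ‖x‖ ^ 2) := by
    intro x
    refine (hb _).trans ?_
    have := norm_coiso_le hP x
    gcongr
  rw [integral_mul_pd (μ := μ) h2 (C := C) ht (φ := fun x => φ (P x))
      (hφ.comp P.measurable) hb',
    integral_mul_pd (μ := μ.map P) h2' (C := C) ht hφ hb]
  have e1 : ∀ y : V, ∫ z : V, φ (P (y + z)) * gk t z = ∫ z : V', φ (P y + z) * gk t z := by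
    intro y
    have h := integral_comp_gk hP ht (f := fun z => φ (P y + z)) (by fun_prop)
    simp_rw [map_add, mul_comm _ (gk t _)]
    exact h
  simp_rw [e1]
  rw [integral_map P.measurable.aemeasurable]
  have hc := continuous_gk (V := V') t
  have hm : Measurable (fun p : V' × V' => φ (p.1 + p.2) * gk t p.2) :=
    (hφ.comp (measurable_fst.add measurable_snd)).mul (hc.measurable.comp measurable_snd)
  exact (hm.stronglyMeasurable.integral_prod_right (ν := (volume : Measure V'))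
    ).aestronglyMeasurable

lemma growth_kernel {t C : ℝ} (ht : 0 < t) (hC : 0 ≤ C) {ψ : V → V}
    (hb : ∀ x, ‖ψ x‖ ≤ C * (1 + ‖x‖)) (x y : V) :
    ‖-(1 / t) * (gk t (x - y) * ⟪x - y, ψ x⟫)‖ ≤
      ((1 / t) * (2 * C)) * ((1 + ‖x‖ ^ 2) * ((1 + ‖x - y‖ ^ 2) * gk t (x - y))) := by
  have g := (gk_pos t (x - y)).le
  rw [norm_mul, norm_neg, norm_mul, Real.norm_eq_abs, Real.norm_eq_abs, Real.norm_eq_abs,
    abs_of_nonneg g, abs_of_pos (by positivity : 0 < 1 / t)]
  have h1 : |⟪x - y, ψ x⟫| ≤ ‖x - y‖ * (C * (1 + ‖x‖)) :=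
    (abs_real_inner_le_norm _ _).trans (mul_le_mul_of_nonneg_left (hb x) (norm_nonneg _))
  have h3 : ‖x - y‖ ≤ 1 + ‖x - y‖ ^ 2 := by nlinarith [sq_nonneg (‖x - y‖ - 1)]
  have h4 : 1 + ‖x‖ ≤ 2 * (1 + ‖x‖ ^ 2) := by nlinarith [sq_nonneg (‖x‖ - 1)]
  calc 1 / t * (gk t (x - y) * |⟪x - y, ψ x⟫|)
      ≤ 1 / t * (gk t (x - y) * (‖x - y‖ * (C * (1 + ‖x‖)))) := by gcongr
    _ ≤ 1 / t * (gk t (x - y) * ((1 + ‖x - y‖ ^ 2) * (C * (2 * (1 + ‖x‖ ^ 2))))) := by gcongr
    _ = _ := by ring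

/-- Fubini form of `∫ ⟪gd, ψ⟫`. -/
lemma integral_inner_gd (h2 : Integrable (fun y => ‖y‖ ^ 2) μ) {t C : ℝ} (ht : 0 < t)
    (hC : 0 ≤ C) {ψ : V → V} (hψ : Measurable ψ) (hb : ∀ x, ‖ψ x‖ ≤ C * (1 + ‖x‖)) :
    ∫ x, ⟪gd μ t x, ψ x⟫ = ∫ y, ∫ z, -(1 / t) * (gk t z * ⟪z, ψ (y + z)⟫) ∂volume ∂μ := by
  have hc := continuous_gk (V := V) t
  have hm : Measurable (fun p : V × V => -(1 / t) * (gk t (p.1 - p.2) * ⟪p.1 - p.2, ψ p.1⟫)) := by
    have h1 : Measurable (fun p : V × V => ⟪p.1 - p.2, ψ p.1⟫) :=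
      (measurable_fst.sub measurable_snd).inner (hψ.comp measurable_fst)
    have h3 : Measurable (fun p : V × V => gk t (p.1 - p.2)) :=
      hc.measurable.comp (measurable_fst.sub measurable_snd)
    exact (h3.mul h1).const_mul _
  have hint := mix_dom (μ := μ) (f := fun x y => -(1 / t) * (gk t (x - y) * ⟪x - y, ψ x⟫)) h2 ht
    hm.aestronglyMeasurable (growth_kernel ht hC hb)
  have h3 := mix_fubini (f := fun x y => -(1 / t) * (gk t (x - y) * ⟪x - y, ψ x⟫)) hint
  have e1 : ∀ x : V, ⟪gd μ t x, ψ x⟫ = ∫ y, -(1 / t) * (gk t (x - y) * ⟪x - y, ψ x⟫) ∂μ := by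
    intro x
    unfold gd
    rw [real_inner_comm]
    have h := (innerSL ℝ (ψ x)).integral_comp_comm (integrable_gksmul_shift (μ := μ) ht x)
    simp only [innerSL_apply_apply] at h
    rw [← h]
    congr 1
    funext y
    rw [real_inner_smul_right, real_inner_comm]
    ring
  simp_rw [e1]
  rw [h3]
  simp

/-- The projected score identity, tested against fields of linear growth. -/
lemma integral_inner_gd_proj (hP : ∀ v', P (P.adjoint v') = v')
    (h2 : Integrable (fun y => ‖y‖ ^ 2) μ) {t C : ℝ} (ht : 0 < t) (hC : 0 ≤ C) {ψ : V' → V'}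
    (hψ : Measurable ψ) (hb : ∀ x, ‖ψ x‖ ≤ C * (1 + ‖x‖)) :
    ∫ x, ⟪P (gd μ t x), ψ (P x)⟫ = ∫ y, ⟪gd (μ.map P) t y, ψ y⟫ := by
  have h2' := second_moment_map (μ := μ) hP h2
  have e0 : ∀ x : V, ⟪P (gd μ t x), ψ (P x)⟫ = ⟪gd μ t x, P.adjoint (ψ (P x))⟫ := fun x =>
    (ContinuousLinearMap.adjoint_inner_right P _ _).symm
  simp_rw [e0]
  have hnorm : ∀ ξ : V', ‖P.adjoint ξ‖ = ‖ξ‖ := fun ξ => by
    rw [← Real.sqrt_sq (norm_nonneg (P.adjoint ξ)), norm_adjoint hP, Real.sqrt_sq (norm_nonneg _)]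
  rw [integral_inner_gd (μ := μ) h2 (C := C) ht hC (ψ := fun x => P.adjoint (ψ (P x)))
      (P.adjoint.measurable.comp (hψ.comp P.measurable)) (fun x => by
        rw [hnorm]
        refine (hb _).trans ?_
        have := norm_coiso_le hP x
        gcongr),
    integral_inner_gd (μ := μ.map P) h2' (C := C) ht hC hψ hb]
  have e1 : ∀ y : V, ∫ z : V, -(1 / t) * (gk t z * ⟪z, P.adjoint (ψ (P (y + z)))⟫) =
      ∫ z : V', -(1 / t) * (gk t z * ⟪z, ψ (P y + z)⟫) := by
    intro y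
    rw [integral_const_mul, integral_const_mul]
    congr 1
    have hm : Measurable (fun z : V' => ⟪z, ψ (P y + z)⟫) :=
      measurable_id.inner (hψ.comp (measurable_const.add measurable_id))
    have h := integral_comp_gk hP ht (f := fun z => ⟪z, ψ (P y + z)⟫) hm
    simp_rw [ContinuousLinearMap.adjoint_inner_right, map_add]
    exact h
  simp_rw [e1]
  rw [integral_map P.measurable.aemeasurable]
  have hc := continuous_gk (V := V') t
  have hm : Measurable (fun p : V' × V' => -(1 / t) * (gk t p.2 * ⟪p.2, ψ (p.1 + p.2)⟫)) := by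
    have h1 : Measurable (fun p : V' × V' => ⟪p.2, ψ (p.1 + p.2)⟫) :=
      measurable_snd.inner (hψ.comp (measurable_fst.add measurable_snd))
    exact ((hc.measurable.comp measurable_snd).mul h1).const_mul _
  exact (hm.stronglyMeasurable.integral_prod_right (ν := (volume : Measure V'))
    ).aestronglyMeasurable

/-- integrability of `⟪u, v⟫ pd` for fields with linear growth. -/
lemma integrable_inner_pd (h2 : Integrable (fun y => ‖y‖ ^ 2) μ) {t C D : ℝ} (ht : 0 < t)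
    (hC : 0 ≤ C) (hD : 0 ≤ D) {u v : V → V'} (hu : Measurable u) (hv : Measurable v)
    (hub : ∀ x, ‖u x‖ ≤ C * (1 + ‖x‖)) (hvb : ∀ x, ‖v x‖ ≤ D * (1 + ‖x‖)) :
    Integrable (fun x => ⟪u x, v x⟫ * pd μ t x) := by
  refine integrable_mul_pd (μ := μ) h2 (C := 2 * (C * D)) ht (hu.inner hv) fun x => ?_
  refine (abs_real_inner_le_norm _ _).trans ?_
  have h1 := hub x
  have h3 := hvb x
  calc ‖u x‖ * ‖v x‖ ≤ (C * (1 + ‖x‖)) * (D * (1 + ‖x‖)) := by gcongr
    _ = C * D * (1 + ‖x‖) ^ 2 := by ring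
    _ ≤ C * D * (2 * (1 + ‖x‖ ^ 2)) := by
        gcongr
        nlinarith [sq_nonneg (1 - ‖x‖)]
    _ = _ := by ring

/-- **Pythagoras for scores.** -/
theorem score_pythagoras (hP : ∀ v', P (P.adjoint v') = v')
    (h2 : Integrable (fun y => ‖y‖ ^ 2) μ) {t : ℝ} (ht : 0 < t) (B : V' →L[ℝ] V')
    (hB : ∀ u v, ⟪B u, v⟫ = ⟪u, B v⟫) :
    ∫ x, ⟪P (sc μ t x) - sc (μ.map P) t (P x), B (P (sc μ t x) - sc (μ.map P) t (P x))⟫ *
        pd μ t x =
      (∫ x, ⟪P (sc μ t x), B (P (sc μ t x))⟫ * pd μ t x) -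
        ∫ y, ⟪sc (μ.map P) t y, B (sc (μ.map P) t y)⟫ * pd (μ.map P) t y := by
  have h2' := second_moment_map (μ := μ) hP h2
  obtain ⟨C, hC, hCb⟩ := exists_sc_bound (μ := μ) h2 ht
  obtain ⟨D, hD, hDb⟩ := exists_sc_bound (μ := μ.map P) h2' ht
  have mS : Measurable (sc μ t) := (continuous_sc ht).measurable
  have mS' : Measurable (sc (μ.map P) t) := (continuous_sc ht).measurable
  have mu1 : Measurable (fun x => P (sc μ t x)) := P.measurable.comp mS
  have mu2 : Measurable (fun x => sc (μ.map P) t (P x)) := mS'.comp P.measurable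
  have b1 : ∀ x, ‖P (sc μ t x)‖ ≤ C * (1 + ‖x‖) := fun x =>
    (norm_coiso_le hP _).trans (hCb x)
  have b2 : ∀ x, ‖sc (μ.map P) t (P x)‖ ≤ D * (1 + ‖x‖) := fun x => by
    refine (hDb _).trans ?_
    have := norm_coiso_le hP x
    gcongr
  have bB : ∀ {u : V → V'} {c : ℝ}, (∀ x, ‖u x‖ ≤ c * (1 + ‖x‖)) →
      ∀ x, ‖B (u x)‖ ≤ (‖B‖ * c) * (1 + ‖x‖) := by
    intro u c hu x
    refine (B.le_opNorm _).trans ?_
    rw [mul_assoc]
    exact mul_le_mul_of_nonneg_left (hu x) (norm_nonneg _)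
  have i1 : Integrable (fun x => ⟪P (sc μ t x), B (P (sc μ t x))⟫ * pd μ t x) :=
    integrable_inner_pd h2 ht hC.le (by positivity) mu1 (B.measurable.comp mu1) b1 (bB b1)
  have i2 : Integrable (fun x => ⟪P (sc μ t x), B (sc (μ.map P) t (P x))⟫ * pd μ t x) :=
    integrable_inner_pd h2 ht hC.le (by positivity) mu1 (B.measurable.comp mu2) b1 (bB b2)
  have i3 : Integrable (fun x =>
      ⟪sc (μ.map P) t (P x), B (sc (μ.map P) t (P x))⟫ * pd μ t x) :=
    integrable_inner_pd h2 ht hD.le (by positivity) mu2 (B.measurable.comp mu2) b2 (bB b2)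
  have e : ∀ x, ⟪P (sc μ t x) - sc (μ.map P) t (P x), B (P (sc μ t x) - sc (μ.map P) t (P x))⟫ *
        pd μ t x = (⟪P (sc μ t x), B (P (sc μ t x))⟫ * pd μ t x -
        2 * (⟪P (sc μ t x), B (sc (μ.map P) t (P x))⟫ * pd μ t x)) +
        ⟪sc (μ.map P) t (P x), B (sc (μ.map P) t (P x))⟫ * pd μ t x := by
    intro x
    rw [map_sub, inner_sub_left, inner_sub_right, inner_sub_right]
    have h : ⟪sc (μ.map P) t (P x), B (P (sc μ t x))⟫ =
        ⟪P (sc μ t x), B (sc (μ.map P) t (P x))⟫ := by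
      rw [← hB, real_inner_comm]
    rw [h]
    ring
  simp_rw [e]
  have s1 : ∫ x, ((⟪P (sc μ t x), B (P (sc μ t x))⟫ * pd μ t x -
        2 * (⟪P (sc μ t x), B (sc (μ.map P) t (P x))⟫ * pd μ t x)) +
        ⟪sc (μ.map P) t (P x), B (sc (μ.map P) t (P x))⟫ * pd μ t x) =
      (∫ x, (⟪P (sc μ t x), B (P (sc μ t x))⟫ * pd μ t x -
        2 * (⟪P (sc μ t x), B (sc (μ.map P) t (P x))⟫ * pd μ t x))) +
      ∫ x, ⟪sc (μ.map P) t (P x), B (sc (μ.map P) t (P x))⟫ * pd μ t x :=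
    integral_add (i1.sub (i2.const_mul 2)) i3
  rw [s1, integral_sub i1 (i2.const_mul 2), integral_const_mul]
  -- the two projected terms
  have f1 : ∫ x, ⟪P (sc μ t x), B (sc (μ.map P) t (P x))⟫ * pd μ t x =
      ∫ y, ⟪sc (μ.map P) t y, B (sc (μ.map P) t y)⟫ * pd (μ.map P) t y := by
    have g1 := integral_inner_gd_proj (μ := μ) hP h2 (C := ‖B‖ * D) ht (by positivity)
      (ψ := fun y => B (sc (μ.map P) t y)) (B.measurable.comp mS') (fun x => by
        refine (B.le_opNorm _).trans ?_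
        rw [mul_assoc]
        exact mul_le_mul_of_nonneg_left (hDb x) (norm_nonneg _))
    have g2 : ∀ x, ⟪P (gd μ t x), B (sc (μ.map P) t (P x))⟫ =
        ⟪P (sc μ t x), B (sc (μ.map P) t (P x))⟫ * pd μ t x := by
      intro x
      rw [← pd_smul_sc ht x, map_smul, real_inner_smul_left, mul_comm]
    have g3 : ∀ y, ⟪gd (μ.map P) t y, B (sc (μ.map P) t y)⟫ =
        ⟪sc (μ.map P) t y, B (sc (μ.map P) t y)⟫ * pd (μ.map P) t y := by
      intro y
      rw [← pd_smul_sc ht y, real_inner_smul_left, mul_comm]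
    simp_rw [g2, g3] at g1
    exact g1
  have f2 : ∫ x, ⟪sc (μ.map P) t (P x), B (sc (μ.map P) t (P x))⟫ * pd μ t x =
      ∫ y, ⟪sc (μ.map P) t y, B (sc (μ.map P) t y)⟫ * pd (μ.map P) t y := by
    refine integral_comp_pd (μ := μ) hP h2 (C := 2 * (D * (‖B‖ * D))) ht
      (φ := fun y => ⟪sc (μ.map P) t y, B (sc (μ.map P) t y)⟫)
      (mS'.inner (B.measurable.comp mS')) fun y => ?_
    refine (abs_real_inner_le_norm _ _).trans ?_
    have h1 := hDb y
    have h3 : ‖B (sc (μ.map P) t y)‖ ≤ (‖B‖ * D) * (1 + ‖y‖) := by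
      refine (B.le_opNorm _).trans ?_
      rw [mul_assoc]
      exact mul_le_mul_of_nonneg_left (hDb y) (norm_nonneg _)
    calc ‖sc (μ.map P) t y‖ * ‖B (sc (μ.map P) t y)‖
        ≤ (D * (1 + ‖y‖)) * ((‖B‖ * D) * (1 + ‖y‖)) := by gcongr
      _ = D * (‖B‖ * D) * (1 + ‖y‖) ^ 2 := by ring
      _ ≤ D * (‖B‖ * D) * (2 * (1 + ‖y‖ ^ 2)) := by
          gcongr
          nlinarith [sq_nonneg (1 - ‖y‖)]
      _ = _ := by ring
  rw [f1, f2]
  ring

end proj

end Vale.Agent.P156.H653
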