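import Vale.Agent.P156.H653.Iso
import Vale.Agent.P156.H653.Proj

/-!
# The Fisher information inequality on the star

`fish(star) ≥ (d/2) fish(edge)`; hence `ent(star) - (d/2) ent(edge)` is nondecreasing along the
heat flow and tends to `0` (isotropic coordinates).
-/

open MeasureTheory Real Module Filter
open Vale.Agent.P156.H849
open scoped RealInnerProductSpace ENNReal Topology

set_option linter.unusedSectionVars false

noncomputable section

namespace Vale.Agent.P156.H653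

variable {q k : ℕ}

lemma VE_ext {u v : VE k} (h1 : u.fst = v.fst) (h2 : u.snd = v.snd) : u = v := by
  apply WithLp.ofLp_injective
  exact Prod.ext h1 h2

lemma VS_ext {u v : VS q k} (h1 : u.fst = v.fst) (h2 : ∀ i, u.snd i = v.snd i) : u = v := by
  apply WithLp.ofLp_injective
  refine Prod.ext h1 ?_
  exact PiLp.ext h2

/-- The projection to the `l`-th isotropic edge. -/
def Pl (q k : ℕ) (l : Fin (q + 1)) : VS q k →L[ℝ] VE k :=
  LinearMap.toContinuousLinearMap
    { toFun := fun x => WithLp.toLp 2 (x.fst, pil l x)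
      map_add' := fun x y => VE_ext rfl (by
        show pil l (x + y) = pil l x + pil l y
        simp [pil, Finset.sum_add_distrib])
      map_smul' := fun a x => VE_ext rfl (by
        show pil l (a • x) = a • pil l x
        simp [pil, Finset.smul_sum, smul_comm a]) }

@[simp] lemma Pl_fst (l : Fin (q + 1)) (x : VS q k) : (Pl q k l x).fst = x.fst := rfl

@[simp] lemma Pl_snd (l : Fin (q + 1)) (x : VS q k) : (Pl q k l x).snd = pil l x := rfl

/-- The adjoint of `Pl`. -/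
def Ql (q k : ℕ) (l : Fin (q + 1)) : VE k →L[ℝ] VS q k :=
  LinearMap.toContinuousLinearMap
    { toFun := fun v => WithLp.toLp 2 (v.fst, WithLp.toLp 2 fun i => simplex q l i • v.snd)
      map_add' := fun x y => VS_ext rfl fun i => by
        show simplex q l i • (x + y).snd = simplex q l i • x.snd + simplex q l i • y.snd
        simp
      map_smul' := fun a x => VS_ext rfl fun i => by
        show simplex q l i • (a • x).snd = a • simplex q l i • x.snd
        simp [smul_comm a] }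

@[simp] lemma Ql_fst (l : Fin (q + 1)) (v : VE k) : (Ql q k l v).fst = v.fst := rfl

@[simp] lemma Ql_snd (l : Fin (q + 1)) (v : VE k) (i : Fin q) :
    (Ql q k l v).snd i = simplex q l i • v.snd := rfl

lemma inner_VS (x y : VS q k) :
    ⟪x, y⟫ = ⟪x.fst, y.fst⟫ + ∑ i, ⟪x.snd i, y.snd i⟫ := by
  rw [WithLp.prod_inner_apply, PiLp.inner_apply]
  rfl

lemma inner_VE (x y : VE k) : ⟪x, y⟫ = ⟪x.fst, y.fst⟫ + ⟪x.snd, y.snd⟫ := by
  rw [WithLp.prod_inner_apply]
  rfl

lemma adjoint_Pl (l : Fin (q + 1)) : (Pl q k l).adjoint = Ql q k l := by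
  symm
  rw [ContinuousLinearMap.eq_adjoint_iff]
  intro v x
  rw [inner_VS, inner_VE]
  simp only [Ql_fst, Ql_snd, Pl_fst, Pl_snd, pil, inner_sum, real_inner_smul_left,
    real_inner_smul_right]

lemma Pl_Ql (hq : 1 ≤ q) (l : Fin (q + 1)) (v : VE k) : Pl q k l (Ql q k l v) = v := by
  have h1 : pil l (Ql q k l v) = v.snd := by
    unfold pil
    simp only [Ql_snd, smul_smul]
    rw [← Finset.sum_smul, simplex_gram q hq, if_pos rfl, one_smul]
  have h2 : Pl q k l (Ql q k l v) = WithLp.toLp 2 ((Ql q k l v).fst, pil l (Ql q k l v)) := rfl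
  rw [h2, h1]
  rfl

lemma Pl_adjoint (hq : 1 ≤ q) (l : Fin (q + 1)) (v : VE k) :
    Pl q k l ((Pl q k l).adjoint v) = v := by
  rw [adjoint_Pl, Pl_Ql hq]

lemma sum_pil (hq : 1 ≤ q) (x : VS q k) : ∑ l, pil l x = 0 := by
  unfold pil
  rw [Finset.sum_comm]
  simp_rw [← Finset.sum_smul, simplex_sum q hq]
  simp

lemma sum_norm_pil (hq : 1 ≤ q) (x : VS q k) :
    ∑ l, ‖pil l x‖ ^ 2 = (((q : ℝ) + 1) / q) * ∑ i, ‖x.snd i‖ ^ 2 := by
  have e : ∀ l, ‖pil l x‖ ^ 2 =
      ∑ i, ∑ j, (simplex q l i * simplex q l j) * ⟪x.snd i, x.snd j⟫ := by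
    intro l
    rw [← real_inner_self_eq_norm_sq]
    unfold pil
    rw [sum_inner]
    congr 1
    funext i
    rw [inner_sum]
    congr 1
    funext j
    rw [real_inner_smul_left, real_inner_smul_right]
    ring
  simp_rw [e]
  rw [Finset.sum_comm]
  simp_rw [fun i => Finset.sum_comm (s := Finset.univ) (t := Finset.univ)
    (f := fun (l : Fin (q + 1)) (j : Fin q) =>
      (simplex q l i * simplex q l j) * ⟪x.snd i, x.snd j⟫), ← Finset.sum_mul,
    simplex_frame q hq]
  simp only [ite_mul, zero_mul, Finset.sum_ite_eq, Finset.mem_univ, if_true,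
    real_inner_self_eq_norm_sq]
  rw [Finset.mul_sum]

lemma norm_VS (x : VS q k) : ‖x‖ ^ 2 = ‖x.fst‖ ^ 2 + ∑ i, ‖x.snd i‖ ^ 2 := by
  rw [← real_inner_self_eq_norm_sq, inner_VS]
  simp_rw [real_inner_self_eq_norm_sq]

lemma norm_VE (x : VE k) : ‖x‖ ^ 2 = ‖x.fst‖ ^ 2 + ‖x.snd‖ ^ 2 := by
  rw [← real_inner_self_eq_norm_sq, inner_VE]
  simp_rw [real_inner_self_eq_norm_sq]

/-- The quadratic form `|g1|² + 2ρ⟨g1,g2⟩ + q |g2|²` -/
def BB (k : ℕ) (r a : ℝ) : VE k →L[ℝ] VE k :=
  LinearMap.toContinuousLinearMap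
    { toFun := fun v => WithLp.toLp 2 (v.fst + r • v.snd, r • v.fst + a • v.snd)
      map_add' := fun x y => VE_ext
        (by simp only [WithLp.toLp_fst, WithLp.add_fst, WithLp.add_snd]; module)
        (by simp only [WithLp.toLp_snd, WithLp.add_fst, WithLp.add_snd]; module)
      map_smul' := fun b x => VE_ext
        (by simp only [WithLp.toLp_fst, WithLp.smul_fst, WithLp.smul_snd, RingHom.id_apply]; module)
        (by simp only [WithLp.toLp_snd, WithLp.smul_fst, WithLp.smul_snd, RingHom.id_apply];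
            module) }

@[simp] lemma BB_fst (r a : ℝ) (v : VE k) : (BB k r a v).fst = v.fst + r • v.snd := rfl

@[simp] lemma BB_snd (r a : ℝ) (v : VE k) : (BB k r a v).snd = r • v.fst + a • v.snd := rfl

lemma inner_BB (r a : ℝ) (v : VE k) :
    ⟪v, BB k r a v⟫ = ‖v.fst‖ ^ 2 + 2 * r * ⟪v.fst, v.snd⟫ + a * ‖v.snd‖ ^ 2 := by
  rw [inner_VE]
  simp only [BB_fst, BB_snd, inner_add_right, real_inner_smul_right, real_inner_self_eq_norm_sq]
  rw [real_inner_comm v.fst v.snd]
  ring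

lemma BB_symm (r a : ℝ) (u v : VE k) : ⟪BB k r a u, v⟫ = ⟪u, BB k r a v⟫ := by
  rw [inner_VE, inner_VE]
  simp only [BB_fst, BB_snd, inner_add_right, real_inner_smul_right, inner_add_left,
    real_inner_smul_left]
  ring

lemma BB_nonneg {r a : ℝ} (h : r ^ 2 ≤ a) (v : VE k) : 0 ≤ ⟪v, BB k r a v⟫ := by
  rw [inner_BB]
  have h1 : ‖v.fst + r • v.snd‖ ^ 2 =
      ‖v.fst‖ ^ 2 + 2 * r * ⟪v.fst, v.snd⟫ + r ^ 2 * ‖v.snd‖ ^ 2 := by
    rw [norm_add_sq_real, real_inner_smul_right, norm_smul, mul_pow, Real.norm_eq_abs, sq_abs]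
    ring
  have h2 : 0 ≤ ‖v.fst + r • v.snd‖ ^ 2 := by positivity
  have h3 : r ^ 2 * ‖v.snd‖ ^ 2 ≤ a * ‖v.snd‖ ^ 2 := by gcongr
  linarith

lemma BB_eq_zero {r a : ℝ} (h : r ^ 2 < a) {v : VE k} (hv : ⟪v, BB k r a v⟫ = 0) : v = 0 := by
  rw [inner_BB] at hv
  have h1 : ‖v.fst + r • v.snd‖ ^ 2 =
      ‖v.fst‖ ^ 2 + 2 * r * ⟪v.fst, v.snd⟫ + r ^ 2 * ‖v.snd‖ ^ 2 := by
    rw [norm_add_sq_real, real_inner_smul_right, norm_smul, mul_pow, Real.norm_eq_abs, sq_abs]
    ring
  have h2 : 0 ≤ ‖v.fst + r • v.snd‖ ^ 2 := by positivity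
  have h3 : 0 ≤ ‖v.snd‖ ^ 2 := by positivity
  have h4 : ‖v.snd‖ ^ 2 = 0 := by
    by_contra hne
    have : 0 < ‖v.snd‖ ^ 2 := lt_of_le_of_ne h3 (Ne.symm hne)
    nlinarith
  have h5 : v.snd = 0 := by
    rw [← norm_eq_zero]; exact pow_eq_zero_iff (two_ne_zero) |>.1 h4
  rw [h5] at hv
  simp at hv
  have h6 : ‖v‖ ^ 2 = 0 := by rw [norm_VE, h5, hv]; simp
  exact norm_eq_zero.1 (pow_eq_zero_iff two_ne_zero |>.1 h6)

/-- frame identity -/
lemma sum_inner_BB (hq : 1 ≤ q) (r : ℝ) (x : VS q k) :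
    ∑ l, ⟪Pl q k l x, BB k r q (Pl q k l x)⟫ = ((q : ℝ) + 1) * ‖x‖ ^ 2 := by
  have hq0 : (q : ℝ) ≠ 0 := by positivity
  simp_rw [inner_BB, Pl_fst, Pl_snd, Finset.sum_add_distrib, ← Finset.mul_sum]
  rw [sum_norm_pil hq, ← inner_sum, sum_pil hq, inner_zero_right, norm_VS]
  simp only [Finset.sum_const, Finset.card_univ, Fintype.card_fin, nsmul_eq_mul]
  push_cast
  field_simp
  ring

/-- The swap isometry in isotropic edge coordinates. -/
def swp (k : ℕ) (c s : ℝ) : VE k →L[ℝ] VE k :=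
  LinearMap.toContinuousLinearMap
    { toFun := fun v => WithLp.toLp 2 (c • v.fst + s • v.snd, s • v.fst - c • v.snd)
      map_add' := fun x y => VE_ext
        (by simp only [WithLp.toLp_fst, WithLp.add_fst, WithLp.add_snd]; module)
        (by simp only [WithLp.toLp_snd, WithLp.add_fst, WithLp.add_snd]; module)
      map_smul' := fun b x => VE_ext
        (by simp only [WithLp.toLp_fst, WithLp.smul_fst, WithLp.smul_snd, RingHom.id_apply]; module)
        (by simp only [WithLp.toLp_snd, WithLp.smul_fst, WithLp.smul_snd, RingHom.id_apply];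
            module) }

@[simp] lemma swp_fst (c s : ℝ) (v : VE k) : (swp k c s v).fst = c • v.fst + s • v.snd := rfl

@[simp] lemma swp_snd (c s : ℝ) (v : VE k) : (swp k c s v).snd = s • v.fst - c • v.snd := rfl

lemma swp_swp {c s : ℝ} (h : c ^ 2 + s ^ 2 = 1) (v : VE k) : swp k c s (swp k c s v) = v := by
  apply VE_ext
  · simp only [swp_fst, swp_snd, smul_add, smul_sub, smul_smul]
    have : c * c = 1 - s * s := by nlinarith
    rw [this, sub_smul, one_smul]
    rw [mul_comm s c]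
    abel
  · simp only [swp_fst, swp_snd, smul_add, smul_sub, smul_smul]
    have : c * c = 1 - s * s := by nlinarith
    rw [this, sub_smul, one_smul]
    rw [mul_comm s c]
    abel

lemma inner_swp (c s : ℝ) (u v : VE k) : ⟪swp k c s u, v⟫ = ⟪u, swp k c s v⟫ := by
  rw [inner_VE, inner_VE]
  simp only [swp_fst, swp_snd, inner_add_right, inner_sub_right, real_inner_smul_right,
    inner_add_left, inner_sub_left, real_inner_smul_left]
  ring

/-- `½(Ψ(v) + Ψ(s v)) = ((q+1)/2) |v|²`. -/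
lemma BB_swp {c s r a : ℝ} (h : c ^ 2 + s ^ 2 = 1) (hr : 2 * s * r = c * (a - 1)) (v : VE k) :
    ⟪v, BB k r a v⟫ + ⟪swp k c s v, BB k r a (swp k c s v)⟫ = (a + 1) * ‖v‖ ^ 2 := by
  rw [inner_BB, inner_BB, norm_VE]
  simp only [swp_fst, swp_snd]
  rw [norm_add_sq_real, norm_sub_sq_real]
  simp only [inner_add_left, inner_sub_right, real_inner_smul_left, real_inner_smul_right,
    norm_smul, mul_pow, Real.norm_eq_abs, sq_abs, real_inner_self_eq_norm_sq]
  rw [real_inner_comm v.fst v.snd]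
  set X := ‖v.fst‖ ^ 2
  set Y := ‖v.snd‖ ^ 2
  set Z := ⟪v.fst, v.snd⟫
  linear_combination (a * X + Y - 2 * r * Z) * h + (c * X - c * Y + 2 * s * Z) * hr

end Vale.Agent.P156.H653
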