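import Vale.Agent.P156.H653.Wave

/-!
# Monotonicity of `ent(star) - (d/2) ent(edge)` and the equality case (scores)
-/

open MeasureTheory Real Module Filter
open Vale.Agent.P156.H849
open scoped RealInnerProductSpace ENNReal Topology

set_option linter.unusedSectionVars false

noncomputable section

namespace Vale.Agent.P156.H653

variable {q k : ℕ}

lemma norm_swp {c s : ℝ} (h : c ^ 2 + s ^ 2 = 1) (v : VE k) : ‖swp k c s v‖ = ‖v‖ := by
  have h1 : ‖swp k c s v‖ ^ 2 = ‖v‖ ^ 2 := by
    rw [← real_inner_self_eq_norm_sq, inner_swp, swp_swp h, real_inner_self_eq_norm_sq]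
  exact (pow_left_inj₀ (norm_nonneg _) (norm_nonneg _) two_ne_zero).1 h1

/-- The swap as a linear isometry equivalence. -/
def swpE (k : ℕ) {c s : ℝ} (h : c ^ 2 + s ^ 2 = 1) : VE k ≃ₗᵢ[ℝ] VE k where
  toFun := swp k c s
  invFun := swp k c s
  map_add' := (swp k c s).map_add
  map_smul' := (swp k c s).map_smul
  left_inv := swp_swp h
  right_inv := swp_swp h
  norm_map' := norm_swp h

lemma integral_swp {c s : ℝ} (h : c ^ 2 + s ^ 2 = 1) (f : VE k → ℝ) :
    ∫ y, f (swp k c s y) = ∫ y, f y :=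
  (swpE k h).measurePreserving.integral_comp (swpE k h).toHomeomorph.measurableEmbedding f

section edge

variable {ν : Measure (VE k)} [IsProbabilityMeasure ν] {c s : ℝ}

lemma pd_swp (h : c ^ 2 + s ^ 2 = 1) (hν : ν.map (swp k c s) = ν) (t : ℝ) (v : VE k) :
    pd ν t (swp k c s v) = pd ν t v := by
  unfold pd
  conv_lhs => rw [← hν]
  rw [integral_map (swp k c s).measurable.aemeasurable]
  · congr 1
    funext y
    rw [← map_sub]
    unfold gk
    rw [norm_swp h]
  · exact ((continuous_gk t).comp (by fun_prop : Continuous fun y => swp k c s v - y)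
      ).aestronglyMeasurable

lemma gd_swp (h : c ^ 2 + s ^ 2 = 1) (hν : ν.map (swp k c s) = ν) {t : ℝ} (ht : 0 < t)
    (v : VE k) : gd ν t (swp k c s v) = swp k c s (gd ν t v) := by
  unfold gd
  rw [← (swp k c s).integral_comp_comm (integrable_gksmul_shift ht v)]
  conv_lhs => rw [← hν]
  rw [integral_map (swp k c s).measurable.aemeasurable]
  · congr 1
    funext y
    rw [← map_sub, map_smul]
    congr 2
    unfold gk
    rw [norm_swp h]
  · exact ((continuous_gksmul t).comp (by fun_prop : Continuous fun y => swp k c s v - y)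
      ).aestronglyMeasurable

lemma sc_swp (h : c ^ 2 + s ^ 2 = 1) (hν : ν.map (swp k c s) = ν) {t : ℝ} (ht : 0 < t)
    (v : VE k) : sc ν t (swp k c s v) = swp k c s (sc ν t v) := by
  unfold sc
  rw [pd_swp h hν, gd_swp h hν ht, map_smul]

lemma edge_fish (h : c ^ 2 + s ^ 2 = 1) {r a : ℝ} (hr : 2 * s * r = c * (a - 1))
    (hν : ν.map (swp k c s) = ν) (h2 : Integrable (fun y => ‖y‖ ^ 2) ν) {t : ℝ} (ht : 0 < t) :
    ∫ y, ⟪sc ν t y, BB k r a (sc ν t y)⟫ * pd ν t y = ((a + 1) / 2) * fish ν t := by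
  obtain ⟨C, hC, hCb⟩ := exists_sc_bound (μ := ν) h2 ht
  have mS : Measurable (sc ν t) := (continuous_sc ht).measurable
  have i1 : Integrable (fun y => ⟪sc ν t y, BB k r a (sc ν t y)⟫ * pd ν t y) :=
    integrable_inner_pd h2 ht hC.le (by positivity : 0 ≤ ‖BB k r a‖ * C) mS
      ((BB k r a).measurable.comp mS) hCb (fun x => by
        refine ((BB k r a).le_opNorm _).trans ?_
        rw [mul_assoc]
        exact mul_le_mul_of_nonneg_left (hCb x) (norm_nonneg _))
  have e1 := integral_swp h (fun y => ⟪sc ν t y, BB k r a (sc ν t y)⟫ * pd ν t y)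
  simp only [sc_swp h hν ht, pd_swp h hν] at e1
  have i2 : Integrable (fun y => ⟪swp k c s (sc ν t y), BB k r a (swp k c s (sc ν t y))⟫ *
      pd ν t y) :=
    integrable_inner_pd h2 ht (by positivity : 0 ≤ C) (by positivity : 0 ≤ ‖BB k r a‖ * C)
      ((swp k c s).measurable.comp mS)
      ((BB k r a).measurable.comp ((swp k c s).measurable.comp mS))
      (fun x => by rw [norm_swp h]; exact hCb x) (fun x => by
        refine ((BB k r a).le_opNorm _).trans ?_
        rw [norm_swp h, mul_assoc]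
        exact mul_le_mul_of_nonneg_left (hCb x) (norm_nonneg _))
  have e2 : ∫ y, (⟪sc ν t y, BB k r a (sc ν t y)⟫ * pd ν t y +
      ⟪swp k c s (sc ν t y), BB k r a (swp k c s (sc ν t y))⟫ * pd ν t y) =
      (a + 1) * fish ν t := by
    rw [fish_eq ht, ← integral_const_mul]
    congr 1
    funext y
    rw [← add_mul, BB_swp h hr]
    ring
  rw [integral_add i1 i2, e1] at e2
  linarith

end edge

section star

variable {μ : Measure (VS q k)} [IsProbabilityMeasure μ] {ν : Measure (VE k)} {c s : ℝ}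

/-- The defect of the Fisher information inequality. -/
lemma defect_eq (hq : 1 ≤ q) (h : c ^ 2 + s ^ 2 = 1) {r : ℝ}
    (hr : 2 * s * r = c * ((q : ℝ) - 1)) (hm : ∀ l, μ.map (Pl q k l) = ν)
    (hν : ν.map (swp k c s) = ν) (h2 : Integrable (fun y => ‖y‖ ^ 2) μ) {t : ℝ} (ht : 0 < t) :
    ∑ l, ∫ x, ⟪Pl q k l (sc μ t x) - sc ν t (Pl q k l x),
        BB k r q (Pl q k l (sc μ t x) - sc ν t (Pl q k l x))⟫ * pd μ t x =
      ((q : ℝ) + 1) * (fish μ t - (((q : ℝ) + 1) / 2) * fish ν t) := by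
  have hν1 : IsProbabilityMeasure ν := by rw [← hm 0]; infer_instance
  have h2' : Integrable (fun y => ‖y‖ ^ 2) ν := by
    rw [← hm 0]; exact second_moment_map (Pl_adjoint hq 0) h2
  have e1 : ∀ l, ∫ x, ⟪Pl q k l (sc μ t x) - sc ν t (Pl q k l x),
        BB k r q (Pl q k l (sc μ t x) - sc ν t (Pl q k l x))⟫ * pd μ t x =
      (∫ x, ⟪Pl q k l (sc μ t x), BB k r q (Pl q k l (sc μ t x))⟫ * pd μ t x) -
      (((q : ℝ) + 1) / 2) * fish ν t := by
    intro l
    have := score_pythagoras (μ := μ) (Pl_adjoint hq l) h2 ht (BB k r q)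
      (fun u v => BB_symm r q u v)
    rw [hm l] at this
    rw [this, edge_fish h hr hν h2' ht]
  simp_rw [e1]
  rw [Finset.sum_sub_distrib, ← integral_finsetSum]
  · simp_rw [← Finset.sum_mul, sum_inner_BB hq, mul_assoc]
    rw [integral_const_mul, ← fish_eq ht]
    simp only [Finset.sum_const, Finset.card_univ, Fintype.card_fin, nsmul_eq_mul]
    push_cast
    ring
  · intro l _
    obtain ⟨C, hC, hCb⟩ := exists_sc_bound (μ := μ) h2 ht
    have mS : Measurable (sc μ t) := (continuous_sc ht).measurable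
    have b1 : ∀ x, ‖Pl q k l (sc μ t x)‖ ≤ C * (1 + ‖x‖) := fun x =>
      (norm_coiso_le (Pl_adjoint hq l) _).trans (hCb x)
    exact integrable_inner_pd h2 ht hC.le (by positivity : 0 ≤ ‖BB k r q‖ * C)
      ((Pl q k l).measurable.comp mS)
      ((BB k r q).measurable.comp ((Pl q k l).measurable.comp mS)) b1 (fun x => by
        refine ((BB k r q).le_opNorm _).trans ?_
        rw [mul_assoc]
        exact mul_le_mul_of_nonneg_left (b1 x) (norm_nonneg _))

lemma finrank_VS : finrank ℝ (VS q k) = (q + 1) * k := by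
  have : finrank ℝ (VS q k) = finrank ℝ (Ek k × (Fin q → Ek k)) := by
    have e1 := (WithLp.linearEquiv 2 ℝ (Ek k × PiLp 2 (fun _ : Fin q => Ek k))).finrank_eq
    rw [e1, finrank_prod, finrank_prod,
      (WithLp.linearEquiv 2 ℝ (Fin q → Ek k)).finrank_eq]
  rw [this, finrank_prod, finrank_pi_fintype]
  simp
  ring

lemma finrank_VE : finrank ℝ (VE k) = 2 * k := by
  have e1 := (WithLp.linearEquiv 2 ℝ (Ek k × Ek k)).finrank_eq
  rw [e1, finrank_prod]
  simp
  ring

/-- The entropy functional in isotropic coordinates. -/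
def Fiso (μ : Measure (VS q k)) (ν : Measure (VE k)) (t : ℝ) : ℝ :=
  ent μ t - (((q : ℝ) + 1) / 2) * ent ν t

/-- **Equality case.** If `Fiso ≥ 0` at one time then at some time the score of the star is
given by the score of each edge. -/
theorem exists_score_eq (hq : 1 ≤ q) (h : c ^ 2 + s ^ 2 = 1) {r : ℝ}
    (hr : 2 * s * r = c * ((q : ℝ) - 1)) (hrq : r ^ 2 < q) (hm : ∀ l, μ.map (Pl q k l) = ν)
    (hν : ν.map (swp k c s) = ν) (h2 : Integrable (fun y => ‖y‖ ^ 2) μ) {t0 : ℝ} (ht0 : 0 < t0)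
    (hF : 0 ≤ Fiso μ ν t0) :
    ∃ t, 0 < t ∧ ∀ l, ∀ x, Pl q k l (sc μ t x) = sc ν t (Pl q k l x) := by
  have hν1 : IsProbabilityMeasure ν := by rw [← hm 0]; infer_instance
  have h2' : Integrable (fun y => ‖y‖ ^ 2) ν := by
    rw [← hm 0]; exact second_moment_map (Pl_adjoint hq 0) h2
  set D : ℝ → ℝ := fun t => fish μ t - (((q : ℝ) + 1) / 2) * fish ν t with hD
  have hDF : ∀ t, 0 < t → HasDerivAt (Fiso μ ν) (D t / 2) t := by
    intro t ht
    have e1 := (hasDerivAt_ent (μ := μ) h2 ht).sub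
      ((hasDerivAt_ent (μ := ν) h2' ht).const_mul (((q : ℝ) + 1) / 2))
    refine HasDerivAt.congr_deriv e1 ?_
    rw [hD]; ring
  -- nonnegativity of each term
  have hterm : ∀ l t, 0 < t → 0 ≤ ∫ x, ⟪Pl q k l (sc μ t x) - sc ν t (Pl q k l x),
        BB k r q (Pl q k l (sc μ t x) - sc ν t (Pl q k l x))⟫ * pd μ t x := by
    intro l t ht
    refine integral_nonneg fun x => ?_
    exact mul_nonneg (BB_nonneg hrq.le _) (pd_pos ht x).le
  have hDnn : ∀ t, 0 < t → 0 ≤ D t := by
    intro t ht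
    have e1 := defect_eq (μ := μ) hq h hr hm hν h2 ht
    have e2 : 0 ≤ ((q : ℝ) + 1) * D t := by
      rw [hD]
      simp only
      rw [← e1]
      exact Finset.sum_nonneg fun l _ => hterm l t ht
    exact nonneg_of_mul_nonneg_right e2 (by positivity)
  -- upper bound of Fiso
  set M : ℝ := ∫ y, ‖y‖ ^ 2 ∂μ with hM
  have hM0 : 0 ≤ M := integral_nonneg fun y => by positivity
  have hup : ∀ t, 0 < t → Fiso μ ν t ≤ M / (2 * t) := by
    intro t ht
    have e1 := ent_le (μ := μ) h2 ht
    have e2 := le_ent (μ := ν) h2' ht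
    rw [finrank_VS] at e1
    rw [finrank_VE] at e2
    have e3 := mul_le_mul_of_nonneg_left e2 (by positivity : 0 ≤ ((q : ℝ) + 1) / 2)
    unfold Fiso
    push_cast at e1 e2 e3
    have e4 : (((q : ℝ) + 1) / 2) * (2 * (k : ℝ) / 2 * Real.log (2 * π * t) + 2 * (k : ℝ) / 2) =
      ((q : ℝ) + 1) * k / 2 * Real.log (2 * π * t) + ((q : ℝ) + 1) * k / 2 := by ring
    rw [e4] at e3
    linarith
  -- a time where the defect vanishes
  obtain ⟨t, ht, hDt⟩ : ∃ t, 0 < t ∧ D t = 0 := by
    by_contra hcon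
    push Not at hcon
    have hpos : ∀ t, 0 < t → 0 < D t := fun t ht =>
      lt_of_le_of_ne (hDnn t ht) (Ne.symm (hcon t ht))
    have hmono : StrictMonoOn (Fiso μ ν) (Set.Ioi 0) := by
      refine strictMonoOn_of_deriv_pos (convex_Ioi 0) ?_ ?_
      · intro t ht
        exact (hDF t ht).continuousAt.continuousWithinAt
      · intro t ht
        rw [interior_Ioi] at ht
        rw [(hDF t ht).deriv]
        have := hpos t ht
        positivity
    have h1 : 0 < Fiso μ ν (t0 + 1) :=
      lt_of_le_of_lt hF (hmono ht0 (show (0 : ℝ) < t0 + 1 by linarith) (by linarith))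
    set ε := Fiso μ ν (t0 + 1) with hε
    obtain ⟨T, hT1, hT2⟩ : ∃ T, t0 + 1 < T ∧ M / (2 * T) < ε := by
      refine ⟨t0 + 2 + M / ε, ?_, ?_⟩
      · have : 0 ≤ M / ε := by positivity
        linarith
      · have hpos2 : 0 < t0 + 2 + M / ε := by positivity
        rw [div_lt_iff₀ (by positivity)]
        have : ε * (2 * (t0 + 2 + M / ε)) = 2 * ε * (t0 + 2) + 2 * M := by
          field_simp
        rw [this]
        have : 0 < 2 * ε * (t0 + 2) := by positivity
        linarith
    have h3 := hmono (show (0 : ℝ) < t0 + 1 by linarith) (show (0 : ℝ) < T by linarith) hT1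
    have h4 := hup T (by linarith)
    linarith
  refine ⟨t, ht, fun l => ?_⟩
  have e1 := defect_eq (μ := μ) hq h hr hm hν h2 ht
  have e2 : ((q : ℝ) + 1) * (fish μ t - (((q : ℝ) + 1) / 2) * fish ν t) = 0 := by
    have : fish μ t - (((q : ℝ) + 1) / 2) * fish ν t = D t := rfl
    rw [this, hDt, mul_zero]
  rw [e2] at e1
  have e3 := (Finset.sum_eq_zero_iff_of_nonneg (fun l _ => hterm l t ht)).1 e1 l
    (Finset.mem_univ l)
  have cu : Continuous (fun x => Pl q k l (sc μ t x) - sc ν t (Pl q k l x)) :=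
    ((Pl q k l).continuous.comp (continuous_sc ht)).sub
      ((continuous_sc ht).comp (Pl q k l).continuous)
  have cint : Continuous (fun x => ⟪Pl q k l (sc μ t x) - sc ν t (Pl q k l x),
        BB k r q (Pl q k l (sc μ t x) - sc ν t (Pl q k l x))⟫ * pd μ t x) :=
    (cu.inner ((BB k r q).continuous.comp cu)).mul (continuous_pd ht)
  have iint : Integrable (fun x => ⟪Pl q k l (sc μ t x) - sc ν t (Pl q k l x),
        BB k r q (Pl q k l (sc μ t x) - sc ν t (Pl q k l x))⟫ * pd μ t x) := by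
    obtain ⟨C, hC, hCb⟩ := exists_sc_bound (μ := μ) h2 ht
    obtain ⟨C', hC', hCb'⟩ := exists_sc_bound (μ := ν) h2' ht
    have b1 : ∀ x, ‖Pl q k l (sc μ t x) - sc ν t (Pl q k l x)‖ ≤ (C + C') * (1 + ‖x‖) := by
      intro x
      refine (norm_sub_le _ _).trans ?_
      have f1 := (norm_coiso_le (Pl_adjoint hq l) (sc μ t x)).trans (hCb x)
      have f2 := hCb' (Pl q k l x)
      have f3 := norm_coiso_le (Pl_adjoint hq l) x
      have f4 : C' * (1 + ‖Pl q k l x‖) ≤ C' * (1 + ‖x‖) := by gcongr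
      linarith
    exact integrable_inner_pd h2 ht (by positivity : 0 ≤ C + C')
      (by positivity : 0 ≤ ‖BB k r q‖ * (C + C')) cu.measurable
      ((BB k r q).measurable.comp cu.measurable) b1 (fun x => by
        refine ((BB k r q).le_opNorm _).trans ?_
        rw [mul_assoc]
        exact mul_le_mul_of_nonneg_left (b1 x) (norm_nonneg _))
  have e4 := (integral_eq_zero_iff_of_nonneg (fun x =>
    mul_nonneg (BB_nonneg hrq.le _) (pd_pos ht x).le) iint).1 e3
  have e5 := (cint.ae_eq_iff_eq (volume : Measure (VS q k)) continuous_const).1 e4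
  intro x
  have e6 := congrFun e5 x
  have e7 : ⟪Pl q k l (sc μ t x) - sc ν t (Pl q k l x),
        BB k r q (Pl q k l (sc μ t x) - sc ν t (Pl q k l x))⟫ = 0 := by
    rcases mul_eq_zero.1 e6 with h | h
    · exact h
    · exact absurd h (pd_pos ht x).ne'
  exact sub_eq_zero.1 (BB_eq_zero hrq e7)

end star

end Vale.Agent.P156.H653
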